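import Vale.Agent.Lib.Helper3.P302Inst

/-!
Glue between packings and index triples: a packing of `3 k + 2` sorted items, each larger than
a quarter of the capacity, into `k + 1` bins yields `k` disjoint triples on the `3 k` smallest
indices.
-/

namespace Vale.Agent.Lib.Helper8.P302Glue

open Finset Vale.Agent.Lib.Helper3.BinPacking

/-- rank of `u` in `U`: the number of elements of `U` below `u`. -/
def rk (U : Finset ℕ) (u : ℕ) : ℕ := (U.filter (fun v => v < u)).card

theorem rk_le (U : Finset ℕ) (u : ℕ) : rk U u ≤ u := by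
  unfold rk
  calc (U.filter (fun v => v < u)).card ≤ (Finset.range u).card := by
        apply Finset.card_le_card
        intro v hv
        rw [Finset.mem_filter] at hv
        exact Finset.mem_range.2 hv.2
    _ = u := Finset.card_range u

theorem rk_lt_of_lt (U : Finset ℕ) {u u' : ℕ} (hu : u ∈ U) (h : u < u') :
    rk U u < rk U u' := by
  unfold rk
  apply Finset.card_lt_card
  rw [Finset.ssubset_iff_of_subset]
  · exact ⟨u, Finset.mem_filter.2 ⟨hu, h⟩, fun h' => lt_irrefl u (Finset.mem_filter.1 h').2⟩
  · intro v hv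
    rw [Finset.mem_filter] at hv ⊢
    exact ⟨hv.1, lt_trans hv.2 h⟩

theorem rk_lt_card (U : Finset ℕ) {u : ℕ} (hu : u ∈ U) : rk U u < U.card := by
  unfold rk
  apply Finset.card_lt_card
  rw [Finset.ssubset_iff_of_subset (Finset.filter_subset _ _)]
  exact ⟨u, hu, fun h' => lt_irrefl u (Finset.mem_filter.1 h').2⟩

theorem rk_injOn (U : Finset ℕ) : Set.InjOn (rk U) (U : Set ℕ) := by
  intro u hu u' hu' h
  rcases lt_trichotomy u u' with h1 | h1 | h1
  · exact absurd h (ne_of_lt (rk_lt_of_lt U hu h1))
  · exact h1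
  · exact absurd h.symm (ne_of_lt (rk_lt_of_lt U hu' h1))

/-- Compress a family of disjoint triples onto an initial segment of the indices: weights are
monotone, so the total weight of each triple does not increase. -/
theorem packable_compress (wt : ℕ → ℕ) (C n : ℕ) (hmono : ∀ i j, i ≤ j → j < n → wt i ≤ wt j)
    (ι : Type) [DecidableEq ι] (B : Finset ι) (T : ι → Finset ℕ)
    (hT3 : ∀ b ∈ B, (T b).card = 3) (hTw : ∀ b ∈ B, ∑ i ∈ T b, wt i ≤ C)
    (hTn : ∀ b ∈ B, ∀ i ∈ T b, i < n)
    (hdisj : ∀ b ∈ B, ∀ b' ∈ B, b ≠ b' → Disjoint (T b) (T b')) :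
    Packable wt C (Finset.range (3 * B.card)) := by
  classical
  set U := B.biUnion T with hU
  have hUcard : U.card = 3 * B.card := by
    rw [hU, Finset.card_biUnion (fun b hb b' hb' hbb' => hdisj b hb b' hb' hbb'),
      Finset.sum_congr rfl hT3, Finset.sum_const, smul_eq_mul, mul_comm]
  have hsubU : ∀ b ∈ B, T b ⊆ U := fun b hb => Finset.subset_biUnion_of_mem T hb
  refine ⟨B.image (fun b => (T b).image (rk U)), ?_, ?_, ?_⟩
  · intro S hS
    rw [Finset.mem_image] at hS
    obtain ⟨b, hb, rfl⟩ := hS
    have hinj : Set.InjOn (rk U) (T b : Set ℕ) :=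
      (rk_injOn U).mono (Finset.coe_subset.2 (hsubU b hb))
    constructor
    · rw [Finset.card_image_of_injOn hinj]
      exact hT3 b hb
    · rw [Finset.sum_image (fun x hx y hy hxy => hinj hx hy hxy)]
      refine le_trans (Finset.sum_le_sum (fun i hi => ?_)) (hTw b hb)
      exact hmono _ _ (rk_le U i) (hTn b hb i hi)
  · intro S hS S' hS' hne
    rw [Finset.mem_image] at hS hS'
    obtain ⟨b, hb, rfl⟩ := hS
    obtain ⟨b', hb', rfl⟩ := hS'
    have hbb : b ≠ b' := fun h => hne (by rw [h])
    rw [Finset.disjoint_left]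
    intro x hx hx'
    rw [Finset.mem_image] at hx hx'
    obtain ⟨u, hu, rfl⟩ := hx
    obtain ⟨u', hu', hx'⟩ := hx'
    have huu : u' = u := rk_injOn U (hsubU b' hb' hu') (hsubU b hb hu) hx'
    rw [huu] at hu'
    exact Finset.disjoint_left.1 (hdisj b hb b' hb' hbb) hu hu'
  · have h1 : (B.image (fun b => (T b).image (rk U))).biUnion id = U.image (rk U) := by
      ext x
      simp only [Finset.mem_biUnion, Finset.mem_image, id, hU]
      constructor
      · rintro ⟨S, ⟨b, hb, rfl⟩, hx⟩
        rw [Finset.mem_image] at hx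
        obtain ⟨u, hu, rfl⟩ := hx
        exact ⟨u, ⟨b, hb, hu⟩, rfl⟩
      · rintro ⟨u, ⟨b, hb, hu⟩, rfl⟩
        exact ⟨(T b).image (rk U), ⟨b, hb, rfl⟩, Finset.mem_image_of_mem _ hu⟩
    rw [h1]
    apply Finset.eq_of_subset_of_card_le
    · intro x hx
      rw [Finset.mem_image] at hx
      obtain ⟨u, hu, rfl⟩ := hx
      rw [Finset.mem_range, ← hUcard]
      exact rk_lt_card U hu
    · rw [Finset.card_range, Finset.card_image_of_injOn (rk_injOn U), hUcard]

/-- A packing of `n = 3 k + 2` items with sorted weights, each weight larger than a quarter of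
the capacity, into `k + 1` bins gives `k` pairwise disjoint triples of total weight at most the
capacity which cover exactly the `3 k` smallest indices. -/
theorem packable_of_packing (n k C : ℕ) (ws : List ℕ) (hlen : ws.length = n) (hn : n = 3 * k + 2)
    (hsorted : ws.Pairwise (fun x y => x ≤ y)) (hbig : ∀ w, w ∈ ws → C < 4 * w) (hC : 0 < C)
    (a : Fin n → ℚ) (ha : ∀ i, a i = (ws.getD (i : ℕ) 0 : ℚ) / (C : ℚ))
    (h : ∃ f : Fin n → Fin (k + 1), IsPacking a (k + 1) f) :
    Packable (fun i => ws.getD i 0) C (Finset.range (3 * k)) := by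
  classical
  obtain ⟨f, hf⟩ := h
  set wt : ℕ → ℕ := fun i => ws.getD i 0 with hwt
  have hCq : (0 : ℚ) < (C : ℚ) := by exact_mod_cast hC
  have hmono : ∀ i j, i ≤ j → j < n → wt i ≤ wt j := by
    intro i j hij hj
    rcases Nat.eq_or_lt_of_le hij with heq | hlt
    · rw [heq]
    · have hj' : j < ws.length := by omega
      have hi' : i < ws.length := by omega
      simp only [hwt]
      rw [List.getD_eq_getElem _ _ hi', List.getD_eq_getElem _ _ hj']
      exact List.pairwise_iff_getElem.1 hsorted i j hi' hj' hlt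
  have hbig' : ∀ i, i < n → C < 4 * wt i := by
    intro i hi
    have hi' : i < ws.length := by omega
    simp only [hwt]
    rw [List.getD_eq_getElem _ _ hi']
    exact hbig _ (List.getElem_mem hi')
  set F : Fin (k + 1) → Finset (Fin n) := fun b => univ.filter (fun i => f i = b) with hF
  have hFw : ∀ b, ∑ i ∈ F b, wt (i : ℕ) ≤ C := by
    intro b
    have h1 : ∑ i ∈ F b, a i ≤ 1 := hf b
    have h2 : ∑ i ∈ F b, a i = ((∑ i ∈ F b, wt (i : ℕ) : ℕ) : ℚ) / (C : ℚ) := by
      rw [Nat.cast_sum, Finset.sum_div]
      apply Finset.sum_congr rfl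
      intro i _
      rw [ha i]
    rw [h2, div_le_one hCq] at h1
    exact_mod_cast h1
  have hF3 : ∀ b, (F b).card ≤ 3 := by
    intro b
    by_contra hcon
    push Not at hcon
    have h1 : (F b).card * C < 4 * ∑ i ∈ F b, wt (i : ℕ) := by
      rw [Finset.mul_sum, ← smul_eq_mul, ← Finset.sum_const]
      apply Finset.sum_lt_sum_of_nonempty
      · exact Finset.card_pos.1 (by omega)
      · intro i _
        exact hbig' i i.2
    have h2 := hFw b
    nlinarith
  have hsumF : ∑ b, (F b).card = n := by
    have h1 := Finset.card_eq_sum_card_fiberwise (s := (univ : Finset (Fin n)))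
      (t := (univ : Finset (Fin (k + 1)))) (f := f) (fun i _ => Finset.mem_univ _)
    simp only [Finset.card_univ, Fintype.card_fin] at h1
    exact h1.symm
  set B3 := (univ : Finset (Fin (k + 1))).filter (fun b => (F b).card = 3) with hB3
  have hB3card : k ≤ B3.card := by
    by_contra hcon
    push Not at hcon
    have h1 : ∑ b, (F b).card ≤ ∑ b : Fin (k + 1), (2 + (if (F b).card = 3 then 1 else 0)) := by
      apply Finset.sum_le_sum
      intro b _
      have h3 := hF3 b
      split_ifs with h4
      · omega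
      · omega
    have h2 : ∑ b : Fin (k + 1), (2 + (if (F b).card = 3 then 1 else 0))
        = 2 * (k + 1) + B3.card := by
      rw [Finset.sum_add_distrib, Finset.sum_const, Finset.card_univ, Fintype.card_fin,
        ← Finset.card_filter, smul_eq_mul, mul_comm]
    omega
  obtain ⟨B, hBsub, hBcard⟩ := Finset.exists_subset_card_eq hB3card
  have hres := packable_compress wt C n hmono (Fin (k + 1)) B
    (fun b => (F b).image (fun i : Fin n => (i : ℕ))) ?_ ?_ ?_ ?_
  · rw [hBcard] at hres
    exact hres
  · intro b hb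
    rw [Finset.card_image_of_injective _ Fin.val_injective]
    have h1 := hBsub hb
    rw [hB3, Finset.mem_filter] at h1
    exact h1.2
  · intro b hb
    rw [Finset.sum_image (fun x _ y _ hxy => Fin.val_injective hxy)]
    exact hFw b
  · intro b hb i hi
    rw [Finset.mem_image] at hi
    obtain ⟨j, _, rfl⟩ := hi
    exact j.2
  · intro b hb b' hb' hbb'
    rw [Finset.disjoint_left]
    intro x hx hx'
    rw [Finset.mem_image] at hx hx'
    obtain ⟨j, hj, rfl⟩ := hx
    obtain ⟨j', hj', hjj'⟩ := hx'
    have hj'' : j' = j := Fin.val_injective hjj'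
    rw [hj''] at hj'
    simp only [hF, Finset.mem_filter, Finset.mem_univ, true_and] at hj hj'
    exact hbb' (hj.symm.trans hj')

end Vale.Agent.Lib.Helper8.P302Glue
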