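import Vale.Agent.Lib.Helper8.P302LP
import Vale.Agent.Lib.Helper8.P302Glue

/-!
Assembly for the 65 item instance: if the 63 smallest items cannot be split into 21 feasible
triples, then the optimum is at least 23, while the linear programming value is at most
`523 / 24`; hence the gap is at least `29 / 24`.
-/

namespace Vale.Agent.Lib.Helper8.P302Assembly

open Finset Vale.Agent.Lib.Helper3.BinPacking

theorem wts_sorted : wts.Pairwise (fun x y => x ≤ y) := by decide

theorem wts_big : ∀ w, w ∈ wts → cap < 4 * w := by decide

theorem wts_le_cap : ∀ w, w ∈ wts → w ≤ cap := by decide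

theorem wts_length : wts.length = 65 := by decide

theorem inst_pos_le (i : Fin 65) : 0 < inst i ∧ inst i ≤ 1 := by
  have hi : (i : ℕ) < wts.length := by
    rw [wts_length]
    exact i.2
  have hmem : wts.getD (i : ℕ) 0 ∈ wts := by
    rw [List.getD_eq_getElem _ _ hi]
    exact List.getElem_mem hi
  have h1 := wts_big _ hmem
  have h2 := wts_le_cap _ hmem
  have hcap : (0 : ℚ) < (cap : ℚ) := by
    have : 0 < cap := by decide
    exact_mod_cast this
  have hpos : 0 < wts.getD (i : ℕ) 0 := by omega
  unfold inst
  constructor
  · apply div_pos _ hcap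
    exact_mod_cast hpos
  · rw [div_le_one hcap]
    exact_mod_cast h2

/-- If the 63 smallest items admit no splitting into 21 feasible triples, then `23 ≤ opt`. -/
theorem opt_inst_ge (h : ¬ Packable (fun i => wts.getD i 0) cap (Finset.range 63)) :
    23 ≤ opt inst := by
  apply succ_le_opt inst (fun i => (inst_pos_le i).2) 22
  intro hpack
  apply h
  exact Vale.Agent.Lib.Helper8.P302Glue.packable_of_packing 65 21 cap wts wts_length (by norm_num)
    wts_sorted wts_big (by decide) inst (fun i => rfl) hpack

/-- The gap statement for the 65 item instance, assuming the certificate. -/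
theorem gap_of_not_packable (h : ¬ Packable (fun i => wts.getD i 0) cap (Finset.range 63)) :
    ∃ (n : ℕ) (a : Fin n → ℚ), (∀ i, 0 < a i ∧ a i ≤ 1) ∧
      (29 / 24 : ℝ) ≤ (opt a : ℝ) - lp a := by
  refine ⟨65, inst, inst_pos_le, ?_⟩
  have h1 : (23 : ℝ) ≤ (opt inst : ℝ) := by exact_mod_cast opt_inst_ge h
  have h2 := Vale.Agent.Lib.Helper8.P302LP.lp_inst_le
  linarith

end Vale.Agent.Lib.Helper8.P302Assembly
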