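import Vale.Agent.Lib.Helper8.P302L236Cert

/-!
The 234 smallest items of the 236 item instance cannot be split into 78 feasible triples.
The statements are those of the first certificate (72034 states, largest index as pivot);
they are now proved by the light certificate (711 states, a pivot for every state).
-/

namespace Vale.Agent.Lib.Helper8.P302B1Tree

open Vale.Agent.Lib.Helper3.BinPacking

theorem sorted_ok : wts236.Pairwise (fun x y => x ≤ y) :=
  Vale.Agent.Lib.Helper8.P302L236Tree.sorted_ok

/-- The 234 smallest items cannot be split into 78 triples of total weight at most the
capacity. -/
theorem not_packable : ¬ Packable (fun i => wts236.getD i 0) cap236 (Finset.range 234) :=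
  Vale.Agent.Lib.Helper8.P302L236Tree.not_packable

end Vale.Agent.Lib.Helper8.P302B1Tree
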