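import Vale.Agent.Lib.Helper8.P302B1Tbl

/-!
Check of a part of the certificate.
-/

namespace Vale.Agent.Lib.Helper8.P302B1Tree

open Vale.Agent.Lib.Helper3.BinPacking Vale.Agent.Lib.Helper8.P302Cert
open Vale.Agent.Lib.Helper8.P302Cert3 Vale.Agent.Lib.Helper8.P302Cert4
open Vale.Agent.Lib.Helper8.P302Cert5

theorem ok_traaaaaaaa : ∀ m h, PTree.MemP keyMask keyShift m h traaaaaaaa →
    stateOk 234 (thrR rowTree rowDepth) (hasP keyMask deadTree) m h = true :=
  fun m h hm => everyP_of_mem keyMask keyShift _ m h traaaaaaaa (by decide +kernel) hm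

theorem ok_traaaaaaab : ∀ m h, PTree.MemP keyMask keyShift m h traaaaaaab →
    stateOk 234 (thrR rowTree rowDepth) (hasP keyMask deadTree) m h = true :=
  fun m h hm => everyP_of_mem keyMask keyShift _ m h traaaaaaab (by decide +kernel) hm

theorem ok_traaaaaaba : ∀ m h, PTree.MemP keyMask keyShift m h traaaaaaba →
    stateOk 234 (thrR rowTree rowDepth) (hasP keyMask deadTree) m h = true :=
  fun m h hm => everyP_of_mem keyMask keyShift _ m h traaaaaaba (by decide +kernel) hm

theorem ok_traaaaaabb : ∀ m h, PTree.MemP keyMask keyShift m h traaaaaabb →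
    stateOk 234 (thrR rowTree rowDepth) (hasP keyMask deadTree) m h = true :=
  fun m h hm => everyP_of_mem keyMask keyShift _ m h traaaaaabb (by decide +kernel) hm

theorem ok_traaaaabaa : ∀ m h, PTree.MemP keyMask keyShift m h traaaaabaa →
    stateOk 234 (thrR rowTree rowDepth) (hasP keyMask deadTree) m h = true :=
  fun m h hm => everyP_of_mem keyMask keyShift _ m h traaaaabaa (by decide +kernel) hm

theorem ok_traaaaabab : ∀ m h, PTree.MemP keyMask keyShift m h traaaaabab →
    stateOk 234 (thrR rowTree rowDepth) (hasP keyMask deadTree) m h = true :=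
  fun m h hm => everyP_of_mem keyMask keyShift _ m h traaaaabab (by decide +kernel) hm

theorem ok_traaaaabba : ∀ m h, PTree.MemP keyMask keyShift m h traaaaabba →
    stateOk 234 (thrR rowTree rowDepth) (hasP keyMask deadTree) m h = true :=
  fun m h hm => everyP_of_mem keyMask keyShift _ m h traaaaabba (by decide +kernel) hm

theorem ok_traaaaabbb : ∀ m h, PTree.MemP keyMask keyShift m h traaaaabbb →
    stateOk 234 (thrR rowTree rowDepth) (hasP keyMask deadTree) m h = true :=
  fun m h hm => everyP_of_mem keyMask keyShift _ m h traaaaabbb (by decide +kernel) hm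

theorem ok_traaaabaaa : ∀ m h, PTree.MemP keyMask keyShift m h traaaabaaa →
    stateOk 234 (thrR rowTree rowDepth) (hasP keyMask deadTree) m h = true :=
  fun m h hm => everyP_of_mem keyMask keyShift _ m h traaaabaaa (by decide +kernel) hm

theorem ok_traaaabaab : ∀ m h, PTree.MemP keyMask keyShift m h traaaabaab →
    stateOk 234 (thrR rowTree rowDepth) (hasP keyMask deadTree) m h = true :=
  fun m h hm => everyP_of_mem keyMask keyShift _ m h traaaabaab (by decide +kernel) hm

theorem ok_traaaababa : ∀ m h, PTree.MemP keyMask keyShift m h traaaababa →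
    stateOk 234 (thrR rowTree rowDepth) (hasP keyMask deadTree) m h = true :=
  fun m h hm => everyP_of_mem keyMask keyShift _ m h traaaababa (by decide +kernel) hm

theorem ok_traaaababb : ∀ m h, PTree.MemP keyMask keyShift m h traaaababb →
    stateOk 234 (thrR rowTree rowDepth) (hasP keyMask deadTree) m h = true :=
  fun m h hm => everyP_of_mem keyMask keyShift _ m h traaaababb (by decide +kernel) hm

theorem ok_traaaabbaa : ∀ m h, PTree.MemP keyMask keyShift m h traaaabbaa →
    stateOk 234 (thrR rowTree rowDepth) (hasP keyMask deadTree) m h = true :=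
  fun m h hm => everyP_of_mem keyMask keyShift _ m h traaaabbaa (by decide +kernel) hm

theorem ok_traaaabbab : ∀ m h, PTree.MemP keyMask keyShift m h traaaabbab →
    stateOk 234 (thrR rowTree rowDepth) (hasP keyMask deadTree) m h = true :=
  fun m h hm => everyP_of_mem keyMask keyShift _ m h traaaabbab (by decide +kernel) hm

theorem ok_traaaabbba : ∀ m h, PTree.MemP keyMask keyShift m h traaaabbba →
    stateOk 234 (thrR rowTree rowDepth) (hasP keyMask deadTree) m h = true :=
  fun m h hm => everyP_of_mem keyMask keyShift _ m h traaaabbba (by decide +kernel) hm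

theorem ok_traaaabbbb : ∀ m h, PTree.MemP keyMask keyShift m h traaaabbbb →
    stateOk 234 (thrR rowTree rowDepth) (hasP keyMask deadTree) m h = true :=
  fun m h hm => everyP_of_mem keyMask keyShift _ m h traaaabbbb (by decide +kernel) hm

end Vale.Agent.Lib.Helper8.P302B1Tree
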