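import Vale.Agent.Lib.Helper8.P302B1Tbl

/-!
Check of a part of the certificate.
-/

namespace Vale.Agent.Lib.Helper8.P302B1Tree

open Vale.Agent.Lib.Helper3.BinPacking Vale.Agent.Lib.Helper8.P302Cert
open Vale.Agent.Lib.Helper8.P302Cert3 Vale.Agent.Lib.Helper8.P302Cert4
open Vale.Agent.Lib.Helper8.P302Cert5

theorem ok_traaabaaaa : ∀ m h, PTree.MemP keyMask keyShift m h traaabaaaa →
    stateOk 234 (thrR rowTree rowDepth) (hasP keyMask deadTree) m h = true :=
  fun m h hm => everyP_of_mem keyMask keyShift _ m h traaabaaaa (by decide +kernel) hm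

theorem ok_traaabaaab : ∀ m h, PTree.MemP keyMask keyShift m h traaabaaab →
    stateOk 234 (thrR rowTree rowDepth) (hasP keyMask deadTree) m h = true :=
  fun m h hm => everyP_of_mem keyMask keyShift _ m h traaabaaab (by decide +kernel) hm

theorem ok_traaabaaba : ∀ m h, PTree.MemP keyMask keyShift m h traaabaaba →
    stateOk 234 (thrR rowTree rowDepth) (hasP keyMask deadTree) m h = true :=
  fun m h hm => everyP_of_mem keyMask keyShift _ m h traaabaaba (by decide +kernel) hm

theorem ok_traaabaabb : ∀ m h, PTree.MemP keyMask keyShift m h traaabaabb →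
    stateOk 234 (thrR rowTree rowDepth) (hasP keyMask deadTree) m h = true :=
  fun m h hm => everyP_of_mem keyMask keyShift _ m h traaabaabb (by decide +kernel) hm

theorem ok_traaababaa : ∀ m h, PTree.MemP keyMask keyShift m h traaababaa →
    stateOk 234 (thrR rowTree rowDepth) (hasP keyMask deadTree) m h = true :=
  fun m h hm => everyP_of_mem keyMask keyShift _ m h traaababaa (by decide +kernel) hm

theorem ok_traaababab : ∀ m h, PTree.MemP keyMask keyShift m h traaababab →
    stateOk 234 (thrR rowTree rowDepth) (hasP keyMask deadTree) m h = true :=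
  fun m h hm => everyP_of_mem keyMask keyShift _ m h traaababab (by decide +kernel) hm

theorem ok_traaababba : ∀ m h, PTree.MemP keyMask keyShift m h traaababba →
    stateOk 234 (thrR rowTree rowDepth) (hasP keyMask deadTree) m h = true :=
  fun m h hm => everyP_of_mem keyMask keyShift _ m h traaababba (by decide +kernel) hm

theorem ok_traaababbb : ∀ m h, PTree.MemP keyMask keyShift m h traaababbb →
    stateOk 234 (thrR rowTree rowDepth) (hasP keyMask deadTree) m h = true :=
  fun m h hm => everyP_of_mem keyMask keyShift _ m h traaababbb (by decide +kernel) hm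

theorem ok_traaabbaaa : ∀ m h, PTree.MemP keyMask keyShift m h traaabbaaa →
    stateOk 234 (thrR rowTree rowDepth) (hasP keyMask deadTree) m h = true :=
  fun m h hm => everyP_of_mem keyMask keyShift _ m h traaabbaaa (by decide +kernel) hm

theorem ok_traaabbaab : ∀ m h, PTree.MemP keyMask keyShift m h traaabbaab →
    stateOk 234 (thrR rowTree rowDepth) (hasP keyMask deadTree) m h = true :=
  fun m h hm => everyP_of_mem keyMask keyShift _ m h traaabbaab (by decide +kernel) hm

theorem ok_traaabbaba : ∀ m h, PTree.MemP keyMask keyShift m h traaabbaba →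
    stateOk 234 (thrR rowTree rowDepth) (hasP keyMask deadTree) m h = true :=
  fun m h hm => everyP_of_mem keyMask keyShift _ m h traaabbaba (by decide +kernel) hm

theorem ok_traaabbabb : ∀ m h, PTree.MemP keyMask keyShift m h traaabbabb →
    stateOk 234 (thrR rowTree rowDepth) (hasP keyMask deadTree) m h = true :=
  fun m h hm => everyP_of_mem keyMask keyShift _ m h traaabbabb (by decide +kernel) hm

theorem ok_traaabbbaa : ∀ m h, PTree.MemP keyMask keyShift m h traaabbbaa →
    stateOk 234 (thrR rowTree rowDepth) (hasP keyMask deadTree) m h = true :=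
  fun m h hm => everyP_of_mem keyMask keyShift _ m h traaabbbaa (by decide +kernel) hm

theorem ok_traaabbbab : ∀ m h, PTree.MemP keyMask keyShift m h traaabbbab →
    stateOk 234 (thrR rowTree rowDepth) (hasP keyMask deadTree) m h = true :=
  fun m h hm => everyP_of_mem keyMask keyShift _ m h traaabbbab (by decide +kernel) hm

theorem ok_traaabbbba : ∀ m h, PTree.MemP keyMask keyShift m h traaabbbba →
    stateOk 234 (thrR rowTree rowDepth) (hasP keyMask deadTree) m h = true :=
  fun m h hm => everyP_of_mem keyMask keyShift _ m h traaabbbba (by decide +kernel) hm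

theorem ok_traaabbbbb : ∀ m h, PTree.MemP keyMask keyShift m h traaabbbbb →
    stateOk 234 (thrR rowTree rowDepth) (hasP keyMask deadTree) m h = true :=
  fun m h hm => everyP_of_mem keyMask keyShift _ m h traaabbbbb (by decide +kernel) hm

end Vale.Agent.Lib.Helper8.P302B1Tree
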