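import Vale.Agent.Lib.Helper8.P302B1Chk6

/-!
Check of a part of the certificate.
-/

namespace Vale.Agent.Lib.Helper8.P302B1Tree

open Vale.Agent.Lib.Helper3.BinPacking Vale.Agent.Lib.Helper8.P302Cert
open Vale.Agent.Lib.Helper8.P302Cert3 Vale.Agent.Lib.Helper8.P302Cert4
open Vale.Agent.Lib.Helper8.P302Cert5

theorem ok_trbabaaaaa : ∀ m h, PTree.MemP keyMask keyShift m h trbabaaaaa →
    stateOk 234 (thrR rowTree rowDepth) (hasP keyMask deadTree) m h = true :=
  fun m h hm => everyP_of_mem keyMask keyShift _ m h trbabaaaaa (by decide +kernel) hm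

theorem ok_trbabaaaab : ∀ m h, PTree.MemP keyMask keyShift m h trbabaaaab →
    stateOk 234 (thrR rowTree rowDepth) (hasP keyMask deadTree) m h = true :=
  fun m h hm => everyP_of_mem keyMask keyShift _ m h trbabaaaab (by decide +kernel) hm

theorem ok_trbabaaaba : ∀ m h, PTree.MemP keyMask keyShift m h trbabaaaba →
    stateOk 234 (thrR rowTree rowDepth) (hasP keyMask deadTree) m h = true :=
  fun m h hm => everyP_of_mem keyMask keyShift _ m h trbabaaaba (by decide +kernel) hm

theorem ok_trbabaaabb : ∀ m h, PTree.MemP keyMask keyShift m h trbabaaabb →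
    stateOk 234 (thrR rowTree rowDepth) (hasP keyMask deadTree) m h = true :=
  fun m h hm => everyP_of_mem keyMask keyShift _ m h trbabaaabb (by decide +kernel) hm

theorem ok_trbabaabaa : ∀ m h, PTree.MemP keyMask keyShift m h trbabaabaa →
    stateOk 234 (thrR rowTree rowDepth) (hasP keyMask deadTree) m h = true :=
  fun m h hm => everyP_of_mem keyMask keyShift _ m h trbabaabaa (by decide +kernel) hm

theorem ok_trbabaabab : ∀ m h, PTree.MemP keyMask keyShift m h trbabaabab →
    stateOk 234 (thrR rowTree rowDepth) (hasP keyMask deadTree) m h = true :=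
  fun m h hm => everyP_of_mem keyMask keyShift _ m h trbabaabab (by decide +kernel) hm

theorem ok_trbabaabba : ∀ m h, PTree.MemP keyMask keyShift m h trbabaabba →
    stateOk 234 (thrR rowTree rowDepth) (hasP keyMask deadTree) m h = true :=
  fun m h hm => everyP_of_mem keyMask keyShift _ m h trbabaabba (by decide +kernel) hm

theorem ok_trbabaabbb : ∀ m h, PTree.MemP keyMask keyShift m h trbabaabbb →
    stateOk 234 (thrR rowTree rowDepth) (hasP keyMask deadTree) m h = true :=
  fun m h hm => everyP_of_mem keyMask keyShift _ m h trbabaabbb (by decide +kernel) hm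

theorem ok_trbababaaa : ∀ m h, PTree.MemP keyMask keyShift m h trbababaaa →
    stateOk 234 (thrR rowTree rowDepth) (hasP keyMask deadTree) m h = true :=
  fun m h hm => everyP_of_mem keyMask keyShift _ m h trbababaaa (by decide +kernel) hm

theorem ok_trbababaab : ∀ m h, PTree.MemP keyMask keyShift m h trbababaab →
    stateOk 234 (thrR rowTree rowDepth) (hasP keyMask deadTree) m h = true :=
  fun m h hm => everyP_of_mem keyMask keyShift _ m h trbababaab (by decide +kernel) hm

theorem ok_trbabababa : ∀ m h, PTree.MemP keyMask keyShift m h trbabababa →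
    stateOk 234 (thrR rowTree rowDepth) (hasP keyMask deadTree) m h = true :=
  fun m h hm => everyP_of_mem keyMask keyShift _ m h trbabababa (by decide +kernel) hm

theorem ok_trbabababb : ∀ m h, PTree.MemP keyMask keyShift m h trbabababb →
    stateOk 234 (thrR rowTree rowDepth) (hasP keyMask deadTree) m h = true :=
  fun m h hm => everyP_of_mem keyMask keyShift _ m h trbabababb (by decide +kernel) hm

theorem ok_trbababbaa : ∀ m h, PTree.MemP keyMask keyShift m h trbababbaa →
    stateOk 234 (thrR rowTree rowDepth) (hasP keyMask deadTree) m h = true :=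
  fun m h hm => everyP_of_mem keyMask keyShift _ m h trbababbaa (by decide +kernel) hm

theorem ok_trbababbab : ∀ m h, PTree.MemP keyMask keyShift m h trbababbab →
    stateOk 234 (thrR rowTree rowDepth) (hasP keyMask deadTree) m h = true :=
  fun m h hm => everyP_of_mem keyMask keyShift _ m h trbababbab (by decide +kernel) hm

theorem ok_trbababbba : ∀ m h, PTree.MemP keyMask keyShift m h trbababbba →
    stateOk 234 (thrR rowTree rowDepth) (hasP keyMask deadTree) m h = true :=
  fun m h hm => everyP_of_mem keyMask keyShift _ m h trbababbba (by decide +kernel) hm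

theorem ok_trbababbbb : ∀ m h, PTree.MemP keyMask keyShift m h trbababbbb →
    stateOk 234 (thrR rowTree rowDepth) (hasP keyMask deadTree) m h = true :=
  fun m h hm => everyP_of_mem keyMask keyShift _ m h trbababbbb (by decide +kernel) hm

end Vale.Agent.Lib.Helper8.P302B1Tree
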