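import Vale.Agent.Lib.Helper8.P302B1Chk7

/-!
Check of a part of the certificate.
-/

namespace Vale.Agent.Lib.Helper8.P302B1Tree

open Vale.Agent.Lib.Helper3.BinPacking Vale.Agent.Lib.Helper8.P302Cert
open Vale.Agent.Lib.Helper8.P302Cert3 Vale.Agent.Lib.Helper8.P302Cert4
open Vale.Agent.Lib.Helper8.P302Cert5

theorem ok_trbabbaaaa : ∀ m h, PTree.MemP keyMask keyShift m h trbabbaaaa →
    stateOk 234 (thrR rowTree rowDepth) (hasP keyMask deadTree) m h = true :=
  fun m h hm => everyP_of_mem keyMask keyShift _ m h trbabbaaaa (by decide +kernel) hm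

theorem ok_trbabbaaab : ∀ m h, PTree.MemP keyMask keyShift m h trbabbaaab →
    stateOk 234 (thrR rowTree rowDepth) (hasP keyMask deadTree) m h = true :=
  fun m h hm => everyP_of_mem keyMask keyShift _ m h trbabbaaab (by decide +kernel) hm

theorem ok_trbabbaaba : ∀ m h, PTree.MemP keyMask keyShift m h trbabbaaba →
    stateOk 234 (thrR rowTree rowDepth) (hasP keyMask deadTree) m h = true :=
  fun m h hm => everyP_of_mem keyMask keyShift _ m h trbabbaaba (by decide +kernel) hm

theorem ok_trbabbaabb : ∀ m h, PTree.MemP keyMask keyShift m h trbabbaabb →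
    stateOk 234 (thrR rowTree rowDepth) (hasP keyMask deadTree) m h = true :=
  fun m h hm => everyP_of_mem keyMask keyShift _ m h trbabbaabb (by decide +kernel) hm

theorem ok_trbabbabaa : ∀ m h, PTree.MemP keyMask keyShift m h trbabbabaa →
    stateOk 234 (thrR rowTree rowDepth) (hasP keyMask deadTree) m h = true :=
  fun m h hm => everyP_of_mem keyMask keyShift _ m h trbabbabaa (by decide +kernel) hm

theorem ok_trbabbabab : ∀ m h, PTree.MemP keyMask keyShift m h trbabbabab →
    stateOk 234 (thrR rowTree rowDepth) (hasP keyMask deadTree) m h = true :=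
  fun m h hm => everyP_of_mem keyMask keyShift _ m h trbabbabab (by decide +kernel) hm

theorem ok_trbabbabba : ∀ m h, PTree.MemP keyMask keyShift m h trbabbabba →
    stateOk 234 (thrR rowTree rowDepth) (hasP keyMask deadTree) m h = true :=
  fun m h hm => everyP_of_mem keyMask keyShift _ m h trbabbabba (by decide +kernel) hm

theorem ok_trbabbabbb : ∀ m h, PTree.MemP keyMask keyShift m h trbabbabbb →
    stateOk 234 (thrR rowTree rowDepth) (hasP keyMask deadTree) m h = true :=
  fun m h hm => everyP_of_mem keyMask keyShift _ m h trbabbabbb (by decide +kernel) hm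

theorem ok_trbabbbaaa : ∀ m h, PTree.MemP keyMask keyShift m h trbabbbaaa →
    stateOk 234 (thrR rowTree rowDepth) (hasP keyMask deadTree) m h = true :=
  fun m h hm => everyP_of_mem keyMask keyShift _ m h trbabbbaaa (by decide +kernel) hm

theorem ok_trbabbbaab : ∀ m h, PTree.MemP keyMask keyShift m h trbabbbaab →
    stateOk 234 (thrR rowTree rowDepth) (hasP keyMask deadTree) m h = true :=
  fun m h hm => everyP_of_mem keyMask keyShift _ m h trbabbbaab (by decide +kernel) hm

theorem ok_trbabbbaba : ∀ m h, PTree.MemP keyMask keyShift m h trbabbbaba →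
    stateOk 234 (thrR rowTree rowDepth) (hasP keyMask deadTree) m h = true :=
  fun m h hm => everyP_of_mem keyMask keyShift _ m h trbabbbaba (by decide +kernel) hm

theorem ok_trbabbbabb : ∀ m h, PTree.MemP keyMask keyShift m h trbabbbabb →
    stateOk 234 (thrR rowTree rowDepth) (hasP keyMask deadTree) m h = true :=
  fun m h hm => everyP_of_mem keyMask keyShift _ m h trbabbbabb (by decide +kernel) hm

theorem ok_trbabbbbaa : ∀ m h, PTree.MemP keyMask keyShift m h trbabbbbaa →
    stateOk 234 (thrR rowTree rowDepth) (hasP keyMask deadTree) m h = true :=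
  fun m h hm => everyP_of_mem keyMask keyShift _ m h trbabbbbaa (by decide +kernel) hm

theorem ok_trbabbbbab : ∀ m h, PTree.MemP keyMask keyShift m h trbabbbbab →
    stateOk 234 (thrR rowTree rowDepth) (hasP keyMask deadTree) m h = true :=
  fun m h hm => everyP_of_mem keyMask keyShift _ m h trbabbbbab (by decide +kernel) hm

theorem ok_trbabbbbba : ∀ m h, PTree.MemP keyMask keyShift m h trbabbbbba →
    stateOk 234 (thrR rowTree rowDepth) (hasP keyMask deadTree) m h = true :=
  fun m h hm => everyP_of_mem keyMask keyShift _ m h trbabbbbba (by decide +kernel) hm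

theorem ok_trbabbbbbb : ∀ m h, PTree.MemP keyMask keyShift m h trbabbbbbb →
    stateOk 234 (thrR rowTree rowDepth) (hasP keyMask deadTree) m h = true :=
  fun m h hm => everyP_of_mem keyMask keyShift _ m h trbabbbbbb (by decide +kernel) hm

end Vale.Agent.Lib.Helper8.P302B1Tree
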