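import Vale.Agent.Lib.Helper8.P302B1Chk8

/-!
Check of a part of the certificate.
-/

namespace Vale.Agent.Lib.Helper8.P302B1Tree

open Vale.Agent.Lib.Helper3.BinPacking Vale.Agent.Lib.Helper8.P302Cert
open Vale.Agent.Lib.Helper8.P302Cert3 Vale.Agent.Lib.Helper8.P302Cert4
open Vale.Agent.Lib.Helper8.P302Cert5

theorem ok_trbbaaaaaa : ∀ m h, PTree.MemP keyMask keyShift m h trbbaaaaaa →
    stateOk 234 (thrR rowTree rowDepth) (hasP keyMask deadTree) m h = true :=
  fun m h hm => everyP_of_mem keyMask keyShift _ m h trbbaaaaaa (by decide +kernel) hm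

theorem ok_trbbaaaaab : ∀ m h, PTree.MemP keyMask keyShift m h trbbaaaaab →
    stateOk 234 (thrR rowTree rowDepth) (hasP keyMask deadTree) m h = true :=
  fun m h hm => everyP_of_mem keyMask keyShift _ m h trbbaaaaab (by decide +kernel) hm

theorem ok_trbbaaaaba : ∀ m h, PTree.MemP keyMask keyShift m h trbbaaaaba →
    stateOk 234 (thrR rowTree rowDepth) (hasP keyMask deadTree) m h = true :=
  fun m h hm => everyP_of_mem keyMask keyShift _ m h trbbaaaaba (by decide +kernel) hm

theorem ok_trbbaaaabb : ∀ m h, PTree.MemP keyMask keyShift m h trbbaaaabb →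
    stateOk 234 (thrR rowTree rowDepth) (hasP keyMask deadTree) m h = true :=
  fun m h hm => everyP_of_mem keyMask keyShift _ m h trbbaaaabb (by decide +kernel) hm

theorem ok_trbbaaabaa : ∀ m h, PTree.MemP keyMask keyShift m h trbbaaabaa →
    stateOk 234 (thrR rowTree rowDepth) (hasP keyMask deadTree) m h = true :=
  fun m h hm => everyP_of_mem keyMask keyShift _ m h trbbaaabaa (by decide +kernel) hm

theorem ok_trbbaaabab : ∀ m h, PTree.MemP keyMask keyShift m h trbbaaabab →
    stateOk 234 (thrR rowTree rowDepth) (hasP keyMask deadTree) m h = true :=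
  fun m h hm => everyP_of_mem keyMask keyShift _ m h trbbaaabab (by decide +kernel) hm

theorem ok_trbbaaabba : ∀ m h, PTree.MemP keyMask keyShift m h trbbaaabba →
    stateOk 234 (thrR rowTree rowDepth) (hasP keyMask deadTree) m h = true :=
  fun m h hm => everyP_of_mem keyMask keyShift _ m h trbbaaabba (by decide +kernel) hm

theorem ok_trbbaaabbb : ∀ m h, PTree.MemP keyMask keyShift m h trbbaaabbb →
    stateOk 234 (thrR rowTree rowDepth) (hasP keyMask deadTree) m h = true :=
  fun m h hm => everyP_of_mem keyMask keyShift _ m h trbbaaabbb (by decide +kernel) hm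

theorem ok_trbbaabaaa : ∀ m h, PTree.MemP keyMask keyShift m h trbbaabaaa →
    stateOk 234 (thrR rowTree rowDepth) (hasP keyMask deadTree) m h = true :=
  fun m h hm => everyP_of_mem keyMask keyShift _ m h trbbaabaaa (by decide +kernel) hm

theorem ok_trbbaabaab : ∀ m h, PTree.MemP keyMask keyShift m h trbbaabaab →
    stateOk 234 (thrR rowTree rowDepth) (hasP keyMask deadTree) m h = true :=
  fun m h hm => everyP_of_mem keyMask keyShift _ m h trbbaabaab (by decide +kernel) hm

theorem ok_trbbaababa : ∀ m h, PTree.MemP keyMask keyShift m h trbbaababa →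
    stateOk 234 (thrR rowTree rowDepth) (hasP keyMask deadTree) m h = true :=
  fun m h hm => everyP_of_mem keyMask keyShift _ m h trbbaababa (by decide +kernel) hm

theorem ok_trbbaababb : ∀ m h, PTree.MemP keyMask keyShift m h trbbaababb →
    stateOk 234 (thrR rowTree rowDepth) (hasP keyMask deadTree) m h = true :=
  fun m h hm => everyP_of_mem keyMask keyShift _ m h trbbaababb (by decide +kernel) hm

theorem ok_trbbaabbaa : ∀ m h, PTree.MemP keyMask keyShift m h trbbaabbaa →
    stateOk 234 (thrR rowTree rowDepth) (hasP keyMask deadTree) m h = true :=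
  fun m h hm => everyP_of_mem keyMask keyShift _ m h trbbaabbaa (by decide +kernel) hm

theorem ok_trbbaabbab : ∀ m h, PTree.MemP keyMask keyShift m h trbbaabbab →
    stateOk 234 (thrR rowTree rowDepth) (hasP keyMask deadTree) m h = true :=
  fun m h hm => everyP_of_mem keyMask keyShift _ m h trbbaabbab (by decide +kernel) hm

theorem ok_trbbaabbba : ∀ m h, PTree.MemP keyMask keyShift m h trbbaabbba →
    stateOk 234 (thrR rowTree rowDepth) (hasP keyMask deadTree) m h = true :=
  fun m h hm => everyP_of_mem keyMask keyShift _ m h trbbaabbba (by decide +kernel) hm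

theorem ok_trbbaabbbb : ∀ m h, PTree.MemP keyMask keyShift m h trbbaabbbb →
    stateOk 234 (thrR rowTree rowDepth) (hasP keyMask deadTree) m h = true :=
  fun m h hm => everyP_of_mem keyMask keyShift _ m h trbbaabbbb (by decide +kernel) hm

end Vale.Agent.Lib.Helper8.P302B1Tree
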