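import Vale.Agent.Lib.Helper8.P302B1Chk9

/-!
Check of a part of the certificate.
-/

namespace Vale.Agent.Lib.Helper8.P302B1Tree

open Vale.Agent.Lib.Helper3.BinPacking Vale.Agent.Lib.Helper8.P302Cert
open Vale.Agent.Lib.Helper8.P302Cert3 Vale.Agent.Lib.Helper8.P302Cert4
open Vale.Agent.Lib.Helper8.P302Cert5

theorem ok_trbbabaaaa : ∀ m h, PTree.MemP keyMask keyShift m h trbbabaaaa →
    stateOk 234 (thrR rowTree rowDepth) (hasP keyMask deadTree) m h = true :=
  fun m h hm => everyP_of_mem keyMask keyShift _ m h trbbabaaaa (by decide +kernel) hm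

theorem ok_trbbabaaab : ∀ m h, PTree.MemP keyMask keyShift m h trbbabaaab →
    stateOk 234 (thrR rowTree rowDepth) (hasP keyMask deadTree) m h = true :=
  fun m h hm => everyP_of_mem keyMask keyShift _ m h trbbabaaab (by decide +kernel) hm

theorem ok_trbbabaaba : ∀ m h, PTree.MemP keyMask keyShift m h trbbabaaba →
    stateOk 234 (thrR rowTree rowDepth) (hasP keyMask deadTree) m h = true :=
  fun m h hm => everyP_of_mem keyMask keyShift _ m h trbbabaaba (by decide +kernel) hm

theorem ok_trbbabaabb : ∀ m h, PTree.MemP keyMask keyShift m h trbbabaabb →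
    stateOk 234 (thrR rowTree rowDepth) (hasP keyMask deadTree) m h = true :=
  fun m h hm => everyP_of_mem keyMask keyShift _ m h trbbabaabb (by decide +kernel) hm

theorem ok_trbbababaa : ∀ m h, PTree.MemP keyMask keyShift m h trbbababaa →
    stateOk 234 (thrR rowTree rowDepth) (hasP keyMask deadTree) m h = true :=
  fun m h hm => everyP_of_mem keyMask keyShift _ m h trbbababaa (by decide +kernel) hm

theorem ok_trbbababab : ∀ m h, PTree.MemP keyMask keyShift m h trbbababab →
    stateOk 234 (thrR rowTree rowDepth) (hasP keyMask deadTree) m h = true :=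
  fun m h hm => everyP_of_mem keyMask keyShift _ m h trbbababab (by decide +kernel) hm

theorem ok_trbbababba : ∀ m h, PTree.MemP keyMask keyShift m h trbbababba →
    stateOk 234 (thrR rowTree rowDepth) (hasP keyMask deadTree) m h = true :=
  fun m h hm => everyP_of_mem keyMask keyShift _ m h trbbababba (by decide +kernel) hm

theorem ok_trbbababbb : ∀ m h, PTree.MemP keyMask keyShift m h trbbababbb →
    stateOk 234 (thrR rowTree rowDepth) (hasP keyMask deadTree) m h = true :=
  fun m h hm => everyP_of_mem keyMask keyShift _ m h trbbababbb (by decide +kernel) hm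

theorem ok_trbbabbaaa : ∀ m h, PTree.MemP keyMask keyShift m h trbbabbaaa →
    stateOk 234 (thrR rowTree rowDepth) (hasP keyMask deadTree) m h = true :=
  fun m h hm => everyP_of_mem keyMask keyShift _ m h trbbabbaaa (by decide +kernel) hm

theorem ok_trbbabbaab : ∀ m h, PTree.MemP keyMask keyShift m h trbbabbaab →
    stateOk 234 (thrR rowTree rowDepth) (hasP keyMask deadTree) m h = true :=
  fun m h hm => everyP_of_mem keyMask keyShift _ m h trbbabbaab (by decide +kernel) hm

theorem ok_trbbabbaba : ∀ m h, PTree.MemP keyMask keyShift m h trbbabbaba →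
    stateOk 234 (thrR rowTree rowDepth) (hasP keyMask deadTree) m h = true :=
  fun m h hm => everyP_of_mem keyMask keyShift _ m h trbbabbaba (by decide +kernel) hm

theorem ok_trbbabbabb : ∀ m h, PTree.MemP keyMask keyShift m h trbbabbabb →
    stateOk 234 (thrR rowTree rowDepth) (hasP keyMask deadTree) m h = true :=
  fun m h hm => everyP_of_mem keyMask keyShift _ m h trbbabbabb (by decide +kernel) hm

theorem ok_trbbabbbaa : ∀ m h, PTree.MemP keyMask keyShift m h trbbabbbaa →
    stateOk 234 (thrR rowTree rowDepth) (hasP keyMask deadTree) m h = true :=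
  fun m h hm => everyP_of_mem keyMask keyShift _ m h trbbabbbaa (by decide +kernel) hm

theorem ok_trbbabbbab : ∀ m h, PTree.MemP keyMask keyShift m h trbbabbbab →
    stateOk 234 (thrR rowTree rowDepth) (hasP keyMask deadTree) m h = true :=
  fun m h hm => everyP_of_mem keyMask keyShift _ m h trbbabbbab (by decide +kernel) hm

theorem ok_trbbabbbba : ∀ m h, PTree.MemP keyMask keyShift m h trbbabbbba →
    stateOk 234 (thrR rowTree rowDepth) (hasP keyMask deadTree) m h = true :=
  fun m h hm => everyP_of_mem keyMask keyShift _ m h trbbabbbba (by decide +kernel) hm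

theorem ok_trbbabbbbb : ∀ m h, PTree.MemP keyMask keyShift m h trbbabbbbb →
    stateOk 234 (thrR rowTree rowDepth) (hasP keyMask deadTree) m h = true :=
  fun m h hm => everyP_of_mem keyMask keyShift _ m h trbbabbbbb (by decide +kernel) hm

end Vale.Agent.Lib.Helper8.P302B1Tree
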