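import Vale.Agent.Lib.Helper8.P302B1Chk10

/-!
Check of a part of the certificate.
-/

namespace Vale.Agent.Lib.Helper8.P302B1Tree

open Vale.Agent.Lib.Helper3.BinPacking Vale.Agent.Lib.Helper8.P302Cert
open Vale.Agent.Lib.Helper8.P302Cert3 Vale.Agent.Lib.Helper8.P302Cert4
open Vale.Agent.Lib.Helper8.P302Cert5

theorem ok_trbbbaaaaa : ∀ m h, PTree.MemP keyMask keyShift m h trbbbaaaaa →
    stateOk 234 (thrR rowTree rowDepth) (hasP keyMask deadTree) m h = true :=
  fun m h hm => everyP_of_mem keyMask keyShift _ m h trbbbaaaaa (by decide +kernel) hm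

theorem ok_trbbbaaaab : ∀ m h, PTree.MemP keyMask keyShift m h trbbbaaaab →
    stateOk 234 (thrR rowTree rowDepth) (hasP keyMask deadTree) m h = true :=
  fun m h hm => everyP_of_mem keyMask keyShift _ m h trbbbaaaab (by decide +kernel) hm

theorem ok_trbbbaaaba : ∀ m h, PTree.MemP keyMask keyShift m h trbbbaaaba →
    stateOk 234 (thrR rowTree rowDepth) (hasP keyMask deadTree) m h = true :=
  fun m h hm => everyP_of_mem keyMask keyShift _ m h trbbbaaaba (by decide +kernel) hm

theorem ok_trbbbaaabb : ∀ m h, PTree.MemP keyMask keyShift m h trbbbaaabb →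
    stateOk 234 (thrR rowTree rowDepth) (hasP keyMask deadTree) m h = true :=
  fun m h hm => everyP_of_mem keyMask keyShift _ m h trbbbaaabb (by decide +kernel) hm

theorem ok_trbbbaabaa : ∀ m h, PTree.MemP keyMask keyShift m h trbbbaabaa →
    stateOk 234 (thrR rowTree rowDepth) (hasP keyMask deadTree) m h = true :=
  fun m h hm => everyP_of_mem keyMask keyShift _ m h trbbbaabaa (by decide +kernel) hm

theorem ok_trbbbaabab : ∀ m h, PTree.MemP keyMask keyShift m h trbbbaabab →
    stateOk 234 (thrR rowTree rowDepth) (hasP keyMask deadTree) m h = true :=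
  fun m h hm => everyP_of_mem keyMask keyShift _ m h trbbbaabab (by decide +kernel) hm

theorem ok_trbbbaabba : ∀ m h, PTree.MemP keyMask keyShift m h trbbbaabba →
    stateOk 234 (thrR rowTree rowDepth) (hasP keyMask deadTree) m h = true :=
  fun m h hm => everyP_of_mem keyMask keyShift _ m h trbbbaabba (by decide +kernel) hm

theorem ok_trbbbaabbb : ∀ m h, PTree.MemP keyMask keyShift m h trbbbaabbb →
    stateOk 234 (thrR rowTree rowDepth) (hasP keyMask deadTree) m h = true :=
  fun m h hm => everyP_of_mem keyMask keyShift _ m h trbbbaabbb (by decide +kernel) hm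

theorem ok_trbbbabaaa : ∀ m h, PTree.MemP keyMask keyShift m h trbbbabaaa →
    stateOk 234 (thrR rowTree rowDepth) (hasP keyMask deadTree) m h = true :=
  fun m h hm => everyP_of_mem keyMask keyShift _ m h trbbbabaaa (by decide +kernel) hm

theorem ok_trbbbabaab : ∀ m h, PTree.MemP keyMask keyShift m h trbbbabaab →
    stateOk 234 (thrR rowTree rowDepth) (hasP keyMask deadTree) m h = true :=
  fun m h hm => everyP_of_mem keyMask keyShift _ m h trbbbabaab (by decide +kernel) hm

theorem ok_trbbbababa : ∀ m h, PTree.MemP keyMask keyShift m h trbbbababa →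
    stateOk 234 (thrR rowTree rowDepth) (hasP keyMask deadTree) m h = true :=
  fun m h hm => everyP_of_mem keyMask keyShift _ m h trbbbababa (by decide +kernel) hm

theorem ok_trbbbababb : ∀ m h, PTree.MemP keyMask keyShift m h trbbbababb →
    stateOk 234 (thrR rowTree rowDepth) (hasP keyMask deadTree) m h = true :=
  fun m h hm => everyP_of_mem keyMask keyShift _ m h trbbbababb (by decide +kernel) hm

theorem ok_trbbbabbaa : ∀ m h, PTree.MemP keyMask keyShift m h trbbbabbaa →
    stateOk 234 (thrR rowTree rowDepth) (hasP keyMask deadTree) m h = true :=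
  fun m h hm => everyP_of_mem keyMask keyShift _ m h trbbbabbaa (by decide +kernel) hm

theorem ok_trbbbabbab : ∀ m h, PTree.MemP keyMask keyShift m h trbbbabbab →
    stateOk 234 (thrR rowTree rowDepth) (hasP keyMask deadTree) m h = true :=
  fun m h hm => everyP_of_mem keyMask keyShift _ m h trbbbabbab (by decide +kernel) hm

theorem ok_trbbbabbba : ∀ m h, PTree.MemP keyMask keyShift m h trbbbabbba →
    stateOk 234 (thrR rowTree rowDepth) (hasP keyMask deadTree) m h = true :=
  fun m h hm => everyP_of_mem keyMask keyShift _ m h trbbbabbba (by decide +kernel) hm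

theorem ok_trbbbabbbb : ∀ m h, PTree.MemP keyMask keyShift m h trbbbabbbb →
    stateOk 234 (thrR rowTree rowDepth) (hasP keyMask deadTree) m h = true :=
  fun m h hm => everyP_of_mem keyMask keyShift _ m h trbbbabbbb (by decide +kernel) hm

end Vale.Agent.Lib.Helper8.P302B1Tree
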