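import Vale.Agent.Lib.Helper8.P302B1Chk11

/-!
Check of a part of the certificate.
-/

namespace Vale.Agent.Lib.Helper8.P302B1Tree

open Vale.Agent.Lib.Helper3.BinPacking Vale.Agent.Lib.Helper8.P302Cert
open Vale.Agent.Lib.Helper8.P302Cert3 Vale.Agent.Lib.Helper8.P302Cert4
open Vale.Agent.Lib.Helper8.P302Cert5

theorem ok_trbbbbaaaa : ∀ m h, PTree.MemP keyMask keyShift m h trbbbbaaaa →
    stateOk 234 (thrR rowTree rowDepth) (hasP keyMask deadTree) m h = true :=
  fun m h hm => everyP_of_mem keyMask keyShift _ m h trbbbbaaaa (by decide +kernel) hm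

theorem ok_trbbbbaaab : ∀ m h, PTree.MemP keyMask keyShift m h trbbbbaaab →
    stateOk 234 (thrR rowTree rowDepth) (hasP keyMask deadTree) m h = true :=
  fun m h hm => everyP_of_mem keyMask keyShift _ m h trbbbbaaab (by decide +kernel) hm

theorem ok_trbbbbaaba : ∀ m h, PTree.MemP keyMask keyShift m h trbbbbaaba →
    stateOk 234 (thrR rowTree rowDepth) (hasP keyMask deadTree) m h = true :=
  fun m h hm => everyP_of_mem keyMask keyShift _ m h trbbbbaaba (by decide +kernel) hm

theorem ok_trbbbbaabb : ∀ m h, PTree.MemP keyMask keyShift m h trbbbbaabb →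
    stateOk 234 (thrR rowTree rowDepth) (hasP keyMask deadTree) m h = true :=
  fun m h hm => everyP_of_mem keyMask keyShift _ m h trbbbbaabb (by decide +kernel) hm

theorem ok_trbbbbabaa : ∀ m h, PTree.MemP keyMask keyShift m h trbbbbabaa →
    stateOk 234 (thrR rowTree rowDepth) (hasP keyMask deadTree) m h = true :=
  fun m h hm => everyP_of_mem keyMask keyShift _ m h trbbbbabaa (by decide +kernel) hm

theorem ok_trbbbbabab : ∀ m h, PTree.MemP keyMask keyShift m h trbbbbabab →
    stateOk 234 (thrR rowTree rowDepth) (hasP keyMask deadTree) m h = true :=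
  fun m h hm => everyP_of_mem keyMask keyShift _ m h trbbbbabab (by decide +kernel) hm

theorem ok_trbbbbabba : ∀ m h, PTree.MemP keyMask keyShift m h trbbbbabba →
    stateOk 234 (thrR rowTree rowDepth) (hasP keyMask deadTree) m h = true :=
  fun m h hm => everyP_of_mem keyMask keyShift _ m h trbbbbabba (by decide +kernel) hm

theorem ok_trbbbbabbb : ∀ m h, PTree.MemP keyMask keyShift m h trbbbbabbb →
    stateOk 234 (thrR rowTree rowDepth) (hasP keyMask deadTree) m h = true :=
  fun m h hm => everyP_of_mem keyMask keyShift _ m h trbbbbabbb (by decide +kernel) hm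

theorem ok_trbbbbbaaa : ∀ m h, PTree.MemP keyMask keyShift m h trbbbbbaaa →
    stateOk 234 (thrR rowTree rowDepth) (hasP keyMask deadTree) m h = true :=
  fun m h hm => everyP_of_mem keyMask keyShift _ m h trbbbbbaaa (by decide +kernel) hm

theorem ok_trbbbbbaab : ∀ m h, PTree.MemP keyMask keyShift m h trbbbbbaab →
    stateOk 234 (thrR rowTree rowDepth) (hasP keyMask deadTree) m h = true :=
  fun m h hm => everyP_of_mem keyMask keyShift _ m h trbbbbbaab (by decide +kernel) hm

theorem ok_trbbbbbaba : ∀ m h, PTree.MemP keyMask keyShift m h trbbbbbaba →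
    stateOk 234 (thrR rowTree rowDepth) (hasP keyMask deadTree) m h = true :=
  fun m h hm => everyP_of_mem keyMask keyShift _ m h trbbbbbaba (by decide +kernel) hm

theorem ok_trbbbbbabb : ∀ m h, PTree.MemP keyMask keyShift m h trbbbbbabb →
    stateOk 234 (thrR rowTree rowDepth) (hasP keyMask deadTree) m h = true :=
  fun m h hm => everyP_of_mem keyMask keyShift _ m h trbbbbbabb (by decide +kernel) hm

theorem ok_trbbbbbbaa : ∀ m h, PTree.MemP keyMask keyShift m h trbbbbbbaa →
    stateOk 234 (thrR rowTree rowDepth) (hasP keyMask deadTree) m h = true :=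
  fun m h hm => everyP_of_mem keyMask keyShift _ m h trbbbbbbaa (by decide +kernel) hm

theorem ok_trbbbbbbab : ∀ m h, PTree.MemP keyMask keyShift m h trbbbbbbab →
    stateOk 234 (thrR rowTree rowDepth) (hasP keyMask deadTree) m h = true :=
  fun m h hm => everyP_of_mem keyMask keyShift _ m h trbbbbbbab (by decide +kernel) hm

theorem ok_trbbbbbbba : ∀ m h, PTree.MemP keyMask keyShift m h trbbbbbbba →
    stateOk 234 (thrR rowTree rowDepth) (hasP keyMask deadTree) m h = true :=
  fun m h hm => everyP_of_mem keyMask keyShift _ m h trbbbbbbba (by decide +kernel) hm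

theorem ok_trbbbbbbbb : ∀ m h, PTree.MemP keyMask keyShift m h trbbbbbbbb →
    stateOk 234 (thrR rowTree rowDepth) (hasP keyMask deadTree) m h = true :=
  fun m h hm => everyP_of_mem keyMask keyShift _ m h trbbbbbbbb (by decide +kernel) hm

end Vale.Agent.Lib.Helper8.P302B1Tree
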