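import Vale.Agent.Lib.Helper8.P302B1Tbl

/-!
Check of a part of the certificate.
-/

namespace Vale.Agent.Lib.Helper8.P302B1Tree

open Vale.Agent.Lib.Helper3.BinPacking Vale.Agent.Lib.Helper8.P302Cert
open Vale.Agent.Lib.Helper8.P302Cert3 Vale.Agent.Lib.Helper8.P302Cert4
open Vale.Agent.Lib.Helper8.P302Cert5

theorem ok_traabaaaaa : ∀ m h, PTree.MemP keyMask keyShift m h traabaaaaa →
    stateOk 234 (thrR rowTree rowDepth) (hasP keyMask deadTree) m h = true :=
  fun m h hm => everyP_of_mem keyMask keyShift _ m h traabaaaaa (by decide +kernel) hm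

theorem ok_traabaaaab : ∀ m h, PTree.MemP keyMask keyShift m h traabaaaab →
    stateOk 234 (thrR rowTree rowDepth) (hasP keyMask deadTree) m h = true :=
  fun m h hm => everyP_of_mem keyMask keyShift _ m h traabaaaab (by decide +kernel) hm

theorem ok_traabaaaba : ∀ m h, PTree.MemP keyMask keyShift m h traabaaaba →
    stateOk 234 (thrR rowTree rowDepth) (hasP keyMask deadTree) m h = true :=
  fun m h hm => everyP_of_mem keyMask keyShift _ m h traabaaaba (by decide +kernel) hm

theorem ok_traabaaabb : ∀ m h, PTree.MemP keyMask keyShift m h traabaaabb →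
    stateOk 234 (thrR rowTree rowDepth) (hasP keyMask deadTree) m h = true :=
  fun m h hm => everyP_of_mem keyMask keyShift _ m h traabaaabb (by decide +kernel) hm

theorem ok_traabaabaa : ∀ m h, PTree.MemP keyMask keyShift m h traabaabaa →
    stateOk 234 (thrR rowTree rowDepth) (hasP keyMask deadTree) m h = true :=
  fun m h hm => everyP_of_mem keyMask keyShift _ m h traabaabaa (by decide +kernel) hm

theorem ok_traabaabab : ∀ m h, PTree.MemP keyMask keyShift m h traabaabab →
    stateOk 234 (thrR rowTree rowDepth) (hasP keyMask deadTree) m h = true :=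
  fun m h hm => everyP_of_mem keyMask keyShift _ m h traabaabab (by decide +kernel) hm

theorem ok_traabaabba : ∀ m h, PTree.MemP keyMask keyShift m h traabaabba →
    stateOk 234 (thrR rowTree rowDepth) (hasP keyMask deadTree) m h = true :=
  fun m h hm => everyP_of_mem keyMask keyShift _ m h traabaabba (by decide +kernel) hm

theorem ok_traabaabbb : ∀ m h, PTree.MemP keyMask keyShift m h traabaabbb →
    stateOk 234 (thrR rowTree rowDepth) (hasP keyMask deadTree) m h = true :=
  fun m h hm => everyP_of_mem keyMask keyShift _ m h traabaabbb (by decide +kernel) hm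

theorem ok_traababaaa : ∀ m h, PTree.MemP keyMask keyShift m h traababaaa →
    stateOk 234 (thrR rowTree rowDepth) (hasP keyMask deadTree) m h = true :=
  fun m h hm => everyP_of_mem keyMask keyShift _ m h traababaaa (by decide +kernel) hm

theorem ok_traababaab : ∀ m h, PTree.MemP keyMask keyShift m h traababaab →
    stateOk 234 (thrR rowTree rowDepth) (hasP keyMask deadTree) m h = true :=
  fun m h hm => everyP_of_mem keyMask keyShift _ m h traababaab (by decide +kernel) hm

theorem ok_traabababa : ∀ m h, PTree.MemP keyMask keyShift m h traabababa →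
    stateOk 234 (thrR rowTree rowDepth) (hasP keyMask deadTree) m h = true :=
  fun m h hm => everyP_of_mem keyMask keyShift _ m h traabababa (by decide +kernel) hm

theorem ok_traabababb : ∀ m h, PTree.MemP keyMask keyShift m h traabababb →
    stateOk 234 (thrR rowTree rowDepth) (hasP keyMask deadTree) m h = true :=
  fun m h hm => everyP_of_mem keyMask keyShift _ m h traabababb (by decide +kernel) hm

theorem ok_traababbaa : ∀ m h, PTree.MemP keyMask keyShift m h traababbaa →
    stateOk 234 (thrR rowTree rowDepth) (hasP keyMask deadTree) m h = true :=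
  fun m h hm => everyP_of_mem keyMask keyShift _ m h traababbaa (by decide +kernel) hm

theorem ok_traababbab : ∀ m h, PTree.MemP keyMask keyShift m h traababbab →
    stateOk 234 (thrR rowTree rowDepth) (hasP keyMask deadTree) m h = true :=
  fun m h hm => everyP_of_mem keyMask keyShift _ m h traababbab (by decide +kernel) hm

theorem ok_traababbba : ∀ m h, PTree.MemP keyMask keyShift m h traababbba →
    stateOk 234 (thrR rowTree rowDepth) (hasP keyMask deadTree) m h = true :=
  fun m h hm => everyP_of_mem keyMask keyShift _ m h traababbba (by decide +kernel) hm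

theorem ok_traababbbb : ∀ m h, PTree.MemP keyMask keyShift m h traababbbb →
    stateOk 234 (thrR rowTree rowDepth) (hasP keyMask deadTree) m h = true :=
  fun m h hm => everyP_of_mem keyMask keyShift _ m h traababbbb (by decide +kernel) hm

end Vale.Agent.Lib.Helper8.P302B1Tree
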