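import Vale.Agent.Lib.Helper8.P302B1Tbl

/-!
Check of a part of the certificate.
-/

namespace Vale.Agent.Lib.Helper8.P302B1Tree

open Vale.Agent.Lib.Helper3.BinPacking Vale.Agent.Lib.Helper8.P302Cert
open Vale.Agent.Lib.Helper8.P302Cert3 Vale.Agent.Lib.Helper8.P302Cert4
open Vale.Agent.Lib.Helper8.P302Cert5

theorem ok_traabbaaaa : ∀ m h, PTree.MemP keyMask keyShift m h traabbaaaa →
    stateOk 234 (thrR rowTree rowDepth) (hasP keyMask deadTree) m h = true :=
  fun m h hm => everyP_of_mem keyMask keyShift _ m h traabbaaaa (by decide +kernel) hm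

theorem ok_traabbaaab : ∀ m h, PTree.MemP keyMask keyShift m h traabbaaab →
    stateOk 234 (thrR rowTree rowDepth) (hasP keyMask deadTree) m h = true :=
  fun m h hm => everyP_of_mem keyMask keyShift _ m h traabbaaab (by decide +kernel) hm

theorem ok_traabbaaba : ∀ m h, PTree.MemP keyMask keyShift m h traabbaaba →
    stateOk 234 (thrR rowTree rowDepth) (hasP keyMask deadTree) m h = true :=
  fun m h hm => everyP_of_mem keyMask keyShift _ m h traabbaaba (by decide +kernel) hm

theorem ok_traabbaabb : ∀ m h, PTree.MemP keyMask keyShift m h traabbaabb →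
    stateOk 234 (thrR rowTree rowDepth) (hasP keyMask deadTree) m h = true :=
  fun m h hm => everyP_of_mem keyMask keyShift _ m h traabbaabb (by decide +kernel) hm

theorem ok_traabbabaa : ∀ m h, PTree.MemP keyMask keyShift m h traabbabaa →
    stateOk 234 (thrR rowTree rowDepth) (hasP keyMask deadTree) m h = true :=
  fun m h hm => everyP_of_mem keyMask keyShift _ m h traabbabaa (by decide +kernel) hm

theorem ok_traabbabab : ∀ m h, PTree.MemP keyMask keyShift m h traabbabab →
    stateOk 234 (thrR rowTree rowDepth) (hasP keyMask deadTree) m h = true :=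
  fun m h hm => everyP_of_mem keyMask keyShift _ m h traabbabab (by decide +kernel) hm

theorem ok_traabbabba : ∀ m h, PTree.MemP keyMask keyShift m h traabbabba →
    stateOk 234 (thrR rowTree rowDepth) (hasP keyMask deadTree) m h = true :=
  fun m h hm => everyP_of_mem keyMask keyShift _ m h traabbabba (by decide +kernel) hm

theorem ok_traabbabbb : ∀ m h, PTree.MemP keyMask keyShift m h traabbabbb →
    stateOk 234 (thrR rowTree rowDepth) (hasP keyMask deadTree) m h = true :=
  fun m h hm => everyP_of_mem keyMask keyShift _ m h traabbabbb (by decide +kernel) hm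

theorem ok_traabbbaaa : ∀ m h, PTree.MemP keyMask keyShift m h traabbbaaa →
    stateOk 234 (thrR rowTree rowDepth) (hasP keyMask deadTree) m h = true :=
  fun m h hm => everyP_of_mem keyMask keyShift _ m h traabbbaaa (by decide +kernel) hm

theorem ok_traabbbaab : ∀ m h, PTree.MemP keyMask keyShift m h traabbbaab →
    stateOk 234 (thrR rowTree rowDepth) (hasP keyMask deadTree) m h = true :=
  fun m h hm => everyP_of_mem keyMask keyShift _ m h traabbbaab (by decide +kernel) hm

theorem ok_traabbbaba : ∀ m h, PTree.MemP keyMask keyShift m h traabbbaba →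
    stateOk 234 (thrR rowTree rowDepth) (hasP keyMask deadTree) m h = true :=
  fun m h hm => everyP_of_mem keyMask keyShift _ m h traabbbaba (by decide +kernel) hm

theorem ok_traabbbabb : ∀ m h, PTree.MemP keyMask keyShift m h traabbbabb →
    stateOk 234 (thrR rowTree rowDepth) (hasP keyMask deadTree) m h = true :=
  fun m h hm => everyP_of_mem keyMask keyShift _ m h traabbbabb (by decide +kernel) hm

theorem ok_traabbbbaa : ∀ m h, PTree.MemP keyMask keyShift m h traabbbbaa →
    stateOk 234 (thrR rowTree rowDepth) (hasP keyMask deadTree) m h = true :=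
  fun m h hm => everyP_of_mem keyMask keyShift _ m h traabbbbaa (by decide +kernel) hm

theorem ok_traabbbbab : ∀ m h, PTree.MemP keyMask keyShift m h traabbbbab →
    stateOk 234 (thrR rowTree rowDepth) (hasP keyMask deadTree) m h = true :=
  fun m h hm => everyP_of_mem keyMask keyShift _ m h traabbbbab (by decide +kernel) hm

theorem ok_traabbbbba : ∀ m h, PTree.MemP keyMask keyShift m h traabbbbba →
    stateOk 234 (thrR rowTree rowDepth) (hasP keyMask deadTree) m h = true :=
  fun m h hm => everyP_of_mem keyMask keyShift _ m h traabbbbba (by decide +kernel) hm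

theorem ok_traabbbbbb : ∀ m h, PTree.MemP keyMask keyShift m h traabbbbbb →
    stateOk 234 (thrR rowTree rowDepth) (hasP keyMask deadTree) m h = true :=
  fun m h hm => everyP_of_mem keyMask keyShift _ m h traabbbbbb (by decide +kernel) hm

end Vale.Agent.Lib.Helper8.P302B1Tree
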