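import Vale.Agent.Lib.Helper8.P302B1Chk0

/-!
Check of a part of the certificate.
-/

namespace Vale.Agent.Lib.Helper8.P302B1Tree

open Vale.Agent.Lib.Helper3.BinPacking Vale.Agent.Lib.Helper8.P302Cert
open Vale.Agent.Lib.Helper8.P302Cert3 Vale.Agent.Lib.Helper8.P302Cert4
open Vale.Agent.Lib.Helper8.P302Cert5

theorem ok_trabaaaaaa : ∀ m h, PTree.MemP keyMask keyShift m h trabaaaaaa →
    stateOk 234 (thrR rowTree rowDepth) (hasP keyMask deadTree) m h = true :=
  fun m h hm => everyP_of_mem keyMask keyShift _ m h trabaaaaaa (by decide +kernel) hm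

theorem ok_trabaaaaab : ∀ m h, PTree.MemP keyMask keyShift m h trabaaaaab →
    stateOk 234 (thrR rowTree rowDepth) (hasP keyMask deadTree) m h = true :=
  fun m h hm => everyP_of_mem keyMask keyShift _ m h trabaaaaab (by decide +kernel) hm

theorem ok_trabaaaaba : ∀ m h, PTree.MemP keyMask keyShift m h trabaaaaba →
    stateOk 234 (thrR rowTree rowDepth) (hasP keyMask deadTree) m h = true :=
  fun m h hm => everyP_of_mem keyMask keyShift _ m h trabaaaaba (by decide +kernel) hm

theorem ok_trabaaaabb : ∀ m h, PTree.MemP keyMask keyShift m h trabaaaabb →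
    stateOk 234 (thrR rowTree rowDepth) (hasP keyMask deadTree) m h = true :=
  fun m h hm => everyP_of_mem keyMask keyShift _ m h trabaaaabb (by decide +kernel) hm

theorem ok_trabaaabaa : ∀ m h, PTree.MemP keyMask keyShift m h trabaaabaa →
    stateOk 234 (thrR rowTree rowDepth) (hasP keyMask deadTree) m h = true :=
  fun m h hm => everyP_of_mem keyMask keyShift _ m h trabaaabaa (by decide +kernel) hm

theorem ok_trabaaabab : ∀ m h, PTree.MemP keyMask keyShift m h trabaaabab →
    stateOk 234 (thrR rowTree rowDepth) (hasP keyMask deadTree) m h = true :=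
  fun m h hm => everyP_of_mem keyMask keyShift _ m h trabaaabab (by decide +kernel) hm

theorem ok_trabaaabba : ∀ m h, PTree.MemP keyMask keyShift m h trabaaabba →
    stateOk 234 (thrR rowTree rowDepth) (hasP keyMask deadTree) m h = true :=
  fun m h hm => everyP_of_mem keyMask keyShift _ m h trabaaabba (by decide +kernel) hm

theorem ok_trabaaabbb : ∀ m h, PTree.MemP keyMask keyShift m h trabaaabbb →
    stateOk 234 (thrR rowTree rowDepth) (hasP keyMask deadTree) m h = true :=
  fun m h hm => everyP_of_mem keyMask keyShift _ m h trabaaabbb (by decide +kernel) hm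

theorem ok_trabaabaaa : ∀ m h, PTree.MemP keyMask keyShift m h trabaabaaa →
    stateOk 234 (thrR rowTree rowDepth) (hasP keyMask deadTree) m h = true :=
  fun m h hm => everyP_of_mem keyMask keyShift _ m h trabaabaaa (by decide +kernel) hm

theorem ok_trabaabaab : ∀ m h, PTree.MemP keyMask keyShift m h trabaabaab →
    stateOk 234 (thrR rowTree rowDepth) (hasP keyMask deadTree) m h = true :=
  fun m h hm => everyP_of_mem keyMask keyShift _ m h trabaabaab (by decide +kernel) hm

theorem ok_trabaababa : ∀ m h, PTree.MemP keyMask keyShift m h trabaababa →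
    stateOk 234 (thrR rowTree rowDepth) (hasP keyMask deadTree) m h = true :=
  fun m h hm => everyP_of_mem keyMask keyShift _ m h trabaababa (by decide +kernel) hm

theorem ok_trabaababb : ∀ m h, PTree.MemP keyMask keyShift m h trabaababb →
    stateOk 234 (thrR rowTree rowDepth) (hasP keyMask deadTree) m h = true :=
  fun m h hm => everyP_of_mem keyMask keyShift _ m h trabaababb (by decide +kernel) hm

theorem ok_trabaabbaa : ∀ m h, PTree.MemP keyMask keyShift m h trabaabbaa →
    stateOk 234 (thrR rowTree rowDepth) (hasP keyMask deadTree) m h = true :=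
  fun m h hm => everyP_of_mem keyMask keyShift _ m h trabaabbaa (by decide +kernel) hm

theorem ok_trabaabbab : ∀ m h, PTree.MemP keyMask keyShift m h trabaabbab →
    stateOk 234 (thrR rowTree rowDepth) (hasP keyMask deadTree) m h = true :=
  fun m h hm => everyP_of_mem keyMask keyShift _ m h trabaabbab (by decide +kernel) hm

theorem ok_trabaabbba : ∀ m h, PTree.MemP keyMask keyShift m h trabaabbba →
    stateOk 234 (thrR rowTree rowDepth) (hasP keyMask deadTree) m h = true :=
  fun m h hm => everyP_of_mem keyMask keyShift _ m h trabaabbba (by decide +kernel) hm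

theorem ok_trabaabbbb : ∀ m h, PTree.MemP keyMask keyShift m h trabaabbbb →
    stateOk 234 (thrR rowTree rowDepth) (hasP keyMask deadTree) m h = true :=
  fun m h hm => everyP_of_mem keyMask keyShift _ m h trabaabbbb (by decide +kernel) hm

end Vale.Agent.Lib.Helper8.P302B1Tree
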