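import Vale.Agent.Lib.Helper8.P302B1Chk1

/-!
Check of a part of the certificate.
-/

namespace Vale.Agent.Lib.Helper8.P302B1Tree

open Vale.Agent.Lib.Helper3.BinPacking Vale.Agent.Lib.Helper8.P302Cert
open Vale.Agent.Lib.Helper8.P302Cert3 Vale.Agent.Lib.Helper8.P302Cert4
open Vale.Agent.Lib.Helper8.P302Cert5

theorem ok_trababaaaa : ∀ m h, PTree.MemP keyMask keyShift m h trababaaaa →
    stateOk 234 (thrR rowTree rowDepth) (hasP keyMask deadTree) m h = true :=
  fun m h hm => everyP_of_mem keyMask keyShift _ m h trababaaaa (by decide +kernel) hm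

theorem ok_trababaaab : ∀ m h, PTree.MemP keyMask keyShift m h trababaaab →
    stateOk 234 (thrR rowTree rowDepth) (hasP keyMask deadTree) m h = true :=
  fun m h hm => everyP_of_mem keyMask keyShift _ m h trababaaab (by decide +kernel) hm

theorem ok_trababaaba : ∀ m h, PTree.MemP keyMask keyShift m h trababaaba →
    stateOk 234 (thrR rowTree rowDepth) (hasP keyMask deadTree) m h = true :=
  fun m h hm => everyP_of_mem keyMask keyShift _ m h trababaaba (by decide +kernel) hm

theorem ok_trababaabb : ∀ m h, PTree.MemP keyMask keyShift m h trababaabb →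
    stateOk 234 (thrR rowTree rowDepth) (hasP keyMask deadTree) m h = true :=
  fun m h hm => everyP_of_mem keyMask keyShift _ m h trababaabb (by decide +kernel) hm

theorem ok_trabababaa : ∀ m h, PTree.MemP keyMask keyShift m h trabababaa →
    stateOk 234 (thrR rowTree rowDepth) (hasP keyMask deadTree) m h = true :=
  fun m h hm => everyP_of_mem keyMask keyShift _ m h trabababaa (by decide +kernel) hm

theorem ok_trabababab : ∀ m h, PTree.MemP keyMask keyShift m h trabababab →
    stateOk 234 (thrR rowTree rowDepth) (hasP keyMask deadTree) m h = true :=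
  fun m h hm => everyP_of_mem keyMask keyShift _ m h trabababab (by decide +kernel) hm

theorem ok_trabababba : ∀ m h, PTree.MemP keyMask keyShift m h trabababba →
    stateOk 234 (thrR rowTree rowDepth) (hasP keyMask deadTree) m h = true :=
  fun m h hm => everyP_of_mem keyMask keyShift _ m h trabababba (by decide +kernel) hm

theorem ok_trabababbb : ∀ m h, PTree.MemP keyMask keyShift m h trabababbb →
    stateOk 234 (thrR rowTree rowDepth) (hasP keyMask deadTree) m h = true :=
  fun m h hm => everyP_of_mem keyMask keyShift _ m h trabababbb (by decide +kernel) hm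

theorem ok_trababbaaa : ∀ m h, PTree.MemP keyMask keyShift m h trababbaaa →
    stateOk 234 (thrR rowTree rowDepth) (hasP keyMask deadTree) m h = true :=
  fun m h hm => everyP_of_mem keyMask keyShift _ m h trababbaaa (by decide +kernel) hm

theorem ok_trababbaab : ∀ m h, PTree.MemP keyMask keyShift m h trababbaab →
    stateOk 234 (thrR rowTree rowDepth) (hasP keyMask deadTree) m h = true :=
  fun m h hm => everyP_of_mem keyMask keyShift _ m h trababbaab (by decide +kernel) hm

theorem ok_trababbaba : ∀ m h, PTree.MemP keyMask keyShift m h trababbaba →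
    stateOk 234 (thrR rowTree rowDepth) (hasP keyMask deadTree) m h = true :=
  fun m h hm => everyP_of_mem keyMask keyShift _ m h trababbaba (by decide +kernel) hm

theorem ok_trababbabb : ∀ m h, PTree.MemP keyMask keyShift m h trababbabb →
    stateOk 234 (thrR rowTree rowDepth) (hasP keyMask deadTree) m h = true :=
  fun m h hm => everyP_of_mem keyMask keyShift _ m h trababbabb (by decide +kernel) hm

theorem ok_trababbbaa : ∀ m h, PTree.MemP keyMask keyShift m h trababbbaa →
    stateOk 234 (thrR rowTree rowDepth) (hasP keyMask deadTree) m h = true :=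
  fun m h hm => everyP_of_mem keyMask keyShift _ m h trababbbaa (by decide +kernel) hm

theorem ok_trababbbab : ∀ m h, PTree.MemP keyMask keyShift m h trababbbab →
    stateOk 234 (thrR rowTree rowDepth) (hasP keyMask deadTree) m h = true :=
  fun m h hm => everyP_of_mem keyMask keyShift _ m h trababbbab (by decide +kernel) hm

theorem ok_trababbbba : ∀ m h, PTree.MemP keyMask keyShift m h trababbbba →
    stateOk 234 (thrR rowTree rowDepth) (hasP keyMask deadTree) m h = true :=
  fun m h hm => everyP_of_mem keyMask keyShift _ m h trababbbba (by decide +kernel) hm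

theorem ok_trababbbbb : ∀ m h, PTree.MemP keyMask keyShift m h trababbbbb →
    stateOk 234 (thrR rowTree rowDepth) (hasP keyMask deadTree) m h = true :=
  fun m h hm => everyP_of_mem keyMask keyShift _ m h trababbbbb (by decide +kernel) hm

end Vale.Agent.Lib.Helper8.P302B1Tree
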