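import Vale.Agent.Lib.Helper8.P302B1Chk2

/-!
Check of a part of the certificate.
-/

namespace Vale.Agent.Lib.Helper8.P302B1Tree

open Vale.Agent.Lib.Helper3.BinPacking Vale.Agent.Lib.Helper8.P302Cert
open Vale.Agent.Lib.Helper8.P302Cert3 Vale.Agent.Lib.Helper8.P302Cert4
open Vale.Agent.Lib.Helper8.P302Cert5

theorem ok_trabbaaaaa : ∀ m h, PTree.MemP keyMask keyShift m h trabbaaaaa →
    stateOk 234 (thrR rowTree rowDepth) (hasP keyMask deadTree) m h = true :=
  fun m h hm => everyP_of_mem keyMask keyShift _ m h trabbaaaaa (by decide +kernel) hm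

theorem ok_trabbaaaab : ∀ m h, PTree.MemP keyMask keyShift m h trabbaaaab →
    stateOk 234 (thrR rowTree rowDepth) (hasP keyMask deadTree) m h = true :=
  fun m h hm => everyP_of_mem keyMask keyShift _ m h trabbaaaab (by decide +kernel) hm

theorem ok_trabbaaaba : ∀ m h, PTree.MemP keyMask keyShift m h trabbaaaba →
    stateOk 234 (thrR rowTree rowDepth) (hasP keyMask deadTree) m h = true :=
  fun m h hm => everyP_of_mem keyMask keyShift _ m h trabbaaaba (by decide +kernel) hm

theorem ok_trabbaaabb : ∀ m h, PTree.MemP keyMask keyShift m h trabbaaabb →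
    stateOk 234 (thrR rowTree rowDepth) (hasP keyMask deadTree) m h = true :=
  fun m h hm => everyP_of_mem keyMask keyShift _ m h trabbaaabb (by decide +kernel) hm

theorem ok_trabbaabaa : ∀ m h, PTree.MemP keyMask keyShift m h trabbaabaa →
    stateOk 234 (thrR rowTree rowDepth) (hasP keyMask deadTree) m h = true :=
  fun m h hm => everyP_of_mem keyMask keyShift _ m h trabbaabaa (by decide +kernel) hm

theorem ok_trabbaabab : ∀ m h, PTree.MemP keyMask keyShift m h trabbaabab →
    stateOk 234 (thrR rowTree rowDepth) (hasP keyMask deadTree) m h = true :=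
  fun m h hm => everyP_of_mem keyMask keyShift _ m h trabbaabab (by decide +kernel) hm

theorem ok_trabbaabba : ∀ m h, PTree.MemP keyMask keyShift m h trabbaabba →
    stateOk 234 (thrR rowTree rowDepth) (hasP keyMask deadTree) m h = true :=
  fun m h hm => everyP_of_mem keyMask keyShift _ m h trabbaabba (by decide +kernel) hm

theorem ok_trabbaabbb : ∀ m h, PTree.MemP keyMask keyShift m h trabbaabbb →
    stateOk 234 (thrR rowTree rowDepth) (hasP keyMask deadTree) m h = true :=
  fun m h hm => everyP_of_mem keyMask keyShift _ m h trabbaabbb (by decide +kernel) hm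

theorem ok_trabbabaaa : ∀ m h, PTree.MemP keyMask keyShift m h trabbabaaa →
    stateOk 234 (thrR rowTree rowDepth) (hasP keyMask deadTree) m h = true :=
  fun m h hm => everyP_of_mem keyMask keyShift _ m h trabbabaaa (by decide +kernel) hm

theorem ok_trabbabaab : ∀ m h, PTree.MemP keyMask keyShift m h trabbabaab →
    stateOk 234 (thrR rowTree rowDepth) (hasP keyMask deadTree) m h = true :=
  fun m h hm => everyP_of_mem keyMask keyShift _ m h trabbabaab (by decide +kernel) hm

theorem ok_trabbababa : ∀ m h, PTree.MemP keyMask keyShift m h trabbababa →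
    stateOk 234 (thrR rowTree rowDepth) (hasP keyMask deadTree) m h = true :=
  fun m h hm => everyP_of_mem keyMask keyShift _ m h trabbababa (by decide +kernel) hm

theorem ok_trabbababb : ∀ m h, PTree.MemP keyMask keyShift m h trabbababb →
    stateOk 234 (thrR rowTree rowDepth) (hasP keyMask deadTree) m h = true :=
  fun m h hm => everyP_of_mem keyMask keyShift _ m h trabbababb (by decide +kernel) hm

theorem ok_trabbabbaa : ∀ m h, PTree.MemP keyMask keyShift m h trabbabbaa →
    stateOk 234 (thrR rowTree rowDepth) (hasP keyMask deadTree) m h = true :=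
  fun m h hm => everyP_of_mem keyMask keyShift _ m h trabbabbaa (by decide +kernel) hm

theorem ok_trabbabbab : ∀ m h, PTree.MemP keyMask keyShift m h trabbabbab →
    stateOk 234 (thrR rowTree rowDepth) (hasP keyMask deadTree) m h = true :=
  fun m h hm => everyP_of_mem keyMask keyShift _ m h trabbabbab (by decide +kernel) hm

theorem ok_trabbabbba : ∀ m h, PTree.MemP keyMask keyShift m h trabbabbba →
    stateOk 234 (thrR rowTree rowDepth) (hasP keyMask deadTree) m h = true :=
  fun m h hm => everyP_of_mem keyMask keyShift _ m h trabbabbba (by decide +kernel) hm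

theorem ok_trabbabbbb : ∀ m h, PTree.MemP keyMask keyShift m h trabbabbbb →
    stateOk 234 (thrR rowTree rowDepth) (hasP keyMask deadTree) m h = true :=
  fun m h hm => everyP_of_mem keyMask keyShift _ m h trabbabbbb (by decide +kernel) hm

end Vale.Agent.Lib.Helper8.P302B1Tree
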