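import Vale.Agent.Lib.Helper8.P302B1Chk3

/-!
Check of a part of the certificate.
-/

namespace Vale.Agent.Lib.Helper8.P302B1Tree

open Vale.Agent.Lib.Helper3.BinPacking Vale.Agent.Lib.Helper8.P302Cert
open Vale.Agent.Lib.Helper8.P302Cert3 Vale.Agent.Lib.Helper8.P302Cert4
open Vale.Agent.Lib.Helper8.P302Cert5

theorem ok_trabbbaaaa : ∀ m h, PTree.MemP keyMask keyShift m h trabbbaaaa →
    stateOk 234 (thrR rowTree rowDepth) (hasP keyMask deadTree) m h = true :=
  fun m h hm => everyP_of_mem keyMask keyShift _ m h trabbbaaaa (by decide +kernel) hm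

theorem ok_trabbbaaab : ∀ m h, PTree.MemP keyMask keyShift m h trabbbaaab →
    stateOk 234 (thrR rowTree rowDepth) (hasP keyMask deadTree) m h = true :=
  fun m h hm => everyP_of_mem keyMask keyShift _ m h trabbbaaab (by decide +kernel) hm

theorem ok_trabbbaaba : ∀ m h, PTree.MemP keyMask keyShift m h trabbbaaba →
    stateOk 234 (thrR rowTree rowDepth) (hasP keyMask deadTree) m h = true :=
  fun m h hm => everyP_of_mem keyMask keyShift _ m h trabbbaaba (by decide +kernel) hm

theorem ok_trabbbaabb : ∀ m h, PTree.MemP keyMask keyShift m h trabbbaabb →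
    stateOk 234 (thrR rowTree rowDepth) (hasP keyMask deadTree) m h = true :=
  fun m h hm => everyP_of_mem keyMask keyShift _ m h trabbbaabb (by decide +kernel) hm

theorem ok_trabbbabaa : ∀ m h, PTree.MemP keyMask keyShift m h trabbbabaa →
    stateOk 234 (thrR rowTree rowDepth) (hasP keyMask deadTree) m h = true :=
  fun m h hm => everyP_of_mem keyMask keyShift _ m h trabbbabaa (by decide +kernel) hm

theorem ok_trabbbabab : ∀ m h, PTree.MemP keyMask keyShift m h trabbbabab →
    stateOk 234 (thrR rowTree rowDepth) (hasP keyMask deadTree) m h = true :=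
  fun m h hm => everyP_of_mem keyMask keyShift _ m h trabbbabab (by decide +kernel) hm

theorem ok_trabbbabba : ∀ m h, PTree.MemP keyMask keyShift m h trabbbabba →
    stateOk 234 (thrR rowTree rowDepth) (hasP keyMask deadTree) m h = true :=
  fun m h hm => everyP_of_mem keyMask keyShift _ m h trabbbabba (by decide +kernel) hm

theorem ok_trabbbabbb : ∀ m h, PTree.MemP keyMask keyShift m h trabbbabbb →
    stateOk 234 (thrR rowTree rowDepth) (hasP keyMask deadTree) m h = true :=
  fun m h hm => everyP_of_mem keyMask keyShift _ m h trabbbabbb (by decide +kernel) hm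

theorem ok_trabbbbaaa : ∀ m h, PTree.MemP keyMask keyShift m h trabbbbaaa →
    stateOk 234 (thrR rowTree rowDepth) (hasP keyMask deadTree) m h = true :=
  fun m h hm => everyP_of_mem keyMask keyShift _ m h trabbbbaaa (by decide +kernel) hm

theorem ok_trabbbbaab : ∀ m h, PTree.MemP keyMask keyShift m h trabbbbaab →
    stateOk 234 (thrR rowTree rowDepth) (hasP keyMask deadTree) m h = true :=
  fun m h hm => everyP_of_mem keyMask keyShift _ m h trabbbbaab (by decide +kernel) hm

theorem ok_trabbbbaba : ∀ m h, PTree.MemP keyMask keyShift m h trabbbbaba →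
    stateOk 234 (thrR rowTree rowDepth) (hasP keyMask deadTree) m h = true :=
  fun m h hm => everyP_of_mem keyMask keyShift _ m h trabbbbaba (by decide +kernel) hm

theorem ok_trabbbbabb : ∀ m h, PTree.MemP keyMask keyShift m h trabbbbabb →
    stateOk 234 (thrR rowTree rowDepth) (hasP keyMask deadTree) m h = true :=
  fun m h hm => everyP_of_mem keyMask keyShift _ m h trabbbbabb (by decide +kernel) hm

theorem ok_trabbbbbaa : ∀ m h, PTree.MemP keyMask keyShift m h trabbbbbaa →
    stateOk 234 (thrR rowTree rowDepth) (hasP keyMask deadTree) m h = true :=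
  fun m h hm => everyP_of_mem keyMask keyShift _ m h trabbbbbaa (by decide +kernel) hm

theorem ok_trabbbbbab : ∀ m h, PTree.MemP keyMask keyShift m h trabbbbbab →
    stateOk 234 (thrR rowTree rowDepth) (hasP keyMask deadTree) m h = true :=
  fun m h hm => everyP_of_mem keyMask keyShift _ m h trabbbbbab (by decide +kernel) hm

theorem ok_trabbbbbba : ∀ m h, PTree.MemP keyMask keyShift m h trabbbbbba →
    stateOk 234 (thrR rowTree rowDepth) (hasP keyMask deadTree) m h = true :=
  fun m h hm => everyP_of_mem keyMask keyShift _ m h trabbbbbba (by decide +kernel) hm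

theorem ok_trabbbbbbb : ∀ m h, PTree.MemP keyMask keyShift m h trabbbbbbb →
    stateOk 234 (thrR rowTree rowDepth) (hasP keyMask deadTree) m h = true :=
  fun m h hm => everyP_of_mem keyMask keyShift _ m h trabbbbbbb (by decide +kernel) hm

end Vale.Agent.Lib.Helper8.P302B1Tree
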