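import Vale.Agent.Lib.Helper8.P302B1Chk4

/-!
Check of a part of the certificate.
-/

namespace Vale.Agent.Lib.Helper8.P302B1Tree

open Vale.Agent.Lib.Helper3.BinPacking Vale.Agent.Lib.Helper8.P302Cert
open Vale.Agent.Lib.Helper8.P302Cert3 Vale.Agent.Lib.Helper8.P302Cert4
open Vale.Agent.Lib.Helper8.P302Cert5

theorem ok_trbaaaaaaa : ∀ m h, PTree.MemP keyMask keyShift m h trbaaaaaaa →
    stateOk 234 (thrR rowTree rowDepth) (hasP keyMask deadTree) m h = true :=
  fun m h hm => everyP_of_mem keyMask keyShift _ m h trbaaaaaaa (by decide +kernel) hm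

theorem ok_trbaaaaaab : ∀ m h, PTree.MemP keyMask keyShift m h trbaaaaaab →
    stateOk 234 (thrR rowTree rowDepth) (hasP keyMask deadTree) m h = true :=
  fun m h hm => everyP_of_mem keyMask keyShift _ m h trbaaaaaab (by decide +kernel) hm

theorem ok_trbaaaaaba : ∀ m h, PTree.MemP keyMask keyShift m h trbaaaaaba →
    stateOk 234 (thrR rowTree rowDepth) (hasP keyMask deadTree) m h = true :=
  fun m h hm => everyP_of_mem keyMask keyShift _ m h trbaaaaaba (by decide +kernel) hm

theorem ok_trbaaaaabb : ∀ m h, PTree.MemP keyMask keyShift m h trbaaaaabb →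
    stateOk 234 (thrR rowTree rowDepth) (hasP keyMask deadTree) m h = true :=
  fun m h hm => everyP_of_mem keyMask keyShift _ m h trbaaaaabb (by decide +kernel) hm

theorem ok_trbaaaabaa : ∀ m h, PTree.MemP keyMask keyShift m h trbaaaabaa →
    stateOk 234 (thrR rowTree rowDepth) (hasP keyMask deadTree) m h = true :=
  fun m h hm => everyP_of_mem keyMask keyShift _ m h trbaaaabaa (by decide +kernel) hm

theorem ok_trbaaaabab : ∀ m h, PTree.MemP keyMask keyShift m h trbaaaabab →
    stateOk 234 (thrR rowTree rowDepth) (hasP keyMask deadTree) m h = true :=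
  fun m h hm => everyP_of_mem keyMask keyShift _ m h trbaaaabab (by decide +kernel) hm

theorem ok_trbaaaabba : ∀ m h, PTree.MemP keyMask keyShift m h trbaaaabba →
    stateOk 234 (thrR rowTree rowDepth) (hasP keyMask deadTree) m h = true :=
  fun m h hm => everyP_of_mem keyMask keyShift _ m h trbaaaabba (by decide +kernel) hm

theorem ok_trbaaaabbb : ∀ m h, PTree.MemP keyMask keyShift m h trbaaaabbb →
    stateOk 234 (thrR rowTree rowDepth) (hasP keyMask deadTree) m h = true :=
  fun m h hm => everyP_of_mem keyMask keyShift _ m h trbaaaabbb (by decide +kernel) hm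

theorem ok_trbaaabaaa : ∀ m h, PTree.MemP keyMask keyShift m h trbaaabaaa →
    stateOk 234 (thrR rowTree rowDepth) (hasP keyMask deadTree) m h = true :=
  fun m h hm => everyP_of_mem keyMask keyShift _ m h trbaaabaaa (by decide +kernel) hm

theorem ok_trbaaabaab : ∀ m h, PTree.MemP keyMask keyShift m h trbaaabaab →
    stateOk 234 (thrR rowTree rowDepth) (hasP keyMask deadTree) m h = true :=
  fun m h hm => everyP_of_mem keyMask keyShift _ m h trbaaabaab (by decide +kernel) hm

theorem ok_trbaaababa : ∀ m h, PTree.MemP keyMask keyShift m h trbaaababa →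
    stateOk 234 (thrR rowTree rowDepth) (hasP keyMask deadTree) m h = true :=
  fun m h hm => everyP_of_mem keyMask keyShift _ m h trbaaababa (by decide +kernel) hm

theorem ok_trbaaababb : ∀ m h, PTree.MemP keyMask keyShift m h trbaaababb →
    stateOk 234 (thrR rowTree rowDepth) (hasP keyMask deadTree) m h = true :=
  fun m h hm => everyP_of_mem keyMask keyShift _ m h trbaaababb (by decide +kernel) hm

theorem ok_trbaaabbaa : ∀ m h, PTree.MemP keyMask keyShift m h trbaaabbaa →
    stateOk 234 (thrR rowTree rowDepth) (hasP keyMask deadTree) m h = true :=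
  fun m h hm => everyP_of_mem keyMask keyShift _ m h trbaaabbaa (by decide +kernel) hm

theorem ok_trbaaabbab : ∀ m h, PTree.MemP keyMask keyShift m h trbaaabbab →
    stateOk 234 (thrR rowTree rowDepth) (hasP keyMask deadTree) m h = true :=
  fun m h hm => everyP_of_mem keyMask keyShift _ m h trbaaabbab (by decide +kernel) hm

theorem ok_trbaaabbba : ∀ m h, PTree.MemP keyMask keyShift m h trbaaabbba →
    stateOk 234 (thrR rowTree rowDepth) (hasP keyMask deadTree) m h = true :=
  fun m h hm => everyP_of_mem keyMask keyShift _ m h trbaaabbba (by decide +kernel) hm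

theorem ok_trbaaabbbb : ∀ m h, PTree.MemP keyMask keyShift m h trbaaabbbb →
    stateOk 234 (thrR rowTree rowDepth) (hasP keyMask deadTree) m h = true :=
  fun m h hm => everyP_of_mem keyMask keyShift _ m h trbaaabbbb (by decide +kernel) hm

end Vale.Agent.Lib.Helper8.P302B1Tree
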