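import Vale.Agent.Lib.Helper8.P302B1Chk5

/-!
Check of a part of the certificate.
-/

namespace Vale.Agent.Lib.Helper8.P302B1Tree

open Vale.Agent.Lib.Helper3.BinPacking Vale.Agent.Lib.Helper8.P302Cert
open Vale.Agent.Lib.Helper8.P302Cert3 Vale.Agent.Lib.Helper8.P302Cert4
open Vale.Agent.Lib.Helper8.P302Cert5

theorem ok_trbaabaaaa : ∀ m h, PTree.MemP keyMask keyShift m h trbaabaaaa →
    stateOk 234 (thrR rowTree rowDepth) (hasP keyMask deadTree) m h = true :=
  fun m h hm => everyP_of_mem keyMask keyShift _ m h trbaabaaaa (by decide +kernel) hm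

theorem ok_trbaabaaab : ∀ m h, PTree.MemP keyMask keyShift m h trbaabaaab →
    stateOk 234 (thrR rowTree rowDepth) (hasP keyMask deadTree) m h = true :=
  fun m h hm => everyP_of_mem keyMask keyShift _ m h trbaabaaab (by decide +kernel) hm

theorem ok_trbaabaaba : ∀ m h, PTree.MemP keyMask keyShift m h trbaabaaba →
    stateOk 234 (thrR rowTree rowDepth) (hasP keyMask deadTree) m h = true :=
  fun m h hm => everyP_of_mem keyMask keyShift _ m h trbaabaaba (by decide +kernel) hm

theorem ok_trbaabaabb : ∀ m h, PTree.MemP keyMask keyShift m h trbaabaabb →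
    stateOk 234 (thrR rowTree rowDepth) (hasP keyMask deadTree) m h = true :=
  fun m h hm => everyP_of_mem keyMask keyShift _ m h trbaabaabb (by decide +kernel) hm

theorem ok_trbaababaa : ∀ m h, PTree.MemP keyMask keyShift m h trbaababaa →
    stateOk 234 (thrR rowTree rowDepth) (hasP keyMask deadTree) m h = true :=
  fun m h hm => everyP_of_mem keyMask keyShift _ m h trbaababaa (by decide +kernel) hm

theorem ok_trbaababab : ∀ m h, PTree.MemP keyMask keyShift m h trbaababab →
    stateOk 234 (thrR rowTree rowDepth) (hasP keyMask deadTree) m h = true :=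
  fun m h hm => everyP_of_mem keyMask keyShift _ m h trbaababab (by decide +kernel) hm

theorem ok_trbaababba : ∀ m h, PTree.MemP keyMask keyShift m h trbaababba →
    stateOk 234 (thrR rowTree rowDepth) (hasP keyMask deadTree) m h = true :=
  fun m h hm => everyP_of_mem keyMask keyShift _ m h trbaababba (by decide +kernel) hm

theorem ok_trbaababbb : ∀ m h, PTree.MemP keyMask keyShift m h trbaababbb →
    stateOk 234 (thrR rowTree rowDepth) (hasP keyMask deadTree) m h = true :=
  fun m h hm => everyP_of_mem keyMask keyShift _ m h trbaababbb (by decide +kernel) hm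

theorem ok_trbaabbaaa : ∀ m h, PTree.MemP keyMask keyShift m h trbaabbaaa →
    stateOk 234 (thrR rowTree rowDepth) (hasP keyMask deadTree) m h = true :=
  fun m h hm => everyP_of_mem keyMask keyShift _ m h trbaabbaaa (by decide +kernel) hm

theorem ok_trbaabbaab : ∀ m h, PTree.MemP keyMask keyShift m h trbaabbaab →
    stateOk 234 (thrR rowTree rowDepth) (hasP keyMask deadTree) m h = true :=
  fun m h hm => everyP_of_mem keyMask keyShift _ m h trbaabbaab (by decide +kernel) hm

theorem ok_trbaabbaba : ∀ m h, PTree.MemP keyMask keyShift m h trbaabbaba →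
    stateOk 234 (thrR rowTree rowDepth) (hasP keyMask deadTree) m h = true :=
  fun m h hm => everyP_of_mem keyMask keyShift _ m h trbaabbaba (by decide +kernel) hm

theorem ok_trbaabbabb : ∀ m h, PTree.MemP keyMask keyShift m h trbaabbabb →
    stateOk 234 (thrR rowTree rowDepth) (hasP keyMask deadTree) m h = true :=
  fun m h hm => everyP_of_mem keyMask keyShift _ m h trbaabbabb (by decide +kernel) hm

theorem ok_trbaabbbaa : ∀ m h, PTree.MemP keyMask keyShift m h trbaabbbaa →
    stateOk 234 (thrR rowTree rowDepth) (hasP keyMask deadTree) m h = true :=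
  fun m h hm => everyP_of_mem keyMask keyShift _ m h trbaabbbaa (by decide +kernel) hm

theorem ok_trbaabbbab : ∀ m h, PTree.MemP keyMask keyShift m h trbaabbbab →
    stateOk 234 (thrR rowTree rowDepth) (hasP keyMask deadTree) m h = true :=
  fun m h hm => everyP_of_mem keyMask keyShift _ m h trbaabbbab (by decide +kernel) hm

theorem ok_trbaabbbba : ∀ m h, PTree.MemP keyMask keyShift m h trbaabbbba →
    stateOk 234 (thrR rowTree rowDepth) (hasP keyMask deadTree) m h = true :=
  fun m h hm => everyP_of_mem keyMask keyShift _ m h trbaabbbba (by decide +kernel) hm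

theorem ok_trbaabbbbb : ∀ m h, PTree.MemP keyMask keyShift m h trbaabbbbb →
    stateOk 234 (thrR rowTree rowDepth) (hasP keyMask deadTree) m h = true :=
  fun m h hm => everyP_of_mem keyMask keyShift _ m h trbaabbbbb (by decide +kernel) hm

end Vale.Agent.Lib.Helper8.P302B1Tree
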