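import Vale.Agent.Lib.Helper8.P302Dead

/-!
A checker for dead-state certificates.  States are sets of indices coded by the binary digits
of a natural number; the certificate is a search tree of such codes.
-/

namespace Vale.Agent.Lib.Helper8.P302Cert

open Finset Vale.Agent.Lib.Helper3.BinPacking

/-- The set of positions of the binary digits one of `m`. -/
def bits (m : ℕ) : Finset ℕ := (Finset.range (m.log2 + 1)).filter (fun i => m.testBit i = true)

theorem mem_bits {m i : ℕ} : i ∈ bits m ↔ m.testBit i = true := by
  unfold bits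
  rw [Finset.mem_filter, Finset.mem_range]
  constructor
  · exact fun h => h.2
  · intro h
    refine ⟨?_, h⟩
    have h1 : 2 ^ i ≤ m := Nat.ge_two_pow_of_testBit h
    have h2 : m < 2 ^ (m.log2 + 1) := Nat.lt_log2_self
    exact (Nat.pow_lt_pow_iff_right (by norm_num)).1 (lt_of_le_of_lt h1 h2)

theorem bits_xor_pow {m i : ℕ} (h : m.testBit i = true) :
    bits (m ^^^ 2 ^ i) = (bits m).erase i := by
  ext j
  rw [mem_bits, Finset.mem_erase, mem_bits, Nat.testBit_xor, Nat.testBit_two_pow]
  by_cases hij : i = j
  · subst hij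
    simp [h]
  · have hji : j ≠ i := fun h' => hij h'.symm
    simp [hij, hji]

theorem bits_and_mask (m t : ℕ) :
    bits (m &&& (2 ^ t - 1)) = (bits m).filter (fun i => i < t) := by
  ext j
  rw [mem_bits, Finset.mem_filter, mem_bits, Nat.testBit_and, Nat.testBit_two_pow_sub_one]
  simp

theorem bits_full (N : ℕ) : bits (2 ^ N - 1) = Finset.range N := by
  ext j
  rw [mem_bits, Nat.testBit_two_pow_sub_one]
  simp

theorem bits_lt {m N i : ℕ} (hm : m < 2 ^ N) (hi : i ∈ bits m) : i < N := by
  rw [mem_bits] at hi
  have h1 := Nat.ge_two_pow_of_testBit hi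
  exact (Nat.pow_lt_pow_iff_right (by norm_num)).1 (lt_of_le_of_lt h1 hm)

theorem log2_mem_bits {m : ℕ} (hm : m ≠ 0) : m.log2 ∈ bits m :=
  mem_bits.2 (Nat.testBit_log2 hm)

theorem le_log2_of_mem_bits {m i : ℕ} (hi : i ∈ bits m) : i ≤ m.log2 := by
  unfold bits at hi
  rw [Finset.mem_filter, Finset.mem_range] at hi
  omega

/-- A binary search tree of natural numbers. -/
inductive KTree where
  | leaf : KTree
  | node : KTree → ℕ → KTree → KTree

/-- Search for a key. -/
def KTree.contains : KTree → ℕ → Bool
  | .leaf, _ => false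
  | .node l v r, k => if k < v then l.contains k else if v < k then r.contains k else true

/-- All keys satisfy a test. -/
def KTree.all : KTree → (ℕ → Bool) → Bool
  | .leaf, _ => true
  | .node l v r, p => l.all p && (p v && r.all p)

/-- Membership of a key. -/
def KTree.Mem (k : ℕ) : KTree → Prop
  | .leaf => False
  | .node l v r => KTree.Mem k l ∨ k = v ∨ KTree.Mem k r

theorem KTree.mem_of_contains (k : ℕ) : ∀ t : KTree, t.contains k = true → KTree.Mem k t
  | .leaf, h => by simp [KTree.contains] at h
  | .node l v r, h => by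
    unfold KTree.contains at h
    unfold KTree.Mem
    by_cases h1 : k < v
    · rw [if_pos h1] at h
      exact Or.inl (KTree.mem_of_contains k l h)
    · rw [if_neg h1] at h
      by_cases h2 : v < k
      · rw [if_pos h2] at h
        exact Or.inr (Or.inr (KTree.mem_of_contains k r h))
      · exact Or.inr (Or.inl (by omega))

theorem KTree.all_of_mem (p : ℕ → Bool) (k : ℕ) :
    ∀ t : KTree, t.all p = true → KTree.Mem k t → p k = true
  | .leaf, _, hm => by simp [KTree.Mem] at hm
  | .node l v r, h, hm => by
    unfold KTree.all at h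
    rw [Bool.and_eq_true, Bool.and_eq_true] at h
    unfold KTree.Mem at hm
    rcases hm with hm | hm | hm
    · exact KTree.all_of_mem p k l h.1 hm
    · rw [hm]
      exact h.2.1
    · exact KTree.all_of_mem p k r h.2.2 hm

/-- For a sorted list and a downward closed test, the indices passing the test are exactly
those below the number of passing entries. -/
theorem sorted_countP (p : ℕ → Bool) (hp : ∀ a b, a ≤ b → p b = true → p a = true) :
    ∀ (ws : List ℕ), ws.Pairwise (fun a b => a ≤ b) → ∀ i, i < ws.length →
      (p (ws.getD i 0) = true ↔ i < ws.countP p)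
  | [], _, i, hi => by simp at hi
  | a :: t, hs, i, hi => by
    rw [List.pairwise_cons] at hs
    have ih := sorted_countP p hp t hs.2
    rw [List.countP_cons]
    by_cases hpa : p a = true
    · rw [if_pos hpa]
      cases i with
      | zero => simp [hpa]
      | succ j =>
        have hj : j < t.length := by simpa using hi
        rw [List.getD_cons_succ, ih j hj]
        omega
    · rw [if_neg hpa]
      have hall : ∀ b ∈ t, ¬ (p b = true) := fun b hb hpb => hpa (hp a b (hs.1 b hb) hpb)
      have hzero : t.countP p = 0 := by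
        rw [List.countP_eq_zero]
        exact hall
      rw [hzero]
      cases i with
      | zero => simp [hpa]
      | succ j =>
        have hj : j < t.length := by simpa using hi
        rw [List.getD_cons_succ]
        have hmem : t.getD j 0 ∈ t := by
          rw [List.getD_eq_getElem _ _ hj]
          exact List.getElem_mem hj
        have h5 := hall _ hmem
        constructor
        · intro h6
          exact absurd h6 h5
        · intro h6
          omega

/-- One step of the check: the state `m` with largest index `x` (of weight `wx`) and a second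
index `y`. -/
def stepOk (ws : List ℕ) (C : ℕ) (T : KTree) (m x wx y : ℕ) : Bool :=
  if m.testBit y = true then
    if ((m ^^^ 2 ^ x) ^^^ 2 ^ y) &&&
        (2 ^ (ws.countP (fun w => decide (wx + ws.getD y 0 + w ≤ C))) - 1) = 0 then true
    else
      if y < (((m ^^^ 2 ^ x) ^^^ 2 ^ y) &&&
          (2 ^ (ws.countP (fun w => decide (wx + ws.getD y 0 + w ≤ C))) - 1)).log2 then
        T.contains (((m ^^^ 2 ^ x) ^^^ 2 ^ y) ^^^ 2 ^ ((((m ^^^ 2 ^ x) ^^^ 2 ^ y) &&&
          (2 ^ (ws.countP (fun w => decide (wx + ws.getD y 0 + w ≤ C))) - 1)).log2))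
      else true
  else true

/-- The check of one state. -/
def stateOk (ws : List ℕ) (C N : ℕ) (T : KTree) (m : ℕ) : Bool :=
  decide (m ≠ 0) && (decide (m < 2 ^ N) &&
    (List.range m.log2).all (fun y => stepOk ws C T m m.log2 (ws.getD m.log2 0) y))

/-- The check of the whole certificate. -/
def certOk (ws : List ℕ) (C N : ℕ) (T : KTree) : Bool :=
  T.all (stateOk ws C N T) && T.contains (2 ^ N - 1)

/-- **Soundness of the checker.** -/
theorem not_packable_of_cert (ws : List ℕ) (C N : ℕ) (T : KTree) (hN : N ≤ ws.length)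
    (hsorted : ws.Pairwise (fun a b => a ≤ b)) (hcert : certOk ws C N T = true) :
    ¬ Packable (fun i => ws.getD i 0) C (Finset.range N) := by
  classical
  unfold certOk at hcert
  rw [Bool.and_eq_true] at hcert
  obtain ⟨hall, hroot⟩ := hcert
  set wt : ℕ → ℕ := fun i => ws.getD i 0 with hwt
  have hmono : ∀ i j, i ≤ j → j < N → wt i ≤ wt j := by
    intro i j hij hj
    rcases Nat.eq_or_lt_of_le hij with heq | hlt
    · rw [heq]
    · have hj' : j < ws.length := by omega
      have hi' : i < ws.length := by omega
      simp only [hwt]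
      rw [List.getD_eq_getElem _ _ hi', List.getD_eq_getElem _ _ hj']
      exact List.pairwise_iff_getElem.1 hsorted i j hi' hj' hlt
  apply Vale.Agent.Lib.Helper8.P302Dead.not_packable_of_dead wt C N hmono
    (fun M => ∃ m, KTree.Mem m T ∧ bits m = M)
  · rintro M ⟨m, hmT, rfl⟩
    have hst := KTree.all_of_mem _ m T hall hmT
    unfold stateOk at hst
    rw [Bool.and_eq_true, Bool.and_eq_true, decide_eq_true_eq, decide_eq_true_eq,
      List.all_eq_true] at hst
    obtain ⟨hm0, hmN, hsteps⟩ := hst
    refine ⟨fun i hi => bits_lt hmN hi, m.log2, log2_mem_bits hm0,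
      fun i hi => le_log2_of_mem_bits hi, ?_⟩
    intro y hy z hz hyz hzx hfeas hmax
    have hstep := hsteps y (List.mem_range.2 (lt_trans hyz hzx))
    unfold stepOk at hstep
    have hyb : m.testBit y = true := mem_bits.1 hy
    rw [if_pos hyb] at hstep
    have hxb : m.testBit m.log2 = true := Nat.testBit_log2 hm0
    have hyx : y ≠ m.log2 := ne_of_lt (lt_trans hyz hzx)
    have hy1 : (m ^^^ 2 ^ m.log2).testBit y = true := by
      rw [← mem_bits, bits_xor_pow hxb, Finset.mem_erase]
      exact ⟨hyx, hy⟩
    have hb1 : bits ((m ^^^ 2 ^ m.log2) ^^^ 2 ^ y) = ((bits m).erase m.log2).erase y := by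
      rw [bits_xor_pow hy1, bits_xor_pow hxb]
    set m1 := (m ^^^ 2 ^ m.log2) ^^^ 2 ^ y with hm1
    set p : ℕ → Bool := fun w => decide (ws.getD m.log2 0 + ws.getD y 0 + w ≤ C) with hp
    have hpmono : ∀ a b, a ≤ b → p b = true → p a = true := by
      intro a b hab hb
      simp only [hp, decide_eq_true_eq] at hb ⊢
      omega
    have hthr : ∀ i, i < N → (wt m.log2 + wt y + wt i ≤ C ↔ i < ws.countP p) := by
      intro i hi
      have h1 := sorted_countP p hpmono ws hsorted i (lt_of_lt_of_le hi hN)
      rw [← h1]
      simp only [hp, decide_eq_true_eq, hwt]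
    set c := m1 &&& (2 ^ (ws.countP p) - 1) with hc
    have hbc : bits c = (((bits m).erase m.log2).erase y).filter (fun i => i < ws.countP p) := by
      rw [hc, bits_and_mask, hb1]
    have hzN : z < N := bits_lt hmN hz
    have hzc : z ∈ bits c := by
      rw [hbc, Finset.mem_filter, Finset.mem_erase, Finset.mem_erase]
      exact ⟨⟨ne_of_gt hyz, ne_of_lt hzx, hz⟩, (hthr z hzN).1 hfeas⟩
    have hc0 : c ≠ 0 := by
      intro h0
      rw [h0] at hzc
      rw [mem_bits] at hzc
      simp at hzc
    rw [if_neg hc0] at hstep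
    have hlog : c.log2 ∈ bits c := log2_mem_bits hc0
    have hzle : z ≤ c.log2 := le_log2_of_mem_bits hzc
    rw [hbc, Finset.mem_filter, Finset.mem_erase, Finset.mem_erase] at hlog
    obtain ⟨⟨hl1, hl2, hl3⟩, hl4⟩ := hlog
    have hlN : c.log2 < N := bits_lt hmN hl3
    have hlfeas : wt m.log2 + wt y + wt c.log2 ≤ C := (hthr _ hlN).2 hl4
    have hlx : c.log2 < m.log2 := lt_of_le_of_ne (le_log2_of_mem_bits hl3) hl2
    have hzeq : c.log2 = z := by
      by_contra hne
      have hlt : z < c.log2 := lt_of_le_of_ne hzle (fun h => hne h.symm)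
      have := hmax _ hl3 hlt hlx
      omega
    rw [hzeq, if_pos hyz] at hstep
    refine ⟨m1 ^^^ 2 ^ z, KTree.mem_of_contains _ T hstep, ?_⟩
    have hz1 : m1.testBit z = true := by
      rw [← mem_bits, hb1, Finset.mem_erase, Finset.mem_erase]
      exact ⟨ne_of_gt hyz, ne_of_lt hzx, hz⟩
    rw [bits_xor_pow hz1, hb1]
  · exact ⟨2 ^ N - 1, KTree.mem_of_contains _ T hroot, bits_full N⟩

end Vale.Agent.Lib.Helper8.P302Cert
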