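import Vale.Agent.Lib.Helper8.P302Cert

/-!
A second, leaner checker for dead-state certificates: the feasibility thresholds are read from
a table (validated separately), and all functions on the hot path are written with the
recursors and with Boolean primitives.
-/

namespace Vale.Agent.Lib.Helper8.P302Cert2

open Finset Vale.Agent.Lib.Helper3.BinPacking Vale.Agent.Lib.Helper8.P302Cert

/-- Search for a key. -/
noncomputable def has (t : KTree) : ℕ → Bool :=
  KTree.rec (motive := fun _ => ℕ → Bool) (fun _ => false)
    (fun _ v _ ihl ihr k => cond (Nat.blt k v) (ihl k) (cond (Nat.blt v k) (ihr k) true)) t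

theorem has_leaf (k : ℕ) : has KTree.leaf k = false := rfl

theorem has_node (l r : KTree) (v k : ℕ) :
    has (KTree.node l v r) k
      = cond (Nat.blt k v) (has l k) (cond (Nat.blt v k) (has r k) true) := rfl

theorem mem_of_has (k : ℕ) : ∀ t : KTree, has t k = true → KTree.Mem k t
  | .leaf, h => by
    rw [has_leaf] at h
    exact absurd h (by simp)
  | .node l v r, h => by
    rw [has_node] at h
    unfold KTree.Mem
    by_cases h1 : Nat.blt k v = true
    · rw [h1, cond_true] at h
      exact Or.inl (mem_of_has k l h)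
    · have h1' : Nat.blt k v = false := Bool.eq_false_iff.2 h1
      rw [h1', cond_false] at h
      by_cases h2 : Nat.blt v k = true
      · rw [h2, cond_true] at h
        exact Or.inr (Or.inr (mem_of_has k r h))
      · have a1 : ¬ k < v := by
          rw [← Nat.blt_eq]
          exact h1
        have a2 : ¬ v < k := by
          rw [← Nat.blt_eq]
          exact h2
        exact Or.inr (Or.inl (by omega))

/-- All keys pass a test. -/
noncomputable def every (t : KTree) (p : ℕ → Bool) : Bool :=
  KTree.rec (motive := fun _ => Bool) true (fun _ v _ ihl ihr => ihl && (p v && ihr)) t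

theorem every_leaf (p : ℕ → Bool) : every KTree.leaf p = true := rfl

theorem every_node (l r : KTree) (v : ℕ) (p : ℕ → Bool) :
    every (KTree.node l v r) p = (every l p && (p v && every r p)) := rfl

theorem every_of_mem (p : ℕ → Bool) (k : ℕ) :
    ∀ t : KTree, every t p = true → KTree.Mem k t → p k = true
  | .leaf, _, hm => by simp [KTree.Mem] at hm
  | .node l v r, h, hm => by
    rw [every_node, Bool.and_eq_true, Bool.and_eq_true] at h
    unfold KTree.Mem at hm
    rcases hm with hm | hm | hm
    · exact every_of_mem p k l h.1 hm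
    · rw [hm]
      exact h.2.1
    · exact every_of_mem p k r h.2.2 hm

/-- The last part of a step: `c` codes the feasible third indices. -/
noncomputable def stepAux (T : KTree) (m1 y c : ℕ) : Bool :=
  cond (Nat.beq c 0) true
    (cond (Nat.blt y (Nat.log2 c)) (has T (Nat.xor m1 (Nat.pow 2 (Nat.log2 c)))) true)

/-- One step: state `m`, largest index `x`, second index `y`, threshold `t`. -/
noncomputable def stepOk2 (T : KTree) (m x t y : ℕ) : Bool :=
  cond (Nat.testBit m y)
    (stepAux T (Nat.xor (Nat.xor m (Nat.pow 2 x)) (Nat.pow 2 y)) y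
      (Nat.land (Nat.xor (Nat.xor m (Nat.pow 2 x)) (Nat.pow 2 y)) (Nat.sub (Nat.pow 2 t) 1)))
    true

/-- All steps of a state, along the row of thresholds. -/
noncomputable def rowOk (T : KTree) (m x : ℕ) (row : List ℕ) : ℕ → Bool :=
  List.rec (motive := fun _ => ℕ → Bool) (fun _ => true)
    (fun t _ ih y => stepOk2 T m x t y && ih (Nat.succ y)) row

theorem rowOk_cons (T : KTree) (m x t : ℕ) (rest : List ℕ) (y : ℕ) :
    rowOk T m x (t :: rest) y = (stepOk2 T m x t y && rowOk T m x rest (Nat.succ y)) := rfl

theorem rowOk_spec (T : KTree) (m x : ℕ) : ∀ (row : List ℕ) (k : ℕ), rowOk T m x row k = true →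
    ∀ j, j < row.length → stepOk2 T m x (row.getD j 0) (k + j) = true
  | [], _, _, j, hj => by simp at hj
  | t :: rest, k, h, j, hj => by
    rw [rowOk_cons, Bool.and_eq_true] at h
    cases j with
    | zero => simpa using h.1
    | succ j' =>
      have h3 := rowOk_spec T m x rest (Nat.succ k) h.2 j' (by simpa using hj)
      rw [List.getD_cons_succ]
      have e : k + (j' + 1) = Nat.succ k + j' := by omega
      rw [e]
      exact h3

/-- Validation of a row of thresholds. -/
noncomputable def rowValid (ws : List ℕ) (C wx : ℕ) (row : List ℕ) : ℕ → Bool :=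
  List.rec (motive := fun _ => ℕ → Bool) (fun _ => true)
    (fun t _ ih y =>
      Nat.beq t (ws.countP (fun w => Nat.ble (wx + ws.getD y 0 + w) C)) && ih (Nat.succ y)) row

theorem rowValid_cons (ws : List ℕ) (C wx t : ℕ) (rest : List ℕ) (y : ℕ) :
    rowValid ws C wx (t :: rest) y
      = (Nat.beq t (ws.countP (fun w => Nat.ble (wx + ws.getD y 0 + w) C))
          && rowValid ws C wx rest (Nat.succ y)) := rfl

theorem rowValid_spec (ws : List ℕ) (C wx : ℕ) : ∀ (row : List ℕ) (k : ℕ),
    rowValid ws C wx row k = true → ∀ j, j < row.length →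
      row.getD j 0 = ws.countP (fun w => Nat.ble (wx + ws.getD (k + j) 0 + w) C)
  | [], _, _, j, hj => by simp at hj
  | t :: rest, k, h, j, hj => by
    rw [rowValid_cons, Bool.and_eq_true] at h
    cases j with
    | zero =>
      have h1 := Nat.eq_of_beq_eq_true h.1
      simpa using h1
    | succ j' =>
      have h3 := rowValid_spec ws C wx rest (Nat.succ k) h.2 j' (by simpa using hj)
      rw [List.getD_cons_succ]
      have e : k + (j' + 1) = Nat.succ k + j' := by omega
      rw [e]
      exact h3

/-- Validation of the table of thresholds. -/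
noncomputable def tblOk (ws : List ℕ) (C N : ℕ) (tbl : List (List ℕ)) : Bool :=
  (List.range N).all (fun x =>
    Nat.beq (tbl.getD x []).length x && rowValid ws C (ws.getD x 0) (tbl.getD x []) 0)

theorem tbl_spec (ws : List ℕ) (C N : ℕ) (tbl : List (List ℕ)) (h : tblOk ws C N tbl = true)
    (x : ℕ) (hx : x < N) : (tbl.getD x []).length = x ∧ ∀ y, y < x →
      (tbl.getD x []).getD y 0
        = ws.countP (fun w => Nat.ble (ws.getD x 0 + ws.getD y 0 + w) C) := by
  unfold tblOk at h
  rw [List.all_eq_true] at h
  have h1 := h x (List.mem_range.2 hx)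
  rw [Bool.and_eq_true] at h1
  have hlen := Nat.eq_of_beq_eq_true h1.1
  refine ⟨hlen, fun y hy => ?_⟩
  have h2 := rowValid_spec ws C (ws.getD x 0) (tbl.getD x []) 0 h1.2 y (by rw [hlen]; exact hy)
  rw [Nat.zero_add] at h2
  exact h2

/-- The check of one state. -/
noncomputable def stateOk2 (N : ℕ) (tbl : List (List ℕ)) (T : KTree) (m : ℕ) : Bool :=
  cond (Nat.beq m 0) false
    (Nat.blt m (Nat.pow 2 N) && rowOk T m (Nat.log2 m) (tbl.getD (Nat.log2 m) []) 0)

/-- The check of a family of states `S` against the certificate `T`. -/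
noncomputable def partOk (N : ℕ) (tbl : List (List ℕ)) (T S : KTree) : Bool :=
  every S (stateOk2 N tbl T)

/-- **Soundness of the second checker.**  The certificate `T` may be checked in parts: the
hypothesis `hall` asks that every state of `T` passes the check. -/
theorem not_packable_of_cert2 (ws : List ℕ) (C N : ℕ) (tbl : List (List ℕ)) (T : KTree)
    (hN : N ≤ ws.length) (hsorted : ws.Pairwise (fun a b => a ≤ b))
    (htbl : tblOk ws C N tbl = true)
    (hall : ∀ m, KTree.Mem m T → stateOk2 N tbl T m = true)
    (hroot : has T (Nat.sub (Nat.pow 2 N) 1) = true) :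
    ¬ Packable (fun i => ws.getD i 0) C (Finset.range N) := by
  classical
  set wt : ℕ → ℕ := fun i => ws.getD i 0 with hwt
  have hmono : ∀ i j, i ≤ j → j < N → wt i ≤ wt j := by
    intro i j hij hj
    rcases Nat.eq_or_lt_of_le hij with heq | hlt
    · rw [heq]
    · have hj' : j < ws.length := by omega
      have hi' : i < ws.length := by omega
      simp only [hwt]
      rw [List.getD_eq_getElem _ _ hi', List.getD_eq_getElem _ _ hj']
      exact List.pairwise_iff_getElem.1 hsorted i j hi' hj' hlt
  apply Vale.Agent.Lib.Helper8.P302Dead.not_packable_of_dead wt C N hmono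
    (fun M => ∃ m, KTree.Mem m T ∧ bits m = M)
  · rintro M ⟨m, hmT, rfl⟩
    have hst := hall m hmT
    unfold stateOk2 at hst
    have hm0 : m ≠ 0 := by
      intro h0
      rw [h0] at hst
      exact absurd hst (by simp)
    have hb0 : Nat.beq m 0 = false := by
      cases hb : Nat.beq m 0 with
      | false => rfl
      | true => exact absurd (Nat.eq_of_beq_eq_true hb) hm0
    rw [hb0, cond_false, Bool.and_eq_true] at hst
    obtain ⟨hmN', hrow⟩ := hst
    have hmN : m < 2 ^ N := by
      have h1 : m < Nat.pow 2 N := by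
        rw [← Nat.blt_eq]
        exact hmN'
      exact h1
    have hxN : m.log2 < N := bits_lt hmN (log2_mem_bits hm0)
    obtain ⟨hlen, htb⟩ := tbl_spec ws C N tbl htbl m.log2 hxN
    refine ⟨fun i hi => bits_lt hmN hi, m.log2, log2_mem_bits hm0,
      fun i hi => le_log2_of_mem_bits hi, ?_⟩
    intro y hy z hz hyz hzx hfeas hmax
    have hyltx : y < m.log2 := lt_trans hyz hzx
    have hstep := rowOk_spec T m m.log2 (tbl.getD m.log2 []) 0 hrow y (by rw [hlen]; exact hyltx)
    rw [Nat.zero_add, htb y hyltx] at hstep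
    unfold stepOk2 at hstep
    have hyb : m.testBit y = true := mem_bits.1 hy
    rw [hyb, cond_true] at hstep
    have hxb : m.testBit m.log2 = true := Nat.testBit_log2 hm0
    have hyx : y ≠ m.log2 := ne_of_lt hyltx
    have hy1 : (m ^^^ 2 ^ m.log2).testBit y = true := by
      rw [← mem_bits, bits_xor_pow hxb, Finset.mem_erase]
      exact ⟨hyx, hy⟩
    have hb1 : bits ((m ^^^ 2 ^ m.log2) ^^^ 2 ^ y) = ((bits m).erase m.log2).erase y := by
      rw [bits_xor_pow hy1, bits_xor_pow hxb]
    set p : ℕ → Bool := fun w => Nat.ble (ws.getD m.log2 0 + ws.getD y 0 + w) C with hp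
    have hpmono : ∀ a b, a ≤ b → p b = true → p a = true := by
      intro a b hab hb
      simp only [hp, Nat.ble_eq] at hb ⊢
      omega
    have hthr : ∀ i, i < N → (wt m.log2 + wt y + wt i ≤ C ↔ i < ws.countP p) := by
      intro i hi
      have h1 := sorted_countP p hpmono ws hsorted i (lt_of_lt_of_le hi hN)
      rw [← h1]
      simp only [hp, Nat.ble_eq, hwt]
    have e1 : Nat.xor (Nat.xor m (Nat.pow 2 m.log2)) (Nat.pow 2 y)
        = (m ^^^ 2 ^ m.log2) ^^^ 2 ^ y := rfl
    rw [e1] at hstep
    set m1 := (m ^^^ 2 ^ m.log2) ^^^ 2 ^ y with hm1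
    have e2 : Nat.land m1 (Nat.sub (Nat.pow 2 (ws.countP p)) 1)
        = m1 &&& (2 ^ (ws.countP p) - 1) := rfl
    rw [e2] at hstep
    set c := m1 &&& (2 ^ (ws.countP p) - 1) with hc
    have hbc : bits c = (((bits m).erase m.log2).erase y).filter (fun i => i < ws.countP p) := by
      rw [hc, bits_and_mask, hb1]
    have hzN : z < N := bits_lt hmN hz
    have hzc : z ∈ bits c := by
      rw [hbc, Finset.mem_filter, Finset.mem_erase, Finset.mem_erase]
      exact ⟨⟨ne_of_gt hyz, ne_of_lt hzx, hz⟩, (hthr z hzN).1 hfeas⟩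
    have hc0 : c ≠ 0 := by
      intro h0
      rw [h0] at hzc
      rw [mem_bits] at hzc
      simp at hzc
    have hlog : c.log2 ∈ bits c := log2_mem_bits hc0
    have hzle : z ≤ c.log2 := le_log2_of_mem_bits hzc
    rw [hbc, Finset.mem_filter, Finset.mem_erase, Finset.mem_erase] at hlog
    obtain ⟨⟨hl1, hl2, hl3⟩, hl4⟩ := hlog
    have hlN : c.log2 < N := bits_lt hmN hl3
    have hlfeas : wt m.log2 + wt y + wt c.log2 ≤ C := (hthr _ hlN).2 hl4
    have hlx : c.log2 < m.log2 := lt_of_le_of_ne (le_log2_of_mem_bits hl3) hl2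
    have hzeq : c.log2 = z := by
      by_contra hne
      have hlt : z < c.log2 := lt_of_le_of_ne hzle (fun h => hne h.symm)
      have := hmax _ hl3 hlt hlx
      omega
    unfold stepAux at hstep
    have hbc0 : Nat.beq c 0 = false := by
      cases hb : Nat.beq c 0 with
      | false => rfl
      | true => exact absurd (Nat.eq_of_beq_eq_true hb) hc0
    have hblt : Nat.blt y (Nat.log2 c) = true := by
      rw [Nat.blt_eq, hzeq]
      exact hyz
    rw [hbc0, cond_false, hblt, cond_true, hzeq] at hstep
    have e3 : Nat.xor m1 (Nat.pow 2 z) = m1 ^^^ 2 ^ z := rfl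
    rw [e3] at hstep
    refine ⟨m1 ^^^ 2 ^ z, mem_of_has _ T hstep, ?_⟩
    have hz1 : m1.testBit z = true := by
      rw [← mem_bits, hb1, Finset.mem_erase, Finset.mem_erase]
      exact ⟨ne_of_gt hyz, ne_of_lt hzx, hz⟩
    rw [bits_xor_pow hz1, hb1]
  · have e4 : Nat.sub (Nat.pow 2 N) 1 = 2 ^ N - 1 := rfl
    rw [e4] at hroot
    exact ⟨2 ^ N - 1, mem_of_has _ T hroot, bits_full N⟩

end Vale.Agent.Lib.Helper8.P302Cert2
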