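import Vale.Agent.Lib.Helper8.P302Dead

/-!
A stronger soundness statement for dead-state certificates: only those steps have to be
followed in which each of the two partners of the largest index is the largest feasible partner
given the other one.
-/

namespace Vale.Agent.Lib.Helper8.P302Dead2

open Finset Vale.Agent.Lib.Helper3.BinPacking

/-- Replacing an index `z'` of a packable set by a smaller index `z` outside the set keeps it
packable. -/
theorem packable_replace (wt : ℕ → ℕ) (C N : ℕ) (hmono : ∀ i j, i ≤ j → j < N → wt i ≤ wt j)
    (A : Finset ℕ) (z z' : ℕ) (hz : z ∉ A) (hz' : z' ∈ A) (hle : z ≤ z') (hz'N : z' < N)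
    (h : Packable wt C A) : Packable wt C (insert z (A.erase z')) := by
  classical
  obtain ⟨P, h1, h2, h3⟩ := h
  set σ : ℕ ≃ ℕ := Equiv.swap z' z with hσ
  have hne : z ≠ z' := fun h => hz (h ▸ hz')
  refine ⟨P.image (fun T => T.image σ), ?_, ?_, ?_⟩
  · intro T' hT'
    rw [Finset.mem_image] at hT'
    obtain ⟨T, hT, rfl⟩ := hT'
    have hTA : T ⊆ A := by
      rw [← h3]
      exact Finset.subset_biUnion_of_mem id hT
    constructor
    · rw [Finset.card_image_of_injective _ σ.injective]
      exact (h1 T hT).1
    · rw [Finset.sum_image (fun a _ b _ hab => σ.injective hab)]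
      refine le_trans (Finset.sum_le_sum (fun i hi => ?_)) (h1 T hT).2
      have hiz : i ≠ z := fun h => hz (h ▸ hTA hi)
      by_cases hiz' : i = z'
      · rw [hiz', hσ, Equiv.swap_apply_left]
        exact hmono z z' hle hz'N
      · rw [hσ, Equiv.swap_apply_of_ne_of_ne hiz' hiz]
  · intro T1 hT1 T2 hT2 hne'
    rw [Finset.mem_image] at hT1 hT2
    obtain ⟨S1, hS1, rfl⟩ := hT1
    obtain ⟨S2, hS2, rfl⟩ := hT2
    have hS : S1 ≠ S2 := fun h => hne' (by rw [h])
    exact (Finset.disjoint_image σ.injective).2 (h2 S1 hS1 S2 hS2 hS)
  · ext i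
    have hσA : σ i ∈ A ↔ i ∈ insert z (A.erase z') := by
      rw [Finset.mem_insert, Finset.mem_erase]
      by_cases hi0 : i = z'
      · rw [hi0, hσ, Equiv.swap_apply_left]
        constructor
        · intro h
          exact absurd h hz
        · rintro (h | ⟨h, _⟩)
          · exact absurd h.symm hne
          · exact absurd rfl h
      · by_cases hiz : i = z
        · rw [hiz, hσ, Equiv.swap_apply_right]
          exact ⟨fun _ => Or.inl rfl, fun _ => hz'⟩
        · rw [hσ, Equiv.swap_apply_of_ne_of_ne hi0 hiz]
          constructor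
          · intro h
            exact Or.inr ⟨hi0, h⟩
          · rintro (h | ⟨_, h⟩)
            · exact absurd h hiz
            · exact h
    rw [← hσA, ← h3]
    simp only [Finset.mem_biUnion, Finset.mem_image, id]
    constructor
    · rintro ⟨T', ⟨T, hT, rfl⟩, hi⟩
      rw [Finset.mem_image] at hi
      obtain ⟨a, ha, rfl⟩ := hi
      refine ⟨T, hT, ?_⟩
      rw [hσ, Equiv.swap_apply_self]
      exact ha
    · rintro ⟨T, hT, hi⟩
      refine ⟨T.image σ, ⟨T, hT, rfl⟩, ?_⟩
      rw [Finset.mem_image]
      refine ⟨σ i, hi, ?_⟩
      rw [hσ, Equiv.swap_apply_self]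

/-- **Soundness of dead-state certificates, with the two-sided maximality rule.** -/
theorem not_packable_of_dead_pareto (wt : ℕ → ℕ) (C N : ℕ)
    (hmono : ∀ i j, i ≤ j → j < N → wt i ≤ wt j)
    (D : Finset ℕ → Prop)
    (hD : ∀ M, D M → (∀ i ∈ M, i < N) ∧ ∃ x ∈ M, (∀ i ∈ M, i ≤ x) ∧
        ∀ y ∈ M, ∀ z ∈ M, y < z → z < x → wt x + wt y + wt z ≤ C →
          (∀ z' ∈ M, z < z' → z' < x → C < wt x + wt y + wt z') →
          (∀ y' ∈ M, y < y' → y' < x → y' ≠ z → C < wt x + wt y' + wt z) →
          D (((M.erase x).erase y).erase z)) :
    ∀ M, D M → ¬ Packable wt C M := by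
  classical
  have key : ∀ n, ∀ M : Finset ℕ, M.card = n → D M → ¬ Packable wt C M := by
    intro n
    induction n using Nat.strong_induction_on with
    | _ n ih =>
      intro M hcard hDM hpack
      obtain ⟨hN, x, hxM, hxmax, hstep⟩ := hD M hDM
      -- the set of admissible pairs
      set Q : ℕ → ℕ → Prop := fun y z => y ∈ M ∧ z ∈ M ∧ y < z ∧ z < x ∧
        wt x + wt y + wt z ≤ C ∧ Packable wt C (((M.erase x).erase y).erase z) with hQ
      set S := (M ×ˢ M).filter (fun p => Q p.1 p.2) with hS
      have hSmem : ∀ y z, Q y z → (y, z) ∈ S := by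
        intro y z hq
        rw [hS, Finset.mem_filter, Finset.mem_product]
        exact ⟨⟨hq.1, hq.2.1⟩, hq⟩
      have hSne : S.Nonempty := by
        obtain ⟨P, h1, h2, h3⟩ := hpack
        have hxM' := hxM
        rw [← h3, Finset.mem_biUnion] at hxM'
        obtain ⟨T0, hT0, hx0⟩ := hxM'
        have hx0 : x ∈ T0 := hx0
        have hT0M : T0 ⊆ M := by
          rw [← h3]
          exact Finset.subset_biUnion_of_mem id hT0
        have hc2 : (T0.erase x).card = 2 := by
          rw [Finset.card_erase_of_mem hx0, (h1 T0 hT0).1]
        obtain ⟨a, b, hab, hpair⟩ := Finset.card_eq_two.1 hc2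
        obtain ⟨y, z0, hyz0, hpair'⟩ : ∃ y z0, y < z0 ∧ T0.erase x = {y, z0} := by
          rcases lt_or_gt_of_ne hab with h | h
          · exact ⟨a, b, h, hpair⟩
          · exact ⟨b, a, h, by rw [hpair, Finset.pair_comm]⟩
        have hy0 : y ∈ T0.erase x := by rw [hpair']; simp
        have hz00 : z0 ∈ T0.erase x := by rw [hpair']; simp
        have hyT : y ∈ T0 := Finset.mem_of_mem_erase hy0
        have hz0T : z0 ∈ T0 := Finset.mem_of_mem_erase hz00
        have hyx : y ≠ x := Finset.ne_of_mem_erase hy0
        have hz0x : z0 ≠ x := Finset.ne_of_mem_erase hz00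
        have hyM : y ∈ M := hT0M hyT
        have hz0M : z0 ∈ M := hT0M hz0T
        have hz0lt : z0 < x := lt_of_le_of_ne (hxmax z0 hz0M) hz0x
        have hT0eq : T0 = insert x {y, z0} := by
          rw [← hpair', Finset.insert_erase hx0]
        have hxnot : x ∉ ({y, z0} : Finset ℕ) := by
          intro h
          rw [Finset.mem_insert, Finset.mem_singleton] at h
          rcases h with h | h
          · exact hyx h.symm
          · exact hz0x h.symm
        have hsum0 : wt x + wt y + wt z0 ≤ C := by
          have h4 := (h1 T0 hT0).2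
          rw [hT0eq, Finset.sum_insert hxnot, Finset.sum_pair (ne_of_lt hyz0)] at h4
          omega
        have hpack' := Vale.Agent.Lib.Helper8.P302Dead.packable_sdiff wt C M P h1 h2 h3 T0 hT0
        rw [hT0eq] at hpack'
        have hset : M \ insert x {y, z0} = ((M.erase x).erase y).erase z0 := by
          ext i
          simp only [Finset.mem_sdiff, Finset.mem_insert, Finset.mem_singleton, Finset.mem_erase]
          tauto
        rw [hset] at hpack'
        exact ⟨(y, z0), hSmem y z0 ⟨hyM, hz0M, hyz0, hz0lt, hsum0, hpack'⟩⟩
      obtain ⟨p, hpS, hpmax⟩ := Finset.exists_max_image S (fun p => p.1 + p.2) hSne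
      obtain ⟨y, z⟩ := p
      have hq : Q y z := by
        rw [hS, Finset.mem_filter] at hpS
        exact hpS.2
      obtain ⟨hyM, hzM, hyz, hzx, hfeas, hpk⟩ := hq
      have hmaxQ : ∀ y' z', Q y' z' → y' + z' ≤ y + z := fun y' z' hq' =>
        hpmax (y', z') (hSmem y' z' hq')
      set A := ((M.erase x).erase y).erase z with hA
      have hzA : z ∉ A := by
        rw [hA]
        exact Finset.notMem_erase z _
      have hyA : y ∉ A := by
        rw [hA]
        intro h
        have h1 := Finset.mem_of_mem_erase h
        exact Finset.notMem_erase y _ h1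
      have hzmax : ∀ z' ∈ M, z < z' → z' < x → C < wt x + wt y + wt z' := by
        intro z' hz'M hzz' hz'x
        by_contra hcon
        push Not at hcon
        have hz'A : z' ∈ A := by
          rw [hA, Finset.mem_erase, Finset.mem_erase, Finset.mem_erase]
          exact ⟨by omega, by omega, by omega, hz'M⟩
        have hrep := packable_replace wt C N hmono A z z' hzA hz'A (le_of_lt hzz') (hN z' hz'M) hpk
        have hset : insert z (A.erase z') = ((M.erase x).erase y).erase z' := by
          ext i
          simp only [hA, Finset.mem_insert, Finset.mem_erase]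
          constructor
          · rintro (h | h)
            · rw [h]
              exact ⟨by omega, by omega, by omega, hzM⟩
            · exact ⟨h.1, h.2.2.1, h.2.2.2.1, h.2.2.2.2⟩
          · rintro ⟨h1, h2, h3, h4⟩
            by_cases hiz : i = z
            · exact Or.inl hiz
            · exact Or.inr ⟨h1, hiz, h2, h3, h4⟩
        rw [hset] at hrep
        have := hmaxQ y z' ⟨hyM, hz'M, lt_trans hyz hzz', hz'x, hcon, hrep⟩
        omega
      have hymax : ∀ y' ∈ M, y < y' → y' < x → y' ≠ z → C < wt x + wt y' + wt z := by
        intro y' hy'M hyy' hy'x hy'z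
        by_contra hcon
        push Not at hcon
        have hy'A : y' ∈ A := by
          rw [hA, Finset.mem_erase, Finset.mem_erase, Finset.mem_erase]
          exact ⟨hy'z, by omega, by omega, hy'M⟩
        have hrep := packable_replace wt C N hmono A y y' hyA hy'A (le_of_lt hyy') (hN y' hy'M) hpk
        rcases lt_or_gt_of_ne hy'z with hlt | hgt
        · have hset : insert y (A.erase y') = ((M.erase x).erase y').erase z := by
            ext i
            simp only [hA, Finset.mem_insert, Finset.mem_erase]
            constructor
            · rintro (h | h)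
              · rw [h]
                exact ⟨by omega, by omega, by omega, hyM⟩
              · exact ⟨h.2.1, h.1, h.2.2.2.1, h.2.2.2.2⟩
            · rintro ⟨h1, h2, h3, h4⟩
              by_cases hiy : i = y
              · exact Or.inl hiy
              · exact Or.inr ⟨h2, h1, hiy, h3, h4⟩
          rw [hset] at hrep
          have := hmaxQ y' z ⟨hy'M, hzM, hlt, hzx, hcon, hrep⟩
          omega
        · have hset : insert y (A.erase y') = ((M.erase x).erase z).erase y' := by
            ext i
            simp only [hA, Finset.mem_insert, Finset.mem_erase]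
            constructor
            · rintro (h | h)
              · rw [h]
                exact ⟨by omega, by omega, by omega, hyM⟩
              · exact ⟨h.1, h.2.1, h.2.2.2.1, h.2.2.2.2⟩
            · rintro ⟨h1, h2, h3, h4⟩
              by_cases hiy : i = y
              · exact Or.inl hiy
              · exact Or.inr ⟨h1, h2, hiy, h3, h4⟩
          rw [hset] at hrep
          have := hmaxQ z y' ⟨hzM, hy'M, hgt, hy'x, by omega, hrep⟩
          omega
      have hD' := hstep y hyM z hzM hyz hzx hfeas hzmax hymax
      have hlt : (((M.erase x).erase y).erase z).card < n := by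
        rw [← hcard]
        apply Finset.card_lt_card
        refine Finset.ssubset_of_subset_of_ssubset ?_ (Finset.erase_ssubset hxM)
        exact (Finset.erase_subset _ _).trans (Finset.erase_subset _ _)
      exact ih _ hlt _ rfl hD' hpk
  intro M hDM
  exact key M.card M rfl hDM

end Vale.Agent.Lib.Helper8.P302Dead2
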