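import Vale.Agent.Lib.Helper8.P302Cert2
import Vale.Agent.Lib.Helper8.P302Dead2

/-!
A third checker for dead-state certificates.  It follows only the steps in which each of the
two partners of the largest index is the largest feasible partner given the other one, reads
the feasibility thresholds from a table packed into one natural number (eight binary digits per
entry), and scans the candidate partners from the top, stopping as soon as a candidate has a
larger feasible partner.
-/

namespace Vale.Agent.Lib.Helper8.P302Cert3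

open Finset Vale.Agent.Lib.Helper3.BinPacking Vale.Agent.Lib.Helper8.P302Cert
open Vale.Agent.Lib.Helper8.P302Cert2

/-- Binary search for the position of the leading binary digit, along a list of shifts. -/
noncomputable def topL (l : List ℕ) : ℕ → ℕ → ℕ :=
  List.rec (motive := fun _ => ℕ → ℕ → ℕ) (fun _ acc => acc)
    (fun s _ ih c acc => cond (Nat.ble (Nat.pow 2 s) c)
      (ih (Nat.shiftRight c s) (Nat.add acc s)) (ih c acc)) l

theorem topL_nil (c acc : ℕ) : topL [] c acc = acc := rfl

theorem topL_cons (s : ℕ) (l : List ℕ) (c acc : ℕ) :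
    topL (s :: l) c acc = cond (Nat.ble (Nat.pow 2 s) c)
      (topL l (Nat.shiftRight c s) (Nat.add acc s)) (topL l c acc) := rfl

/-- The lists of shifts along which the binary search is complete. -/
def Good : List ℕ → Prop
  | [] => True
  | s :: l => s ≤ l.sum + 1 ∧ Good l

theorem log2_shift (s c : ℕ) (h : 2 ^ s ≤ c) : Nat.log2 c = Nat.log2 (c >>> s) + s := by
  have hpos : 0 < 2 ^ s := Nat.two_pow_pos s
  have hc : c ≠ 0 := by omega
  have hd : c >>> s = c / 2 ^ s := Nat.shiftRight_eq_div_pow c s
  have hd0 : c >>> s ≠ 0 := by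
    rw [hd]
    have : 1 ≤ c / 2 ^ s := (Nat.le_div_iff_mul_le hpos).2 (by simpa using h)
    omega
  obtain ⟨h1, h2⟩ := (Nat.log2_eq_iff hd0).1 rfl
  rw [Nat.log2_eq_iff hc]
  generalize (c >>> s).log2 = j at h1 h2 ⊢
  rw [hd] at h1 h2
  constructor
  · rw [Nat.pow_add]
    exact (Nat.le_div_iff_mul_le hpos).1 h1
  · have h3 := (Nat.div_lt_iff_lt_mul hpos).1 h2
    have e : 2 ^ (j + s + 1) = 2 ^ (j + 1) * 2 ^ s := by
      rw [← Nat.pow_add]
      congr 1
      omega
    rw [e]
    exact h3

theorem topL_spec : ∀ (l : List ℕ) (c acc : ℕ), Good l → c < 2 ^ (l.sum + 1) →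
    topL l c acc = acc + Nat.log2 c
  | [], c, acc, _, hc => by
    rw [topL_nil]
    have hc' : c < 2 := by simpa using hc
    have h0 : Nat.log2 c = 0 := by
      rw [Nat.log2_def, if_neg (by omega)]
    omega
  | s :: l, c, acc, hg, hc => by
    rw [topL_cons]
    obtain ⟨hs, hgl⟩ := hg
    rw [List.sum_cons] at hc
    by_cases h : 2 ^ s ≤ c
    · have hb : Nat.ble (Nat.pow 2 s) c = true := Nat.ble_eq_true_of_le h
      rw [hb, cond_true]
      have hbound : Nat.shiftRight c s < 2 ^ (l.sum + 1) := by
        have e : Nat.shiftRight c s = c / 2 ^ s := Nat.shiftRight_eq_div_pow c s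
        rw [e, Nat.div_lt_iff_lt_mul (Nat.two_pow_pos s), ← Nat.pow_add]
        have e2 : l.sum + 1 + s = s + l.sum + 1 := by omega
        rw [e2]
        exact hc
      rw [topL_spec l _ _ hgl hbound]
      have h5 := log2_shift s c h
      have e3 : Nat.shiftRight c s = c >>> s := rfl
      have e4 : Nat.add acc s = acc + s := rfl
      rw [e3, e4]
      omega
    · have hb : Nat.ble (Nat.pow 2 s) c = false := by
        rw [Bool.eq_false_iff]
        intro hh
        exact h (Nat.le_of_ble_eq_true hh)
      rw [hb, cond_false]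
      apply topL_spec l c acc hgl
      have h1 : c < 2 ^ s := by omega
      exact lt_of_lt_of_le h1 (Nat.pow_le_pow_right (by norm_num) hs)

/-- The position of the leading binary digit, computed by binary search for numbers below
`2 ^ 128`. -/
noncomputable def top (c : ℕ) : ℕ :=
  cond (Nat.blt c 340282366920938463463374607431768211456)
    (topL [64, 32, 16, 8, 4, 2, 1] c 0) (Nat.log2 c)

theorem top_eq (c : ℕ) : top c = Nat.log2 c := by
  unfold top
  by_cases h : c < 340282366920938463463374607431768211456
  · have hb : Nat.blt c 340282366920938463463374607431768211456 = true := by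
      rw [Nat.blt_eq]
      exact h
    have hg : Good [64, 32, 16, 8, 4, 2, 1] := by
      simp [Good]
    have hbd : c < 2 ^ (([64, 32, 16, 8, 4, 2, 1] : List ℕ).sum + 1) := by
      have e : (([64, 32, 16, 8, 4, 2, 1] : List ℕ).sum + 1) = 128 := by decide
      rw [e]
      exact h
    rw [hb, cond_true, topL_spec _ c 0 hg hbd, Nat.zero_add]
  · have hb : Nat.blt c 340282366920938463463374607431768211456 = false := by
      rw [Bool.eq_false_iff]
      intro hh
      rw [Nat.blt_eq] at hh
      exact h hh
    rw [hb, cond_false]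

/-- Entry `(x, y)` of the packed table of thresholds. -/
def thrAt (tbl N x y : ℕ) : ℕ :=
  Nat.land (Nat.shiftRight tbl (Nat.mul 8 (Nat.add (Nat.mul N x) y))) 255

/-- The code of the feasible partners of `z` (given the largest index `x`) inside `m0`. -/
def partners (tbl N x m0 z : ℕ) : ℕ :=
  Nat.land (Nat.xor m0 (Nat.pow 2 z)) (Nat.sub (Nat.pow 2 (thrAt tbl N x z)) 1)

theorem partners_eq (tbl N x m0 z : ℕ) :
    partners tbl N x m0 z = (m0 ^^^ 2 ^ z) &&& (2 ^ (thrAt tbl N x z) - 1) := rfl

/-- The candidate `z` has a feasible partner above itself. -/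
noncomputable def crossing (tbl N x m0 z : ℕ) : Bool :=
  cond (Nat.beq (partners tbl N x m0 z) 0) false
    (Nat.blt z (top (partners tbl N x m0 z)))

/-- The check for the candidate `z`: if `z` is the largest feasible partner of its own largest
feasible partner `y`, the state without `x`, `y`, `z` has to be in the certificate. -/
noncomputable def checkZ (T : KTree) (tbl N x m0 z : ℕ) : Bool :=
  cond (Nat.beq (partners tbl N x m0 z) 0) true
    (cond (Nat.beq (top (partners tbl N x m0 (top (partners tbl N x m0 z)))) z)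
      (has T (Nat.xor (Nat.xor m0 (Nat.pow 2 z))
        (Nat.pow 2 (top (partners tbl N x m0 z)))))
      true)

/-- The scan over the candidates, from the top. -/
noncomputable def scan (T : KTree) (tbl N x m0 : ℕ) (fuel : ℕ) : ℕ → Bool :=
  Nat.rec (motive := fun _ => ℕ → Bool) (fun r => Nat.beq r 0)
    (fun _ ih r => cond (Nat.beq r 0) true
      (cond (crossing tbl N x m0 (top r)) true
        (and (checkZ T tbl N x m0 (top r))
          (ih (Nat.xor r (Nat.pow 2 (top r))))))) fuel

theorem scan_zero (T : KTree) (tbl N x m0 r : ℕ) :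
    scan T tbl N x m0 0 r = Nat.beq r 0 := rfl

theorem scan_succ (T : KTree) (tbl N x m0 f r : ℕ) :
    scan T tbl N x m0 (f + 1) r = cond (Nat.beq r 0) true
      (cond (crossing tbl N x m0 (top r)) true
        (and (checkZ T tbl N x m0 (top r))
          (scan T tbl N x m0 f (Nat.xor r (Nat.pow 2 (top r)))))) := rfl

theorem beq_zero_false {c : ℕ} (hc : c ≠ 0) : Nat.beq c 0 = false := by
  cases hb : Nat.beq c 0 with
  | false => rfl
  | true => exact absurd (Nat.eq_of_beq_eq_true hb) hc

theorem scan_spec (T : KTree) (tbl N x m0 : ℕ) : ∀ (fuel r : ℕ),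
    scan T tbl N x m0 fuel r = true → ∀ z ∈ bits r, checkZ T tbl N x m0 z = true ∨
      ∃ z' ∈ bits r, z ≤ z' ∧ crossing tbl N x m0 z' = true
  | 0, r, h, z, hz => by
    rw [scan_zero] at h
    have hr : r = 0 := Nat.eq_of_beq_eq_true h
    rw [hr, mem_bits] at hz
    simp at hz
  | f + 1, r, h, z, hz => by
    rw [scan_succ] at h
    simp only [top_eq] at h
    have hr : r ≠ 0 := by
      intro h0
      rw [h0, mem_bits] at hz
      simp at hz
    rw [beq_zero_false hr, cond_false] at h
    have htop : r.log2 ∈ bits r := log2_mem_bits hr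
    have hzle : z ≤ r.log2 := le_log2_of_mem_bits hz
    by_cases hcr : crossing tbl N x m0 (Nat.log2 r) = true
    · exact Or.inr ⟨r.log2, htop, hzle, hcr⟩
    · have hcr' : crossing tbl N x m0 (Nat.log2 r) = false := Bool.eq_false_iff.2 hcr
      rw [hcr', cond_false] at h
      have h' : checkZ T tbl N x m0 (Nat.log2 r) = true ∧
          scan T tbl N x m0 f (Nat.xor r (Nat.pow 2 (Nat.log2 r))) = true := by
        cases h1 : checkZ T tbl N x m0 (Nat.log2 r) with
        | false =>
          rw [h1] at h
          exact absurd h (by simp [and])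
        | true =>
          rw [h1] at h
          exact ⟨rfl, by simpa [and] using h⟩
      obtain ⟨hck, hsc⟩ := h'
      by_cases hzt : z = r.log2
      · rw [hzt]
        exact Or.inl hck
      · have e : Nat.xor r (Nat.pow 2 (Nat.log2 r)) = r ^^^ 2 ^ r.log2 := rfl
        rw [e] at hsc
        have hb : bits (r ^^^ 2 ^ r.log2) = (bits r).erase r.log2 :=
          bits_xor_pow (mem_bits.1 htop)
        have hz' : z ∈ bits (r ^^^ 2 ^ r.log2) := by
          rw [hb, Finset.mem_erase]
          exact ⟨hzt, hz⟩
        rcases scan_spec T tbl N x m0 f _ hsc z hz' with h1 | ⟨z', hz'1, hz'2, hz'3⟩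
        · exact Or.inl h1
        · rw [hb] at hz'1
          exact Or.inr ⟨z', Finset.mem_of_mem_erase hz'1, hz'2, hz'3⟩

/-- A conjunction over the numbers below `n`. -/
noncomputable def allBelow (n : ℕ) (p : ℕ → Bool) : Bool :=
  Nat.rec (motive := fun _ => Bool) true (fun k ih => and (p k) ih) n

theorem allBelow_succ (n : ℕ) (p : ℕ → Bool) :
    allBelow (n + 1) p = and (p n) (allBelow n p) := rfl

theorem allBelow_spec (p : ℕ → Bool) : ∀ n, allBelow n p = true → ∀ k, k < n → p k = true
  | 0, _, k, hk => by omega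
  | n + 1, h, k, hk => by
    rw [allBelow_succ] at h
    have h' : p n = true ∧ allBelow n p = true := by
      cases h1 : p n with
      | false =>
        rw [h1] at h
        exact absurd h (by simp [and])
      | true =>
        rw [h1] at h
        exact ⟨rfl, by simpa [and] using h⟩
    rcases Nat.lt_succ_iff_lt_or_eq.1 hk with hlt | heq
    · exact allBelow_spec p n h'.2 k hlt
    · rw [heq]
      exact h'.1

/-- Validation of the packed table of thresholds. -/
noncomputable def tblOk3 (ws : List ℕ) (C N tbl : ℕ) : Bool :=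
  allBelow N (fun x => allBelow x (fun y => Nat.beq (thrAt tbl N x y)
    (ws.countP (fun w => Nat.ble (ws.getD x 0 + ws.getD y 0 + w) C))))

theorem tbl_spec3 (ws : List ℕ) (C N tbl : ℕ) (h : tblOk3 ws C N tbl = true)
    (x : ℕ) (hx : x < N) (y : ℕ) (hy : y < x) :
    thrAt tbl N x y = ws.countP (fun w => Nat.ble (ws.getD x 0 + ws.getD y 0 + w) C) := by
  unfold tblOk3 at h
  have h1 := allBelow_spec _ N h x hx
  have h2 := allBelow_spec _ x h1 y hy
  exact Nat.eq_of_beq_eq_true h2

/-- The check of one state. -/
noncomputable def stateOk3 (N tbl : ℕ) (T : KTree) (m : ℕ) : Bool :=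
  cond (Nat.beq m 0) false
    (and (Nat.blt m (Nat.pow 2 N))
      (scan T tbl N (top m) (Nat.xor m (Nat.pow 2 (top m))) (top m)
        (Nat.xor m (Nat.pow 2 (top m)))))

/-- **Soundness of the third checker.** -/
theorem not_packable_of_cert3 (ws : List ℕ) (C N tbl : ℕ) (T : KTree)
    (hN : N ≤ ws.length) (hsorted : ws.Pairwise (fun a b => a ≤ b))
    (htbl : tblOk3 ws C N tbl = true)
    (hall : ∀ m, KTree.Mem m T → stateOk3 N tbl T m = true)
    (hroot : has T (Nat.sub (Nat.pow 2 N) 1) = true) :
    ¬ Packable (fun i => ws.getD i 0) C (Finset.range N) := by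
  classical
  set wt : ℕ → ℕ := fun i => ws.getD i 0 with hwt
  have hmono : ∀ i j, i ≤ j → j < N → wt i ≤ wt j := by
    intro i j hij hj
    rcases Nat.eq_or_lt_of_le hij with heq | hlt
    · rw [heq]
    · have hj' : j < ws.length := by omega
      have hi' : i < ws.length := by omega
      simp only [hwt]
      rw [List.getD_eq_getElem _ _ hi', List.getD_eq_getElem _ _ hj']
      exact List.pairwise_iff_getElem.1 hsorted i j hi' hj' hlt
  -- the meaning of the thresholds
  have hthr : ∀ x, x < N → ∀ y, y < x → ∀ i, i < N →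
      (wt x + wt y + wt i ≤ C ↔ i < thrAt tbl N x y) := by
    intro x hx y hy i hi
    rw [tbl_spec3 ws C N tbl htbl x hx y hy]
    set p : ℕ → Bool := fun w => Nat.ble (ws.getD x 0 + ws.getD y 0 + w) C with hp
    have hpmono : ∀ a b, a ≤ b → p b = true → p a = true := by
      intro a b hab hb
      simp only [hp, Nat.ble_eq] at hb ⊢
      omega
    have h1 := sorted_countP p hpmono ws hsorted i (lt_of_lt_of_le hi hN)
    rw [← h1]
    simp only [hp, Nat.ble_eq, hwt]
  apply Vale.Agent.Lib.Helper8.P302Dead2.not_packable_of_dead_pareto wt C N hmono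
    (fun M => ∃ m, KTree.Mem m T ∧ bits m = M)
  · rintro M ⟨m, hmT, rfl⟩
    have hst := hall m hmT
    unfold stateOk3 at hst
    simp only [top_eq] at hst
    have hm0 : m ≠ 0 := by
      intro h0
      rw [h0] at hst
      exact absurd hst (by simp)
    rw [beq_zero_false hm0, cond_false] at hst
    have hst' : Nat.blt m (Nat.pow 2 N) = true ∧
        scan T tbl N (Nat.log2 m) (Nat.xor m (Nat.pow 2 (Nat.log2 m))) (Nat.log2 m)
          (Nat.xor m (Nat.pow 2 (Nat.log2 m))) = true := by
      cases h1 : Nat.blt m (Nat.pow 2 N) with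
      | false =>
        rw [h1] at hst
        exact absurd hst (by simp [and])
      | true =>
        rw [h1] at hst
        exact ⟨rfl, by simpa [and] using hst⟩
    obtain ⟨hmN', hscan⟩ := hst'
    have hmN : m < 2 ^ N := by
      have h1 : m < Nat.pow 2 N := by
        rw [← Nat.blt_eq]
        exact hmN'
      exact h1
    set x := m.log2 with hx
    have hxN : x < N := bits_lt hmN (log2_mem_bits hm0)
    have hxb : m.testBit x = true := Nat.testBit_log2 hm0
    have e0 : Nat.xor m (Nat.pow 2 x) = m ^^^ 2 ^ x := rfl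
    rw [e0] at hscan
    set m0 := m ^^^ 2 ^ x with hm0def
    have hb0 : bits m0 = (bits m).erase x := bits_xor_pow hxb
    have hlt0 : ∀ i, i ∈ bits m0 → i < x := by
      intro i hi
      rw [hb0, Finset.mem_erase] at hi
      exact lt_of_le_of_ne (le_log2_of_mem_bits hi.2) hi.1
    have hmemM : ∀ i, i ∈ bits m0 → i ∈ bits m := by
      intro i hi
      rw [hb0] at hi
      exact Finset.mem_of_mem_erase hi
    -- the partners of a member of `m0`
    have hpart : ∀ z, z ∈ bits m0 → ∀ i, (i ∈ bits (partners tbl N x m0 z) ↔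
        i ∈ bits m0 ∧ i ≠ z ∧ wt x + wt z + wt i ≤ C) := by
      intro z hz i
      rw [partners_eq, bits_and_mask, Finset.mem_filter, bits_xor_pow (mem_bits.1 hz),
        Finset.mem_erase]
      constructor
      · rintro ⟨⟨h1, h2⟩, h3⟩
        exact ⟨h2, h1, (hthr x hxN z (hlt0 z hz) i (bits_lt hmN (hmemM i h2))).2 h3⟩
      · rintro ⟨h1, h2, h3⟩
        exact ⟨⟨h2, h1⟩, (hthr x hxN z (hlt0 z hz) i (bits_lt hmN (hmemM i h1))).1 h3⟩
    refine ⟨fun i hi => bits_lt hmN hi, x, log2_mem_bits hm0,
      fun i hi => le_log2_of_mem_bits hi, ?_⟩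
    intro y hy z hz hyz hzx hfeas hzmax hymax
    have hy0 : y ∈ bits m0 := by
      rw [hb0, Finset.mem_erase]
      exact ⟨ne_of_lt (lt_trans hyz hzx), hy⟩
    have hz0 : z ∈ bits m0 := by
      rw [hb0, Finset.mem_erase]
      exact ⟨ne_of_lt hzx, hz⟩
    rcases scan_spec T tbl N x m0 x m0 hscan z hz0 with hck | ⟨z', hz'0, hzz', hcr⟩
    · -- the check at `z`
      set c := partners tbl N x m0 z with hc
      have hyc : y ∈ bits c := (hpart z hz0 y).2 ⟨hy0, ne_of_lt hyz, by omega⟩
      have hc0 : c ≠ 0 := by
        intro h0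
        rw [h0, mem_bits] at hyc
        simp at hyc
      have hlogc : c.log2 = y := by
        have h1 : c.log2 ∈ bits c := log2_mem_bits hc0
        have h2 : y ≤ c.log2 := le_log2_of_mem_bits hyc
        obtain ⟨h3, h4, h5⟩ := (hpart z hz0 c.log2).1 h1
        by_contra hne
        have hlt : y < c.log2 := lt_of_le_of_ne h2 (fun h => hne h.symm)
        have := hymax c.log2 (hmemM _ h3) hlt (hlt0 _ h3) h4
        omega
      unfold checkZ at hck
      simp only [top_eq] at hck
      rw [← hc, beq_zero_false hc0, cond_false, hlogc] at hck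
      set c2 := partners tbl N x m0 y with hc2
      have hzc2 : z ∈ bits c2 := (hpart y hy0 z).2 ⟨hz0, ne_of_gt hyz, hfeas⟩
      have hc20 : c2 ≠ 0 := by
        intro h0
        rw [h0, mem_bits] at hzc2
        simp at hzc2
      have hlogc2 : c2.log2 = z := by
        have h1 : c2.log2 ∈ bits c2 := log2_mem_bits hc20
        have h2 : z ≤ c2.log2 := le_log2_of_mem_bits hzc2
        obtain ⟨h3, h4, h5⟩ := (hpart y hy0 c2.log2).1 h1
        by_contra hne
        have hlt : z < c2.log2 := lt_of_le_of_ne h2 (fun h => hne h.symm)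
        have := hzmax c2.log2 (hmemM _ h3) hlt (hlt0 _ h3)
        omega
      have hbeq : Nat.beq (Nat.log2 c2) z = true := by
        rw [hlogc2]
        exact Nat.beq_refl z
      rw [hbeq, cond_true] at hck
      have e1 : Nat.xor (Nat.xor m0 (Nat.pow 2 z)) (Nat.pow 2 y) = (m0 ^^^ 2 ^ z) ^^^ 2 ^ y := rfl
      rw [e1] at hck
      refine ⟨(m0 ^^^ 2 ^ z) ^^^ 2 ^ y, mem_of_has _ T hck, ?_⟩
      have hy1 : (m0 ^^^ 2 ^ z).testBit y = true := by
        rw [← mem_bits, bits_xor_pow (mem_bits.1 hz0), Finset.mem_erase]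
        exact ⟨ne_of_lt hyz, hy0⟩
      rw [bits_xor_pow hy1, bits_xor_pow (mem_bits.1 hz0), hb0]
      exact Finset.erase_right_comm
    · -- a crossing at `z' ≥ z` contradicts the maximality of `y`
      exfalso
      unfold crossing at hcr
      simp only [top_eq] at hcr
      set c' := partners tbl N x m0 z' with hc'
      have hc'0 : c' ≠ 0 := by
        intro h0
        rw [h0] at hcr
        simp at hcr
      rw [beq_zero_false hc'0, cond_false, Nat.blt_eq] at hcr
      have h1 : c'.log2 ∈ bits c' := log2_mem_bits hc'0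
      obtain ⟨h3, h4, h5⟩ := (hpart z' hz'0 c'.log2).1 h1
      have hz'N : z' < N := bits_lt hmN (hmemM _ hz'0)
      have hwz : wt z ≤ wt z' := hmono z z' hzz' hz'N
      have := hymax c'.log2 (hmemM _ h3) (by omega) (hlt0 _ h3) (by omega)
      omega
  · have e4 : Nat.sub (Nat.pow 2 N) 1 = 2 ^ N - 1 := rfl
    rw [e4] at hroot
    exact ⟨2 ^ N - 1, mem_of_has _ T hroot, bits_full N⟩

end Vale.Agent.Lib.Helper8.P302Cert3
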