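import Vale.Agent.Lib.Helper8.P302Cert3

/-!
A fourth checker for dead-state certificates.  Same rule as the third one (only the steps in
which each of the two partners of the largest index is the largest feasible partner given the
other one), but the candidates are scanned from the bottom, and the positions of leading and
trailing binary digits are read from a hint stored with every state and merely verified.
-/

namespace Vale.Agent.Lib.Helper8.P302Cert4

open Finset Vale.Agent.Lib.Helper3.BinPacking Vale.Agent.Lib.Helper8.P302Cert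
open Vale.Agent.Lib.Helper8.P302Cert3

/-- A binary search tree of states, each with a hint. -/
inductive HTree where
  | leaf : HTree
  | node : HTree → ℕ → ℕ → HTree → HTree

/-- The state `k` occurs in the tree with the hint `h`. -/
def HTree.MemH (k h : ℕ) : HTree → Prop
  | .leaf => False
  | .node l v w r => HTree.MemH k h l ∨ (k = v ∧ h = w) ∨ HTree.MemH k h r

/-- A Boolean selection. -/
noncomputable def sel (c a b : Bool) : Bool := Bool.rec (motive := fun _ => Bool) b a c

theorem sel_true (a b : Bool) : sel true a b = a := rfl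

theorem sel_false (a b : Bool) : sel false a b = b := rfl

theorem sel_spec {c a b : Bool} (h : sel c a b = true) :
    (c = true ∧ a = true) ∨ (c = false ∧ b = true) := by
  cases c with
  | true => exact Or.inl ⟨rfl, h⟩
  | false => exact Or.inr ⟨rfl, h⟩

/-- Search for a state. -/
noncomputable def hasH (t : HTree) : ℕ → Bool :=
  HTree.rec (motive := fun _ => ℕ → Bool) (fun _ => false)
    (fun _ v _ _ ihl ihr k =>
      Bool.rec (motive := fun _ => Bool) (ihr k)
        (Bool.rec (motive := fun _ => Bool) (ihl k) true (Nat.beq k v)) (Nat.ble k v)) t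

theorem hasH_leaf (k : ℕ) : hasH HTree.leaf k = false := rfl

theorem hasH_node (l r : HTree) (v w k : ℕ) :
    hasH (HTree.node l v w r) k = sel (Nat.ble k v) (sel (Nat.beq k v) true (hasH l k))
      (hasH r k) := rfl

theorem mem_of_hasH (k : ℕ) : ∀ t : HTree, hasH t k = true → ∃ h, HTree.MemH k h t
  | .leaf, h => by
    rw [hasH_leaf] at h
    exact absurd h (by simp)
  | .node l v w r, h => by
    rw [hasH_node] at h
    rcases sel_spec h with ⟨_, h2⟩ | ⟨_, h2⟩
    · rcases sel_spec h2 with ⟨h3, _⟩ | ⟨_, h4⟩
      · exact ⟨w, Or.inr (Or.inl ⟨Nat.eq_of_beq_eq_true h3, rfl⟩)⟩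
      · obtain ⟨hh, hm⟩ := mem_of_hasH k l h4
        exact ⟨hh, Or.inl hm⟩
    · obtain ⟨hh, hm⟩ := mem_of_hasH k r h2
      exact ⟨hh, Or.inr (Or.inr hm)⟩

/-- All states, with their hints, pass a test. -/
noncomputable def everyH (t : HTree) (p : ℕ → ℕ → Bool) : Bool :=
  HTree.rec (motive := fun _ => Bool) true
    (fun _ v w _ ihl ihr => sel ihl (sel (p v w) ihr false) false) t

theorem everyH_leaf (p : ℕ → ℕ → Bool) : everyH HTree.leaf p = true := rfl

theorem everyH_node (l r : HTree) (v w : ℕ) (p : ℕ → ℕ → Bool) :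
    everyH (HTree.node l v w r) p = sel (everyH l p) (sel (p v w) (everyH r p) false) false :=
  rfl

theorem everyH_of_mem (p : ℕ → ℕ → Bool) (k h : ℕ) :
    ∀ t : HTree, everyH t p = true → HTree.MemH k h t → p k h = true
  | .leaf, _, hm => by simp [HTree.MemH] at hm
  | .node l v w r, ht, hm => by
    rw [everyH_node] at ht
    rcases sel_spec ht with ⟨h1, h2⟩ | ⟨_, h2⟩
    · rcases sel_spec h2 with ⟨h3, h4⟩ | ⟨_, h4⟩
      · unfold HTree.MemH at hm
        rcases hm with hm | ⟨hk, hh⟩ | hm
        · exact everyH_of_mem p k h l h1 hm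
        · rw [hk, hh]
          exact h3
        · exact everyH_of_mem p k h r h4 hm
      · exact absurd h4 (by simp)
    · exact absurd h2 (by simp)

/-- If `m >>> x = 1` then `x` is the position of the leading binary digit of `m`. -/
theorem log2_of_shiftRight_eq_one {m x : ℕ} (h : m >>> x = 1) : m ≠ 0 ∧ Nat.log2 m = x := by
  have hpos : 0 < 2 ^ x := Nat.two_pow_pos x
  rw [Nat.shiftRight_eq_div_pow] at h
  have h1 : 2 ^ x ≤ m := by
    by_contra hlt
    push Not at hlt
    rw [Nat.div_eq_of_lt hlt] at h
    exact absurd h (by norm_num)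
  have hm : m ≠ 0 := by omega
  refine ⟨hm, ?_⟩
  rw [Nat.log2_eq_iff hm]
  refine ⟨h1, ?_⟩
  have h2 : m / 2 ^ x < 2 := by omega
  have h3 := (Nat.div_lt_iff_lt_mul hpos).1 h2
  rw [Nat.pow_succ]
  omega

/-- The converse: shifting by the position of the leading binary digit gives one. -/
theorem shiftRight_log2 {c : ℕ} (hc : c ≠ 0) : c >>> c.log2 = 1 := by
  rw [Nat.shiftRight_eq_div_pow]
  have h1 : 2 ^ c.log2 ≤ c := Nat.log2_self_le hc
  have h2 : c < 2 ^ (c.log2 + 1) := Nat.lt_log2_self
  apply Nat.div_eq_of_lt_le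
  · omega
  · rw [Nat.pow_succ] at h2
    omega

/-- If the digits of `r` up to position `y` consist of the single digit at `y`, then `y` is
the position of the trailing binary digit one of `r`. -/
theorem low_spec {r y : ℕ} (h : r &&& (2 ^ (y + 1) - 1) = 2 ^ y) :
    y ∈ bits r ∧ ∀ i ∈ bits r, y ≤ i := by
  have key : ∀ i, i < y + 1 → r.testBit i = decide (y = i) := by
    intro i hi
    have h1 := congrArg (fun t => t.testBit i) h
    simp only [Nat.testBit_and, Nat.testBit_two_pow_sub_one, Nat.testBit_two_pow] at h1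
    simpa [hi] using h1
  constructor
  · rw [mem_bits, key y (by omega)]
    simp
  · intro i hi
    by_contra hlt
    push Not at hlt
    rw [mem_bits, key i (by omega)] at hi
    simp at hi
    omega

/-- The second part of a step of the scan: `c` codes the feasible partners of `y`, the hint
`z` is the largest of them. -/
noncomputable def stepY2 (T : HTree) (tbl N x m0 y z c : ℕ) (rest : Bool) : Bool :=
  sel (Nat.beq c 0) true
    (sel (Nat.beq (Nat.shiftRight c z) 1)
      (sel (Nat.ble (Nat.succ y) z)
        (sel (Nat.beq (Nat.shiftRight (partners tbl N x m0 z) y) 1)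
          (sel (hasH T (Nat.xor (Nat.xor m0 (Nat.pow 2 y)) (Nat.pow 2 z))) rest false)
          rest)
        true)
      false)

/-- A step of the scan: the hint `y` is the smallest candidate left in `r`. -/
noncomputable def stepY (T : HTree) (tbl N x m0 r y z : ℕ) (rest : Bool) : Bool :=
  sel (Nat.beq (Nat.land r (Nat.sub (Nat.pow 2 (Nat.succ y)) 1)) (Nat.pow 2 y))
    (stepY2 T tbl N x m0 y z (partners tbl N x m0 y) rest) false

/-- The scan over the candidates, from the bottom; `h` holds the hints, two per candidate,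
eight binary digits each. -/
noncomputable def scanY (T : HTree) (tbl N x m0 : ℕ) (fuel : ℕ) : ℕ → ℕ → Bool :=
  Nat.rec (motive := fun _ => ℕ → ℕ → Bool) (fun r _ => Nat.beq r 0)
    (fun _ ih r h => sel (Nat.beq r 0) true
      (stepY T tbl N x m0 r (Nat.land h 255) (Nat.land (Nat.shiftRight h 8) 255)
        (ih (Nat.xor r (Nat.pow 2 (Nat.land h 255))) (Nat.shiftRight h 16)))) fuel

theorem scanY_zero (T : HTree) (tbl N x m0 r h : ℕ) :
    scanY T tbl N x m0 0 r h = Nat.beq r 0 := rfl

theorem scanY_succ (T : HTree) (tbl N x m0 f r h : ℕ) :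
    scanY T tbl N x m0 (f + 1) r h = sel (Nat.beq r 0) true
      (stepY T tbl N x m0 r (Nat.land h 255) (Nat.land (Nat.shiftRight h 8) 255)
        (scanY T tbl N x m0 f (Nat.xor r (Nat.pow 2 (Nat.land h 255)))
          (Nat.shiftRight h 16))) := rfl

/-- The scan may stop at `y`: no feasible partner, or the largest one is not above `y`. -/
def Stop (tbl N x m0 y : ℕ) : Prop :=
  partners tbl N x m0 y = 0 ∨ Nat.log2 (partners tbl N x m0 y) ≤ y

/-- The candidate `y` has been checked: if it is the largest feasible partner of its own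
largest feasible partner, the state without both is in the certificate. -/
def Checked (T : HTree) (tbl N x m0 y : ℕ) : Prop :=
  partners tbl N x m0 (Nat.log2 (partners tbl N x m0 y)) >>> y = 1 →
    ∃ hh, HTree.MemH ((m0 ^^^ 2 ^ y) ^^^ 2 ^ Nat.log2 (partners tbl N x m0 y)) hh T

theorem scanY_spec (T : HTree) (tbl N x m0 : ℕ) : ∀ (fuel r h : ℕ),
    scanY T tbl N x m0 fuel r h = true → ∀ y0 ∈ bits r, Checked T tbl N x m0 y0 ∨
      ∃ y' ∈ bits r, y' ≤ y0 ∧ Stop tbl N x m0 y'
  | 0, r, h, hs, y0, hy0 => by
    rw [scanY_zero] at hs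
    have hr : r = 0 := Nat.eq_of_beq_eq_true hs
    rw [hr, mem_bits] at hy0
    simp at hy0
  | f + 1, r, h, hs, y0, hy0 => by
    rw [scanY_succ] at hs
    have hr : r ≠ 0 := by
      intro h0
      rw [h0, mem_bits] at hy0
      simp at hy0
    rw [beq_zero_false hr, sel_false] at hs
    set y := Nat.land h 255 with hy
    set z := Nat.land (Nat.shiftRight h 8) 255 with hz
    unfold stepY at hs
    rcases sel_spec hs with ⟨hlow, hs2⟩ | ⟨_, hs2⟩
    swap
    · exact absurd hs2 (by simp)
    have hlow' : r &&& (2 ^ (y + 1) - 1) = 2 ^ y := Nat.eq_of_beq_eq_true hlow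
    obtain ⟨hyr, hymin⟩ := low_spec hlow'
    unfold stepY2 at hs2
    set c := partners tbl N x m0 y with hc
    rcases sel_spec hs2 with ⟨hc0, _⟩ | ⟨hc0, hs3⟩
    · -- no partner: stop
      have : c = 0 := Nat.eq_of_beq_eq_true hc0
      exact Or.inr ⟨y, hyr, hymin y0 hy0, Or.inl this⟩
    · rcases sel_spec hs3 with ⟨hztop, hs4⟩ | ⟨_, hs4⟩
      swap
      · exact absurd hs4 (by simp)
      have hztop' : c >>> z = 1 := Nat.eq_of_beq_eq_true hztop
      obtain ⟨hcne, hlogc⟩ := log2_of_shiftRight_eq_one hztop'
      rcases sel_spec hs4 with ⟨hyz, hs5⟩ | ⟨hyz, _⟩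
      swap
      · -- the largest partner is not above `y`: stop
        have hzy : z ≤ y := by
          by_contra hcon
          push Not at hcon
          have : Nat.ble (Nat.succ y) z = true := Nat.ble_eq_true_of_le hcon
          rw [this] at hyz
          exact absurd hyz (by simp)
        exact Or.inr ⟨y, hyr, hymin y0 hy0, Or.inr (by rw [hlogc]; exact hzy)⟩
      · -- the candidate is checked, the scan goes on
        have hrest : scanY T tbl N x m0 f (Nat.xor r (Nat.pow 2 y)) (Nat.shiftRight h 16) = true ∧
            (Nat.beq (Nat.shiftRight (partners tbl N x m0 z) y) 1 = true →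
              hasH T (Nat.xor (Nat.xor m0 (Nat.pow 2 y)) (Nat.pow 2 z)) = true) := by
          rcases sel_spec hs5 with ⟨ht, hs6⟩ | ⟨ht, hs6⟩
          · rcases sel_spec hs6 with ⟨hh, hs7⟩ | ⟨_, hs7⟩
            · exact ⟨hs7, fun _ => hh⟩
            · exact absurd hs7 (by simp)
          · refine ⟨hs6, fun ht' => ?_⟩
            rw [ht] at ht'
            exact absurd ht' (by simp)
        obtain ⟨hsc, hpar⟩ := hrest
        by_cases hy0y : y0 = y
        · left
          rw [hy0y]
          intro hshift
          rw [← hc, hlogc] at hshift ⊢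
          have hb : Nat.beq (Nat.shiftRight (partners tbl N x m0 z) y) 1 = true := by
            have e : Nat.shiftRight (partners tbl N x m0 z) y = partners tbl N x m0 z >>> y := rfl
            rw [e, hshift]
            rfl
          have hh := hpar hb
          exact mem_of_hasH _ T hh
        · have e : Nat.xor r (Nat.pow 2 y) = r ^^^ 2 ^ y := rfl
          rw [e] at hsc
          have hb : bits (r ^^^ 2 ^ y) = (bits r).erase y := bits_xor_pow (mem_bits.1 hyr)
          have hy0' : y0 ∈ bits (r ^^^ 2 ^ y) := by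
            rw [hb, Finset.mem_erase]
            exact ⟨hy0y, hy0⟩
          rcases scanY_spec T tbl N x m0 f _ _ hsc y0 hy0' with h1 | ⟨y', hy'1, hy'2, hy'3⟩
          · exact Or.inl h1
          · rw [hb] at hy'1
            exact Or.inr ⟨y', Finset.mem_of_mem_erase hy'1, hy'2, hy'3⟩

/-- The check of one state `m` with its hint `h`: the lowest eight binary digits of `h` give
the largest index of the state, the rest are the hints for the scan. -/
noncomputable def stateOk4 (N tbl : ℕ) (T : HTree) (m h : ℕ) : Bool :=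
  sel (Nat.beq (Nat.shiftRight m (Nat.land h 255)) 1)
    (sel (Nat.ble (Nat.succ (Nat.land h 255)) N)
      (scanY T tbl N (Nat.land h 255) (Nat.xor m (Nat.pow 2 (Nat.land h 255)))
        (Nat.land h 255) (Nat.xor m (Nat.pow 2 (Nat.land h 255))) (Nat.shiftRight h 8))
      false)
    false

/-- **Soundness of the fourth checker**, given the meaning of the thresholds. -/
theorem not_packable_of_thr (ws : List ℕ) (C N tbl : ℕ) (T : HTree)
    (hN : N ≤ ws.length) (hsorted : ws.Pairwise (fun a b => a ≤ b))
    (hthr0 : ∀ x, x < N → ∀ y, y < x → ∀ i, i < N →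
      (ws.getD x 0 + ws.getD y 0 + ws.getD i 0 ≤ C ↔ i < thrAt tbl N x y))
    (hall : ∀ m h, HTree.MemH m h T → stateOk4 N tbl T m h = true)
    (hroot : hasH T (Nat.sub (Nat.pow 2 N) 1) = true) :
    ¬ Packable (fun i => ws.getD i 0) C (Finset.range N) := by
  classical
  set wt : ℕ → ℕ := fun i => ws.getD i 0 with hwt
  have hmono : ∀ i j, i ≤ j → j < N → wt i ≤ wt j := by
    intro i j hij hj
    rcases Nat.eq_or_lt_of_le hij with heq | hlt
    · rw [heq]
    · have hj' : j < ws.length := by omega
      have hi' : i < ws.length := by omega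
      simp only [hwt]
      rw [List.getD_eq_getElem _ _ hi', List.getD_eq_getElem _ _ hj']
      exact List.pairwise_iff_getElem.1 hsorted i j hi' hj' hlt
  have hthr : ∀ x, x < N → ∀ y, y < x → ∀ i, i < N →
      (wt x + wt y + wt i ≤ C ↔ i < thrAt tbl N x y) := hthr0
  apply Vale.Agent.Lib.Helper8.P302Dead2.not_packable_of_dead_pareto wt C N hmono
    (fun M => ∃ m h, HTree.MemH m h T ∧ bits m = M)
  · rintro M ⟨m, h, hmT, rfl⟩
    have hst := hall m h hmT
    unfold stateOk4 at hst
    set x := Nat.land h 255 with hx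
    rcases sel_spec hst with ⟨hxtop, hst2⟩ | ⟨_, hst2⟩
    swap
    · exact absurd hst2 (by simp)
    rcases sel_spec hst2 with ⟨hxN', hscan⟩ | ⟨_, hst3⟩
    swap
    · exact absurd hst3 (by simp)
    have hxtop' : m >>> x = 1 := Nat.eq_of_beq_eq_true hxtop
    obtain ⟨hm0, hlog⟩ := log2_of_shiftRight_eq_one hxtop'
    have hxN : x < N := Nat.le_of_ble_eq_true hxN'
    have hmN : m < 2 ^ N := by
      have h1 : m < 2 ^ (m.log2 + 1) := Nat.lt_log2_self
      rw [hlog] at h1
      exact lt_of_lt_of_le h1 (Nat.pow_le_pow_right (by norm_num) hxN)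
    have hxb : m.testBit x = true := by
      rw [← hlog]
      exact Nat.testBit_log2 hm0
    have hxmem : x ∈ bits m := mem_bits.2 hxb
    have e0 : Nat.xor m (Nat.pow 2 x) = m ^^^ 2 ^ x := rfl
    rw [e0] at hscan
    set m0 := m ^^^ 2 ^ x with hm0def
    have hb0 : bits m0 = (bits m).erase x := bits_xor_pow hxb
    have hlt0 : ∀ i, i ∈ bits m0 → i < x := by
      intro i hi
      rw [hb0, Finset.mem_erase] at hi
      have := le_log2_of_mem_bits hi.2
      rw [hlog] at this
      exact lt_of_le_of_ne this hi.1
    have hmemM : ∀ i, i ∈ bits m0 → i ∈ bits m := by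
      intro i hi
      rw [hb0] at hi
      exact Finset.mem_of_mem_erase hi
    have hpart : ∀ z, z ∈ bits m0 → ∀ i, (i ∈ bits (partners tbl N x m0 z) ↔
        i ∈ bits m0 ∧ i ≠ z ∧ wt x + wt z + wt i ≤ C) := by
      intro z hz i
      rw [partners_eq, bits_and_mask, Finset.mem_filter, bits_xor_pow (mem_bits.1 hz),
        Finset.mem_erase]
      constructor
      · rintro ⟨⟨h1, h2⟩, h3⟩
        exact ⟨h2, h1, (hthr x hxN z (hlt0 z hz) i (bits_lt hmN (hmemM i h2))).2 h3⟩
      · rintro ⟨h1, h2, h3⟩
        exact ⟨⟨h2, h1⟩, (hthr x hxN z (hlt0 z hz) i (bits_lt hmN (hmemM i h1))).1 h3⟩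
    refine ⟨fun i hi => bits_lt hmN hi, x, hxmem, fun i hi => ?_, ?_⟩
    · have := le_log2_of_mem_bits hi
      rw [hlog] at this
      exact this
    intro y hy z hz hyz hzx hfeas hzmax hymax
    have hy0 : y ∈ bits m0 := by
      rw [hb0, Finset.mem_erase]
      exact ⟨ne_of_lt (lt_trans hyz hzx), hy⟩
    have hz0 : z ∈ bits m0 := by
      rw [hb0, Finset.mem_erase]
      exact ⟨ne_of_lt hzx, hz⟩
    rcases scanY_spec T tbl N x m0 x m0 _ hscan y hy0 with hck | ⟨y', hy'0, hy'y, hstop⟩
    · -- the check at `y`
      set c := partners tbl N x m0 y with hc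
      have hzc : z ∈ bits c := (hpart y hy0 z).2 ⟨hz0, ne_of_gt hyz, hfeas⟩
      have hc0 : c ≠ 0 := by
        intro h0
        rw [h0, mem_bits] at hzc
        simp at hzc
      have hlogc : c.log2 = z := by
        have h1 : c.log2 ∈ bits c := log2_mem_bits hc0
        have h2 : z ≤ c.log2 := le_log2_of_mem_bits hzc
        obtain ⟨h3, h4, h5⟩ := (hpart y hy0 c.log2).1 h1
        by_contra hne
        have hlt : z < c.log2 := lt_of_le_of_ne h2 (fun h => hne h.symm)
        have := hzmax c.log2 (hmemM _ h3) hlt (hlt0 _ h3)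
        omega
      unfold Checked at hck
      rw [← hc, hlogc] at hck
      set c2 := partners tbl N x m0 z with hc2
      have hyc2 : y ∈ bits c2 := (hpart z hz0 y).2 ⟨hy0, ne_of_lt hyz, by omega⟩
      have hc20 : c2 ≠ 0 := by
        intro h0
        rw [h0, mem_bits] at hyc2
        simp at hyc2
      have hlogc2 : c2.log2 = y := by
        have h1 : c2.log2 ∈ bits c2 := log2_mem_bits hc20
        have h2 : y ≤ c2.log2 := le_log2_of_mem_bits hyc2
        obtain ⟨h3, h4, h5⟩ := (hpart z hz0 c2.log2).1 h1
        by_contra hne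
        have hlt : y < c2.log2 := lt_of_le_of_ne h2 (fun h => hne h.symm)
        have := hymax c2.log2 (hmemM _ h3) hlt (hlt0 _ h3) h4
        omega
      have hshift : c2 >>> y = 1 := by
        have := shiftRight_log2 hc20
        rw [hlogc2] at this
        exact this
      obtain ⟨hh, hmem⟩ := hck hshift
      refine ⟨(m0 ^^^ 2 ^ y) ^^^ 2 ^ z, hh, hmem, ?_⟩
      have hz1 : (m0 ^^^ 2 ^ y).testBit z = true := by
        rw [← mem_bits, bits_xor_pow (mem_bits.1 hy0), Finset.mem_erase]
        exact ⟨ne_of_gt hyz, hz0⟩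
      rw [bits_xor_pow hz1, bits_xor_pow (mem_bits.1 hy0), hb0]
    · -- a stop at `y' ≤ y` contradicts the fact that `z` is a partner above `y`
      exfalso
      have hyN : y < N := bits_lt hmN hy
      have hwy : wt y' ≤ wt y := hmono y' y hy'y hyN
      have hzc' : z ∈ bits (partners tbl N x m0 y') :=
        (hpart y' hy'0 z).2 ⟨hz0, by omega, by omega⟩
      have hc'0 : partners tbl N x m0 y' ≠ 0 := by
        intro h0
        rw [h0, mem_bits] at hzc'
        simp at hzc'
      have hle : z ≤ (partners tbl N x m0 y').log2 := le_log2_of_mem_bits hzc'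
      rcases hstop with h0 | hlt
      · exact hc'0 h0
      · omega
  · have e4 : Nat.sub (Nat.pow 2 N) 1 = 2 ^ N - 1 := rfl
    rw [e4] at hroot
    obtain ⟨hh, hmem⟩ := mem_of_hasH _ T hroot
    exact ⟨2 ^ N - 1, hh, hmem, bits_full N⟩

/-- **Soundness of the fourth checker**, with the table validated by counting. -/
theorem not_packable_of_cert4 (ws : List ℕ) (C N tbl : ℕ) (T : HTree)
    (hN : N ≤ ws.length) (hsorted : ws.Pairwise (fun a b => a ≤ b))
    (htbl : tblOk3 ws C N tbl = true)
    (hall : ∀ m h, HTree.MemH m h T → stateOk4 N tbl T m h = true)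
    (hroot : hasH T (Nat.sub (Nat.pow 2 N) 1) = true) :
    ¬ Packable (fun i => ws.getD i 0) C (Finset.range N) := by
  apply not_packable_of_thr ws C N tbl T hN hsorted ?_ hall hroot
  intro x hx y hy i hi
  rw [tbl_spec3 ws C N tbl htbl x hx y hy]
  set p : ℕ → Bool := fun w => Nat.ble (ws.getD x 0 + ws.getD y 0 + w) C with hp
  have hpmono : ∀ a b, a ≤ b → p b = true → p a = true := by
    intro a b hab hb
    simp only [hp, Nat.ble_eq] at hb ⊢
    omega
  have h1 := sorted_countP p hpmono ws hsorted i (lt_of_lt_of_le hi hN)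
  rw [← h1]
  simp only [hp, Nat.ble_eq]

/-- Entry `i` of a list of weights packed into one number, `W` binary digits per entry. -/
def wAt (wp W i : ℕ) : ℕ :=
  Nat.land (Nat.shiftRight wp (Nat.mul W i)) (Nat.sub (Nat.pow 2 W) 1)

/-- The packed weights agree with the list. -/
noncomputable def packOk (ws : List ℕ) (wp W : ℕ) : Bool :=
  allBelow ws.length (fun i => Nat.beq (wAt wp W i) (ws.getD i 0))

/-- The test of one entry `t` of the table of thresholds: the weight at position `t - 1` is
feasible with `x` and `y` (if `t` is positive), the weight at position `t` is not (if `t` is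
smaller than the number `n` of weights). -/
def entryOk (C n wp W x y t : ℕ) : Bool :=
  Nat.ble t n &&
    ((Nat.beq t 0 || Nat.ble (wAt wp W x + wAt wp W y + wAt wp W (t - 1)) C) &&
      (Nat.beq t n || Nat.blt C (wAt wp W x + wAt wp W y + wAt wp W t)))

/-- Validation of the packed table of thresholds by the two neighbouring weights. -/
noncomputable def tblOk5 (ws : List ℕ) (C N tbl wp W : ℕ) : Bool :=
  packOk ws wp W && allBelow N (fun x => allBelow x (fun y =>
    entryOk C ws.length wp W x y (thrAt tbl N x y)))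

/-- **Soundness of the fourth checker**, with the table validated by neighbouring weights. -/
theorem not_packable_of_cert5 (ws : List ℕ) (C N tbl wp W : ℕ) (T : HTree)
    (hN : N ≤ ws.length) (hsorted : ws.Pairwise (fun a b => a ≤ b))
    (htbl : tblOk5 ws C N tbl wp W = true)
    (hall : ∀ m h, HTree.MemH m h T → stateOk4 N tbl T m h = true)
    (hroot : hasH T (Nat.sub (Nat.pow 2 N) 1) = true) :
    ¬ Packable (fun i => ws.getD i 0) C (Finset.range N) := by
  apply not_packable_of_thr ws C N tbl T hN hsorted ?_ hall hroot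
  unfold tblOk5 at htbl
  rw [Bool.and_eq_true] at htbl
  obtain ⟨hpack, hent⟩ := htbl
  have hw : ∀ i, i < ws.length → wAt wp W i = ws.getD i 0 := by
    intro i hi
    exact Nat.eq_of_beq_eq_true (allBelow_spec _ ws.length hpack i hi)
  have hmonoL : ∀ i j, i ≤ j → j < ws.length → ws.getD i 0 ≤ ws.getD j 0 := by
    intro i j hij hj
    rcases Nat.eq_or_lt_of_le hij with heq | hlt
    · rw [heq]
    · have hi' : i < ws.length := by omega
      rw [List.getD_eq_getElem _ _ hi', List.getD_eq_getElem _ _ hj]
      exact List.pairwise_iff_getElem.1 hsorted i j hi' hj hlt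
  intro x hx y hy i hi
  have he := allBelow_spec _ x (allBelow_spec _ N hent x hx) y hy
  unfold entryOk at he
  rw [Bool.and_eq_true, Bool.and_eq_true, Bool.or_eq_true, Bool.or_eq_true] at he
  obtain ⟨h1, h2, h3⟩ := he
  have h1' : thrAt tbl N x y ≤ ws.length := Nat.le_of_ble_eq_true h1
  have hxl : x < ws.length := by omega
  have hyl : y < ws.length := by omega
  have hil : i < ws.length := by omega
  rw [hw x hxl, hw y hyl] at h2 h3
  constructor
  · intro hfeas
    by_contra hcon
    push Not at hcon
    rcases h3 with h3 | h3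
    · have := Nat.eq_of_beq_eq_true h3
      omega
    · have htl : thrAt tbl N x y < ws.length := by omega
      rw [hw _ htl, Nat.blt_eq] at h3
      have := hmonoL _ i hcon hil
      omega
  · intro hlt
    rcases h2 with h2 | h2
    · have := Nat.eq_of_beq_eq_true h2
      omega
    · have htl : thrAt tbl N x y - 1 < ws.length := by omega
      rw [hw _ htl] at h2
      have h2' := Nat.le_of_ble_eq_true h2
      have := hmonoL i (thrAt tbl N x y - 1) (by omega) htl
      omega

end Vale.Agent.Lib.Helper8.P302Cert4
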