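import Vale.Agent.Lib.Helper8.P302Cert4

/-!
A fifth checker for dead-state certificates: the rule and the hints of the fourth one, but the
certificate is searched through an arbitrary lookup function, and a search tree is provided
whose leaves are blocks of states packed into one natural number each.
-/

namespace Vale.Agent.Lib.Helper8.P302Cert5

open Finset Vale.Agent.Lib.Helper3.BinPacking Vale.Agent.Lib.Helper8.P302Cert
open Vale.Agent.Lib.Helper8.P302Cert3
open Vale.Agent.Lib.Helper8.P302Cert4 (sel sel_true sel_false sel_spec low_spec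
  log2_of_shiftRight_eq_one shiftRight_log2 wAt packOk entryOk tblOk5)

/-- The code of the feasible partners of `z` (given the largest index `x`) inside `m0`, for a
function `thr` giving the thresholds. -/
def partnersF (thr : ℕ → ℕ → ℕ) (x m0 z : ℕ) : ℕ :=
  Nat.land (Nat.xor m0 (Nat.pow 2 z)) (Nat.sub (Nat.pow 2 (thr x z)) 1)

theorem partnersF_eq (thr : ℕ → ℕ → ℕ) (x m0 z : ℕ) :
    partnersF thr x m0 z = (m0 ^^^ 2 ^ z) &&& (2 ^ (thr x z) - 1) := rfl

/-- The second part of a step of the scan: `c` codes the feasible partners of `y`, the hint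
`z` is the largest of them. -/
noncomputable def stepY2 (lk : ℕ → Bool) (thr : ℕ → ℕ → ℕ) (x m0 y z c : ℕ) (rest : Bool) : Bool :=
  sel (Nat.beq c 0) true
    (sel (Nat.beq (Nat.shiftRight c z) 1)
      (sel (Nat.ble (Nat.succ y) z)
        (sel (Nat.beq (Nat.shiftRight (partnersF thr x m0 z) y) 1)
          (sel (lk (Nat.xor (Nat.xor m0 (Nat.pow 2 y)) (Nat.pow 2 z))) rest false)
          rest)
        true)
      false)

/-- A step of the scan: the hint `y` is the smallest candidate left in `r`. -/
noncomputable def stepY (lk : ℕ → Bool) (thr : ℕ → ℕ → ℕ) (x m0 r y z : ℕ) (rest : Bool) : Bool :=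
  sel (Nat.beq (Nat.land r (Nat.sub (Nat.pow 2 (Nat.succ y)) 1)) (Nat.pow 2 y))
    (stepY2 lk thr x m0 y z (partnersF thr x m0 y) rest) false

/-- The scan over the candidates, from the bottom; `h` holds the hints, two per candidate,
eight binary digits each. -/
noncomputable def scanY (lk : ℕ → Bool) (thr : ℕ → ℕ → ℕ) (x m0 : ℕ) (fuel : ℕ) : ℕ → ℕ → Bool :=
  Nat.rec (motive := fun _ => ℕ → ℕ → Bool) (fun r _ => Nat.beq r 0)
    (fun _ ih r h => sel (Nat.beq r 0) true
      (stepY lk thr x m0 r (Nat.land h 255) (Nat.land (Nat.shiftRight h 8) 255)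
        (ih (Nat.xor r (Nat.pow 2 (Nat.land h 255))) (Nat.shiftRight h 16)))) fuel

theorem scanY_zero (lk : ℕ → Bool) (thr : ℕ → ℕ → ℕ) (x m0 r h : ℕ) :
    scanY lk thr x m0 0 r h = Nat.beq r 0 := rfl

theorem scanY_succ (lk : ℕ → Bool) (thr : ℕ → ℕ → ℕ) (x m0 f r h : ℕ) :
    scanY lk thr x m0 (f + 1) r h = sel (Nat.beq r 0) true
      (stepY lk thr x m0 r (Nat.land h 255) (Nat.land (Nat.shiftRight h 8) 255)
        (scanY lk thr x m0 f (Nat.xor r (Nat.pow 2 (Nat.land h 255)))
          (Nat.shiftRight h 16))) := rfl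

/-- The scan may stop at `y`: no feasible partner, or the largest one is not above `y`. -/
def Stop (thr : ℕ → ℕ → ℕ) (x m0 y : ℕ) : Prop :=
  partnersF thr x m0 y = 0 ∨ Nat.log2 (partnersF thr x m0 y) ≤ y

/-- The candidate `y` has been checked: if it is the largest feasible partner of its own
largest feasible partner, the state without both is in the certificate. -/
def Checked (lk : ℕ → Bool) (thr : ℕ → ℕ → ℕ) (x m0 y : ℕ) : Prop :=
  partnersF thr x m0 (Nat.log2 (partnersF thr x m0 y)) >>> y = 1 →
    lk ((m0 ^^^ 2 ^ y) ^^^ 2 ^ Nat.log2 (partnersF thr x m0 y)) = true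

theorem scanY_spec (lk : ℕ → Bool) (thr : ℕ → ℕ → ℕ) (x m0 : ℕ) : ∀ (fuel r h : ℕ),
    scanY lk thr x m0 fuel r h = true → ∀ y0 ∈ bits r, Checked lk thr x m0 y0 ∨
      ∃ y' ∈ bits r, y' ≤ y0 ∧ Stop thr x m0 y'
  | 0, r, h, hs, y0, hy0 => by
    rw [scanY_zero] at hs
    have hr : r = 0 := Nat.eq_of_beq_eq_true hs
    rw [hr, mem_bits] at hy0
    simp at hy0
  | f + 1, r, h, hs, y0, hy0 => by
    rw [scanY_succ] at hs
    have hr : r ≠ 0 := by
      intro h0
      rw [h0, mem_bits] at hy0
      simp at hy0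
    rw [beq_zero_false hr, sel_false] at hs
    set y := Nat.land h 255 with hy
    set z := Nat.land (Nat.shiftRight h 8) 255 with hz
    unfold stepY at hs
    rcases sel_spec hs with ⟨hlow, hs2⟩ | ⟨_, hs2⟩
    swap
    · exact absurd hs2 (by simp)
    have hlow' : r &&& (2 ^ (y + 1) - 1) = 2 ^ y := Nat.eq_of_beq_eq_true hlow
    obtain ⟨hyr, hymin⟩ := low_spec hlow'
    unfold stepY2 at hs2
    set c := partnersF thr x m0 y with hc
    rcases sel_spec hs2 with ⟨hc0, _⟩ | ⟨hc0, hs3⟩
    · -- no partner: stop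
      have : c = 0 := Nat.eq_of_beq_eq_true hc0
      exact Or.inr ⟨y, hyr, hymin y0 hy0, Or.inl this⟩
    · rcases sel_spec hs3 with ⟨hztop, hs4⟩ | ⟨_, hs4⟩
      swap
      · exact absurd hs4 (by simp)
      have hztop' : c >>> z = 1 := Nat.eq_of_beq_eq_true hztop
      obtain ⟨hcne, hlogc⟩ := log2_of_shiftRight_eq_one hztop'
      rcases sel_spec hs4 with ⟨hyz, hs5⟩ | ⟨hyz, _⟩
      swap
      · -- the largest partner is not above `y`: stop
        have hzy : z ≤ y := by
          by_contra hcon
          push Not at hcon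
          have : Nat.ble (Nat.succ y) z = true := Nat.ble_eq_true_of_le hcon
          rw [this] at hyz
          exact absurd hyz (by simp)
        exact Or.inr ⟨y, hyr, hymin y0 hy0, Or.inr (by rw [hlogc]; exact hzy)⟩
      · -- the candidate is checked, the scan goes on
        have hrest : scanY lk thr x m0 f (Nat.xor r (Nat.pow 2 y)) (Nat.shiftRight h 16) = true ∧
            (Nat.beq (Nat.shiftRight (partnersF thr x m0 z) y) 1 = true →
              lk (Nat.xor (Nat.xor m0 (Nat.pow 2 y)) (Nat.pow 2 z)) = true) := by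
          rcases sel_spec hs5 with ⟨ht, hs6⟩ | ⟨ht, hs6⟩
          · rcases sel_spec hs6 with ⟨hh, hs7⟩ | ⟨_, hs7⟩
            · exact ⟨hs7, fun _ => hh⟩
            · exact absurd hs7 (by simp)
          · refine ⟨hs6, fun ht' => ?_⟩
            rw [ht] at ht'
            exact absurd ht' (by simp)
        obtain ⟨hsc, hpar⟩ := hrest
        by_cases hy0y : y0 = y
        · left
          rw [hy0y]
          intro hshift
          rw [← hc, hlogc] at hshift ⊢
          have hb : Nat.beq (Nat.shiftRight (partnersF thr x m0 z) y) 1 = true := by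
            have e : Nat.shiftRight (partnersF thr x m0 z) y = partnersF thr x m0 z >>> y := rfl
            rw [e, hshift]
            rfl
          exact hpar hb
        · have e : Nat.xor r (Nat.pow 2 y) = r ^^^ 2 ^ y := rfl
          rw [e] at hsc
          have hb : bits (r ^^^ 2 ^ y) = (bits r).erase y := bits_xor_pow (mem_bits.1 hyr)
          have hy0' : y0 ∈ bits (r ^^^ 2 ^ y) := by
            rw [hb, Finset.mem_erase]
            exact ⟨hy0y, hy0⟩
          rcases scanY_spec lk thr x m0 f _ _ hsc y0 hy0' with h1 | ⟨y', hy'1, hy'2, hy'3⟩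
          · exact Or.inl h1
          · rw [hb] at hy'1
            exact Or.inr ⟨y', Finset.mem_of_mem_erase hy'1, hy'2, hy'3⟩

/-- The check of one state `m` with its hint `h`: the lowest eight binary digits of `h` give
the largest index of the state, the rest are the hints for the scan. -/
noncomputable def stateOk (N : ℕ) (thr : ℕ → ℕ → ℕ) (lk : ℕ → Bool) (m h : ℕ) : Bool :=
  sel (Nat.beq (Nat.shiftRight m (Nat.land h 255)) 1)
    (sel (Nat.ble (Nat.succ (Nat.land h 255)) N)
      (scanY lk thr (Nat.land h 255) (Nat.xor m (Nat.pow 2 (Nat.land h 255)))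
        (Nat.land h 255) (Nat.xor m (Nat.pow 2 (Nat.land h 255))) (Nat.shiftRight h 8))
      false)
    false

/-- **Soundness of the checker for an arbitrary lookup function**, given the meaning of the
thresholds. -/
theorem not_packable_of_lookup (ws : List ℕ) (C N : ℕ) (thr : ℕ → ℕ → ℕ) (lk : ℕ → Bool)
    (Mem : ℕ → ℕ → Prop) (hlk : ∀ k, lk k = true → ∃ h, Mem k h)
    (hN : N ≤ ws.length) (hsorted : ws.Pairwise (fun a b => a ≤ b))
    (hthr0 : ∀ x, x < N → ∀ y, y < x → ∀ i, i < N →
      (ws.getD x 0 + ws.getD y 0 + ws.getD i 0 ≤ C ↔ i < thr x y))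
    (hall : ∀ m h, Mem m h → stateOk N thr lk m h = true)
    (hroot : lk (Nat.sub (Nat.pow 2 N) 1) = true) :
    ¬ Packable (fun i => ws.getD i 0) C (Finset.range N) := by
  classical
  set wt : ℕ → ℕ := fun i => ws.getD i 0 with hwt
  have hmono : ∀ i j, i ≤ j → j < N → wt i ≤ wt j := by
    intro i j hij hj
    rcases Nat.eq_or_lt_of_le hij with heq | hlt
    · rw [heq]
    · have hj' : j < ws.length := by omega
      have hi' : i < ws.length := by omega
      simp only [hwt]
      rw [List.getD_eq_getElem _ _ hi', List.getD_eq_getElem _ _ hj']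
      exact List.pairwise_iff_getElem.1 hsorted i j hi' hj' hlt
  have hthr : ∀ x, x < N → ∀ y, y < x → ∀ i, i < N →
      (wt x + wt y + wt i ≤ C ↔ i < thr x y) := hthr0
  apply Vale.Agent.Lib.Helper8.P302Dead2.not_packable_of_dead_pareto wt C N hmono
    (fun M => ∃ m h, Mem m h ∧ bits m = M)
  · rintro M ⟨m, h, hmT, rfl⟩
    have hst := hall m h hmT
    unfold stateOk at hst
    set x := Nat.land h 255 with hx
    rcases sel_spec hst with ⟨hxtop, hst2⟩ | ⟨_, hst2⟩
    swap
    · exact absurd hst2 (by simp)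
    rcases sel_spec hst2 with ⟨hxN', hscan⟩ | ⟨_, hst3⟩
    swap
    · exact absurd hst3 (by simp)
    have hxtop' : m >>> x = 1 := Nat.eq_of_beq_eq_true hxtop
    obtain ⟨hm0, hlog⟩ := log2_of_shiftRight_eq_one hxtop'
    have hxN : x < N := Nat.le_of_ble_eq_true hxN'
    have hmN : m < 2 ^ N := by
      have h1 : m < 2 ^ (m.log2 + 1) := Nat.lt_log2_self
      rw [hlog] at h1
      exact lt_of_lt_of_le h1 (Nat.pow_le_pow_right (by norm_num) hxN)
    have hxb : m.testBit x = true := by
      rw [← hlog]
      exact Nat.testBit_log2 hm0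
    have hxmem : x ∈ bits m := mem_bits.2 hxb
    have e0 : Nat.xor m (Nat.pow 2 x) = m ^^^ 2 ^ x := rfl
    rw [e0] at hscan
    set m0 := m ^^^ 2 ^ x with hm0def
    have hb0 : bits m0 = (bits m).erase x := bits_xor_pow hxb
    have hlt0 : ∀ i, i ∈ bits m0 → i < x := by
      intro i hi
      rw [hb0, Finset.mem_erase] at hi
      have := le_log2_of_mem_bits hi.2
      rw [hlog] at this
      exact lt_of_le_of_ne this hi.1
    have hmemM : ∀ i, i ∈ bits m0 → i ∈ bits m := by
      intro i hi
      rw [hb0] at hi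
      exact Finset.mem_of_mem_erase hi
    have hpart : ∀ z, z ∈ bits m0 → ∀ i, (i ∈ bits (partnersF thr x m0 z) ↔
        i ∈ bits m0 ∧ i ≠ z ∧ wt x + wt z + wt i ≤ C) := by
      intro z hz i
      rw [partnersF_eq, bits_and_mask, Finset.mem_filter, bits_xor_pow (mem_bits.1 hz),
        Finset.mem_erase]
      constructor
      · rintro ⟨⟨h1, h2⟩, h3⟩
        exact ⟨h2, h1, (hthr x hxN z (hlt0 z hz) i (bits_lt hmN (hmemM i h2))).2 h3⟩
      · rintro ⟨h1, h2, h3⟩
        exact ⟨⟨h2, h1⟩, (hthr x hxN z (hlt0 z hz) i (bits_lt hmN (hmemM i h1))).1 h3⟩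
    refine ⟨fun i hi => bits_lt hmN hi, x, hxmem, fun i hi => ?_, ?_⟩
    · have := le_log2_of_mem_bits hi
      rw [hlog] at this
      exact this
    intro y hy z hz hyz hzx hfeas hzmax hymax
    have hy0 : y ∈ bits m0 := by
      rw [hb0, Finset.mem_erase]
      exact ⟨ne_of_lt (lt_trans hyz hzx), hy⟩
    have hz0 : z ∈ bits m0 := by
      rw [hb0, Finset.mem_erase]
      exact ⟨ne_of_lt hzx, hz⟩
    rcases scanY_spec lk thr x m0 x m0 _ hscan y hy0 with hck | ⟨y', hy'0, hy'y, hstop⟩
    · -- the check at `y`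
      set c := partnersF thr x m0 y with hc
      have hzc : z ∈ bits c := (hpart y hy0 z).2 ⟨hz0, ne_of_gt hyz, hfeas⟩
      have hc0 : c ≠ 0 := by
        intro h0
        rw [h0, mem_bits] at hzc
        simp at hzc
      have hlogc : c.log2 = z := by
        have h1 : c.log2 ∈ bits c := log2_mem_bits hc0
        have h2 : z ≤ c.log2 := le_log2_of_mem_bits hzc
        obtain ⟨h3, h4, h5⟩ := (hpart y hy0 c.log2).1 h1
        by_contra hne
        have hlt : z < c.log2 := lt_of_le_of_ne h2 (fun h => hne h.symm)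
        have := hzmax c.log2 (hmemM _ h3) hlt (hlt0 _ h3)
        omega
      unfold Checked at hck
      rw [← hc, hlogc] at hck
      set c2 := partnersF thr x m0 z with hc2
      have hyc2 : y ∈ bits c2 := (hpart z hz0 y).2 ⟨hy0, ne_of_lt hyz, by omega⟩
      have hc20 : c2 ≠ 0 := by
        intro h0
        rw [h0, mem_bits] at hyc2
        simp at hyc2
      have hlogc2 : c2.log2 = y := by
        have h1 : c2.log2 ∈ bits c2 := log2_mem_bits hc20
        have h2 : y ≤ c2.log2 := le_log2_of_mem_bits hyc2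
        obtain ⟨h3, h4, h5⟩ := (hpart z hz0 c2.log2).1 h1
        by_contra hne
        have hlt : y < c2.log2 := lt_of_le_of_ne h2 (fun h => hne h.symm)
        have := hymax c2.log2 (hmemM _ h3) hlt (hlt0 _ h3) h4
        omega
      have hshift : c2 >>> y = 1 := by
        have := shiftRight_log2 hc20
        rw [hlogc2] at this
        exact this
      obtain ⟨hh, hmem⟩ := hlk _ (hck hshift)
      refine ⟨(m0 ^^^ 2 ^ y) ^^^ 2 ^ z, hh, hmem, ?_⟩
      have hz1 : (m0 ^^^ 2 ^ y).testBit z = true := by
        rw [← mem_bits, bits_xor_pow (mem_bits.1 hy0), Finset.mem_erase]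
        exact ⟨ne_of_gt hyz, hz0⟩
      rw [bits_xor_pow hz1, bits_xor_pow (mem_bits.1 hy0), hb0]
    · -- a stop at `y' ≤ y` contradicts the fact that `z` is a partner above `y`
      exfalso
      have hyN : y < N := bits_lt hmN hy
      have hwy : wt y' ≤ wt y := hmono y' y hy'y hyN
      have hzc' : z ∈ bits (partnersF thr x m0 y') :=
        (hpart y' hy'0 z).2 ⟨hz0, by omega, by omega⟩
      have hc'0 : partnersF thr x m0 y' ≠ 0 := by
        intro h0
        rw [h0, mem_bits] at hzc'
        simp at hzc'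
      have hle : z ≤ (partnersF thr x m0 y').log2 := le_log2_of_mem_bits hzc'
      rcases hstop with h0 | hlt
      · exact hc'0 h0
      · omega
  · have e4 : Nat.sub (Nat.pow 2 N) 1 = 2 ^ N - 1 := rfl
    rw [e4] at hroot
    obtain ⟨hh, hmem⟩ := hlk _ hroot
    exact ⟨2 ^ N - 1, hh, hmem, bits_full N⟩

/-- A search tree of states with hints; a leaf is a block of entries packed into one number:
the number of entries, the width of an entry, the mask of a hint and the packed entries. -/
inductive PTree where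
  | leaf : ℕ → ℕ → ℕ → ℕ → PTree
  | node : PTree → ℕ → ℕ → PTree → PTree

/-- The state stored at position `i` of a block. -/
def keyAt (KM EW data i : ℕ) : ℕ := Nat.land (Nat.shiftRight data (Nat.mul EW i)) KM

/-- The hint stored at position `i` of a block. -/
def hintAt (KW EW HM data i : ℕ) : ℕ :=
  Nat.land (Nat.shiftRight (Nat.shiftRight data (Nat.mul EW i)) KW) HM

/-- The state `k` occurs in the tree with the hint `h`. -/
def PTree.MemP (KM KW k h : ℕ) : PTree → Prop
  | .leaf L EW HM data => ∃ i, i < L ∧ keyAt KM EW data i = k ∧ hintAt KW EW HM data i = h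
  | .node l v w r => PTree.MemP KM KW k h l ∨ (k = v ∧ h = w) ∨ PTree.MemP KM KW k h r

/-- Binary search for the state `k` in a block, between the positions `lo` and `hi`. -/
noncomputable def bsearch (KM EW data k : ℕ) (fuel : ℕ) : ℕ → ℕ → Bool :=
  Nat.rec (motive := fun _ => ℕ → ℕ → Bool) (fun _ _ => false)
    (fun _ ih lo hi => sel (Nat.ble (Nat.succ lo) hi)
      (sel (Nat.ble k (keyAt KM EW data (Nat.div (Nat.add lo hi) 2)))
        (sel (Nat.beq k (keyAt KM EW data (Nat.div (Nat.add lo hi) 2))) true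
          (ih lo (Nat.div (Nat.add lo hi) 2)))
        (ih (Nat.succ (Nat.div (Nat.add lo hi) 2)) hi))
      false) fuel

theorem bsearch_zero (KM EW data k lo hi : ℕ) : bsearch KM EW data k 0 lo hi = false := rfl

theorem bsearch_succ (KM EW data k f lo hi : ℕ) :
    bsearch KM EW data k (f + 1) lo hi = sel (Nat.ble (Nat.succ lo) hi)
      (sel (Nat.ble k (keyAt KM EW data (Nat.div (Nat.add lo hi) 2)))
        (sel (Nat.beq k (keyAt KM EW data (Nat.div (Nat.add lo hi) 2))) true
          (bsearch KM EW data k f lo (Nat.div (Nat.add lo hi) 2)))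
        (bsearch KM EW data k f (Nat.succ (Nat.div (Nat.add lo hi) 2)) hi))
      false := rfl

theorem bsearch_spec (KM EW data k L : ℕ) : ∀ (fuel lo hi : ℕ),
    bsearch KM EW data k fuel lo hi = true → hi ≤ L → ∃ i, i < L ∧ keyAt KM EW data i = k
  | 0, lo, hi, h, _ => by
    rw [bsearch_zero] at h
    exact absurd h (by simp)
  | f + 1, lo, hi, h, hL => by
    rw [bsearch_succ] at h
    rcases sel_spec h with ⟨h1, h2⟩ | ⟨_, h2⟩
    swap
    · exact absurd h2 (by simp)
    have hlt : lo + 1 ≤ hi := Nat.le_of_ble_eq_true h1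
    have hmid : Nat.div (Nat.add lo hi) 2 < hi := by
      have e : Nat.div (Nat.add lo hi) 2 = (lo + hi) / 2 := rfl
      rw [e]
      omega
    rcases sel_spec h2 with ⟨_, h3⟩ | ⟨_, h3⟩
    · rcases sel_spec h3 with ⟨h4, _⟩ | ⟨_, h4⟩
      · exact ⟨Nat.div (Nat.add lo hi) 2, lt_of_lt_of_le hmid hL,
          (Nat.eq_of_beq_eq_true h4).symm⟩
      · exact bsearch_spec KM EW data k L f lo _ h4 (le_trans (le_of_lt hmid) hL)
    · exact bsearch_spec KM EW data k L f _ hi h3 hL

/-- Search for a state. -/
noncomputable def hasP (KM : ℕ) (t : PTree) : ℕ → Bool :=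
  PTree.rec (motive := fun _ => ℕ → Bool)
    (fun L EW _ data k => bsearch KM EW data k L 0 L)
    (fun _ v _ _ ihl ihr k =>
      Bool.rec (motive := fun _ => Bool) (ihr k)
        (Bool.rec (motive := fun _ => Bool) (ihl k) true (Nat.beq k v)) (Nat.ble k v)) t

theorem hasP_leaf (KM L EW HM data k : ℕ) :
    hasP KM (PTree.leaf L EW HM data) k = bsearch KM EW data k L 0 L := rfl

theorem hasP_node (KM : ℕ) (l r : PTree) (v w k : ℕ) :
    hasP KM (PTree.node l v w r) k = sel (Nat.ble k v) (sel (Nat.beq k v) true (hasP KM l k))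
      (hasP KM r k) := rfl

theorem mem_of_hasP (KM KW k : ℕ) : ∀ t : PTree, hasP KM t k = true →
    ∃ h, PTree.MemP KM KW k h t
  | .leaf L EW HM data, h => by
    rw [hasP_leaf] at h
    obtain ⟨i, hi, hk⟩ := bsearch_spec KM EW data k L L 0 L h (le_refl L)
    exact ⟨hintAt KW EW HM data i, i, hi, hk, rfl⟩
  | .node l v w r, h => by
    rw [hasP_node] at h
    rcases sel_spec h with ⟨_, h2⟩ | ⟨_, h2⟩
    · rcases sel_spec h2 with ⟨h3, _⟩ | ⟨_, h4⟩
      · exact ⟨w, Or.inr (Or.inl ⟨Nat.eq_of_beq_eq_true h3, rfl⟩)⟩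
      · obtain ⟨hh, hm⟩ := mem_of_hasP KM KW k l h4
        exact ⟨hh, Or.inl hm⟩
    · obtain ⟨hh, hm⟩ := mem_of_hasP KM KW k r h2
      exact ⟨hh, Or.inr (Or.inr hm)⟩

/-- All states, with their hints, pass a test. -/
noncomputable def everyP (KM KW : ℕ) (t : PTree) (p : ℕ → ℕ → Bool) : Bool :=
  PTree.rec (motive := fun _ => Bool)
    (fun L EW HM data => allBelow L (fun i => p (keyAt KM EW data i) (hintAt KW EW HM data i)))
    (fun _ v w _ ihl ihr => sel ihl (sel (p v w) ihr false) false) t

theorem everyP_leaf (KM KW L EW HM data : ℕ) (p : ℕ → ℕ → Bool) :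
    everyP KM KW (PTree.leaf L EW HM data) p
      = allBelow L (fun i => p (keyAt KM EW data i) (hintAt KW EW HM data i)) := rfl

theorem everyP_node (KM KW : ℕ) (l r : PTree) (v w : ℕ) (p : ℕ → ℕ → Bool) :
    everyP KM KW (PTree.node l v w r) p
      = sel (everyP KM KW l p) (sel (p v w) (everyP KM KW r p) false) false := rfl

theorem everyP_of_mem (KM KW : ℕ) (p : ℕ → ℕ → Bool) (k h : ℕ) :
    ∀ t : PTree, everyP KM KW t p = true → PTree.MemP KM KW k h t → p k h = true
  | .leaf L EW HM data, ht, hm => by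
    rw [everyP_leaf] at ht
    obtain ⟨i, hi, hk, hh⟩ := hm
    have := allBelow_spec _ L ht i hi
    rw [hk, hh] at this
    exact this
  | .node l v w r, ht, hm => by
    rw [everyP_node] at ht
    rcases sel_spec ht with ⟨h1, h2⟩ | ⟨_, h2⟩
    · rcases sel_spec h2 with ⟨h3, h4⟩ | ⟨_, h4⟩
      · unfold PTree.MemP at hm
        rcases hm with hm | ⟨hk, hh⟩ | hm
        · exact everyP_of_mem KM KW p k h l h1 hm
        · rw [hk, hh]
          exact h3
        · exact everyP_of_mem KM KW p k h r h4 hm
      · exact absurd h4 (by simp)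
    · exact absurd h2 (by simp)

/-- Validation of a threshold function by the two neighbouring weights. -/
noncomputable def tblOkF (ws : List ℕ) (C N : ℕ) (thr : ℕ → ℕ → ℕ) (wp W : ℕ) : Bool :=
  packOk ws wp W && allBelow N (fun x => allBelow x (fun y =>
    entryOk C ws.length wp W x y (thr x y)))

/-- The meaning of a threshold function validated by neighbouring weights. -/
theorem thr_of_tblOkF (ws : List ℕ) (C N : ℕ) (thr : ℕ → ℕ → ℕ) (wp W : ℕ)
    (hN : N ≤ ws.length) (hsorted : ws.Pairwise (fun a b => a ≤ b))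
    (htbl : tblOkF ws C N thr wp W = true) :
    ∀ x, x < N → ∀ y, y < x → ∀ i, i < N →
      (ws.getD x 0 + ws.getD y 0 + ws.getD i 0 ≤ C ↔ i < thr x y) := by
  unfold tblOkF at htbl
  rw [Bool.and_eq_true] at htbl
  obtain ⟨hpack, hent⟩ := htbl
  have hw : ∀ i, i < ws.length → wAt wp W i = ws.getD i 0 := by
    intro i hi
    exact Nat.eq_of_beq_eq_true (allBelow_spec _ ws.length hpack i hi)
  have hmonoL : ∀ i j, i ≤ j → j < ws.length → ws.getD i 0 ≤ ws.getD j 0 := by
    intro i j hij hj
    rcases Nat.eq_or_lt_of_le hij with heq | hlt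
    · rw [heq]
    · have hi' : i < ws.length := by omega
      rw [List.getD_eq_getElem _ _ hi', List.getD_eq_getElem _ _ hj]
      exact List.pairwise_iff_getElem.1 hsorted i j hi' hj hlt
  intro x hx y hy i hi
  have he := allBelow_spec _ x (allBelow_spec _ N hent x hx) y hy
  unfold entryOk at he
  rw [Bool.and_eq_true, Bool.and_eq_true, Bool.or_eq_true, Bool.or_eq_true] at he
  obtain ⟨h1, h2, h3⟩ := he
  have h1' : thr x y ≤ ws.length := Nat.le_of_ble_eq_true h1
  have hxl : x < ws.length := by omega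
  have hyl : y < ws.length := by omega
  have hil : i < ws.length := by omega
  rw [hw x hxl, hw y hyl] at h2 h3
  constructor
  · intro hfeas
    by_contra hcon
    push Not at hcon
    rcases h3 with h3 | h3
    · have := Nat.eq_of_beq_eq_true h3
      omega
    · have htl : thr x y < ws.length := by omega
      rw [hw _ htl, Nat.blt_eq] at h3
      have := hmonoL _ i hcon hil
      omega
  · intro hlt
    rcases h2 with h2 | h2
    · have := Nat.eq_of_beq_eq_true h2
      omega
    · have htl : thr x y - 1 < ws.length := by omega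
      rw [hw _ htl] at h2
      have h2' := Nat.le_of_ble_eq_true h2
      have := hmonoL i (thr x y - 1) (by omega) htl
      omega

/-- A tree of the rows of the table of thresholds, addressed by the binary digits of the row
number, the leading digit first. -/
inductive RTree where
  | leaf : ℕ → RTree
  | node : RTree → RTree → RTree

/-- The row with number `x` in a tree of depth `d`. -/
noncomputable def rowOf (t : RTree) : ℕ → ℕ → ℕ :=
  RTree.rec (motive := fun _ => ℕ → ℕ → ℕ) (fun row _ _ => row)
    (fun _ _ ihl ihr d x =>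
      Bool.rec (motive := fun _ => ℕ) (ihl (Nat.pred d) x) (ihr (Nat.pred d) x)
        (Nat.beq (Nat.land (Nat.shiftRight x (Nat.pred d)) 1) 1)) t

/-- The threshold function read from a tree of rows, eight binary digits per entry. -/
noncomputable def thrR (t : RTree) (d x y : ℕ) : ℕ :=
  Nat.land (Nat.shiftRight (rowOf t d x) (Nat.mul 8 y)) 255

/-- **Soundness of the fifth checker**: packed search tree, thresholds in a tree of rows
validated by neighbouring weights. -/
theorem not_packable_of_cert6 (ws : List ℕ) (C N wp W KM KW d : ℕ) (R : RTree) (T : PTree)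
    (hN : N ≤ ws.length) (hsorted : ws.Pairwise (fun a b => a ≤ b))
    (htbl : tblOkF ws C N (thrR R d) wp W = true)
    (hall : ∀ m h, PTree.MemP KM KW m h T → stateOk N (thrR R d) (hasP KM T) m h = true)
    (hroot : hasP KM T (Nat.sub (Nat.pow 2 N) 1) = true) :
    ¬ Packable (fun i => ws.getD i 0) C (Finset.range N) :=
  not_packable_of_lookup ws C N (thrR R d) (hasP KM T) (fun m h => PTree.MemP KM KW m h T)
    (fun k hk => mem_of_hasP KM KW k T hk) hN hsorted
    (thr_of_tblOkF ws C N (thrR R d) wp W hN hsorted htbl) hall hroot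

end Vale.Agent.Lib.Helper8.P302Cert5
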