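import Vale.Agent.Lib.Helper8.P302Dead2

/-!
Soundness of dead-state certificates with an arbitrary pivot: in every state one index `x` of
the state is fixed, and only those steps have to be followed in which each of the two partners
of `x` is the largest feasible partner given the other one.
-/

namespace Vale.Agent.Lib.Helper8.P302Dead3

open Finset Vale.Agent.Lib.Helper3.BinPacking
open Vale.Agent.Lib.Helper8.P302Dead2 (packable_replace)

/-- **Soundness of dead-state certificates, with the two-sided maximality rule and an
arbitrary pivot `x` in every state.** -/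
theorem not_packable_of_dead_any (wt : ℕ → ℕ) (C N : ℕ)
    (hmono : ∀ i j, i ≤ j → j < N → wt i ≤ wt j)
    (D : Finset ℕ → Prop)
    (hD : ∀ M, D M → (∀ i ∈ M, i < N) ∧ ∃ x ∈ M,
        ∀ y ∈ M, ∀ z ∈ M, y < z → y ≠ x → z ≠ x → wt x + wt y + wt z ≤ C →
          (∀ z' ∈ M, z < z' → z' ≠ x → C < wt x + wt y + wt z') →
          (∀ y' ∈ M, y < y' → y' ≠ x → y' ≠ z → C < wt x + wt y' + wt z) →
          D (((M.erase x).erase y).erase z)) :
    ∀ M, D M → ¬ Packable wt C M := by
  classical
  have key : ∀ n, ∀ M : Finset ℕ, M.card = n → D M → ¬ Packable wt C M := by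
    intro n
    induction n using Nat.strong_induction_on with
    | _ n ih =>
      intro M hcard hDM hpack
      obtain ⟨hN, x, hxM, hstep⟩ := hD M hDM
      -- the set of admissible pairs
      set Q : ℕ → ℕ → Prop := fun y z => y ∈ M ∧ z ∈ M ∧ y < z ∧ y ≠ x ∧ z ≠ x ∧
        wt x + wt y + wt z ≤ C ∧ Packable wt C (((M.erase x).erase y).erase z) with hQ
      set S := (M ×ˢ M).filter (fun p => Q p.1 p.2) with hS
      have hSmem : ∀ y z, Q y z → (y, z) ∈ S := by
        intro y z hq
        rw [hS, Finset.mem_filter, Finset.mem_product]
        exact ⟨⟨hq.1, hq.2.1⟩, hq⟩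
      have hSne : S.Nonempty := by
        obtain ⟨P, h1, h2, h3⟩ := hpack
        have hxM' := hxM
        rw [← h3, Finset.mem_biUnion] at hxM'
        obtain ⟨T0, hT0, hx0⟩ := hxM'
        have hx0 : x ∈ T0 := hx0
        have hT0M : T0 ⊆ M := by
          rw [← h3]
          exact Finset.subset_biUnion_of_mem id hT0
        have hc2 : (T0.erase x).card = 2 := by
          rw [Finset.card_erase_of_mem hx0, (h1 T0 hT0).1]
        obtain ⟨a, b, hab, hpair⟩ := Finset.card_eq_two.1 hc2
        obtain ⟨y, z0, hyz0, hpair'⟩ : ∃ y z0, y < z0 ∧ T0.erase x = {y, z0} := by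
          rcases lt_or_gt_of_ne hab with h | h
          · exact ⟨a, b, h, hpair⟩
          · exact ⟨b, a, h, by rw [hpair, Finset.pair_comm]⟩
        have hy0 : y ∈ T0.erase x := by rw [hpair']; simp
        have hz00 : z0 ∈ T0.erase x := by rw [hpair']; simp
        have hyT : y ∈ T0 := Finset.mem_of_mem_erase hy0
        have hz0T : z0 ∈ T0 := Finset.mem_of_mem_erase hz00
        have hyx : y ≠ x := Finset.ne_of_mem_erase hy0
        have hz0x : z0 ≠ x := Finset.ne_of_mem_erase hz00
        have hyM : y ∈ M := hT0M hyT
        have hz0M : z0 ∈ M := hT0M hz0T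
        have hT0eq : T0 = insert x {y, z0} := by
          rw [← hpair', Finset.insert_erase hx0]
        have hxnot : x ∉ ({y, z0} : Finset ℕ) := by
          intro h
          rw [Finset.mem_insert, Finset.mem_singleton] at h
          rcases h with h | h
          · exact hyx h.symm
          · exact hz0x h.symm
        have hsum0 : wt x + wt y + wt z0 ≤ C := by
          have h4 := (h1 T0 hT0).2
          rw [hT0eq, Finset.sum_insert hxnot, Finset.sum_pair (ne_of_lt hyz0)] at h4
          omega
        have hpack' := Vale.Agent.Lib.Helper8.P302Dead.packable_sdiff wt C M P h1 h2 h3 T0 hT0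
        rw [hT0eq] at hpack'
        have hset : M \ insert x {y, z0} = ((M.erase x).erase y).erase z0 := by
          ext i
          simp only [Finset.mem_sdiff, Finset.mem_insert, Finset.mem_singleton, Finset.mem_erase]
          tauto
        rw [hset] at hpack'
        exact ⟨(y, z0), hSmem y z0 ⟨hyM, hz0M, hyz0, hyx, hz0x, hsum0, hpack'⟩⟩
      obtain ⟨p, hpS, hpmax⟩ := Finset.exists_max_image S (fun p => p.1 + p.2) hSne
      obtain ⟨y, z⟩ := p
      have hq : Q y z := by
        rw [hS, Finset.mem_filter] at hpS
        exact hpS.2
      obtain ⟨hyM, hzM, hyz, hyx, hzx, hfeas, hpk⟩ := hq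
      have hmaxQ : ∀ y' z', Q y' z' → y' + z' ≤ y + z := fun y' z' hq' =>
        hpmax (y', z') (hSmem y' z' hq')
      set A := ((M.erase x).erase y).erase z with hA
      have hzA : z ∉ A := by
        rw [hA]
        exact Finset.notMem_erase z _
      have hyA : y ∉ A := by
        rw [hA]
        intro h
        have h1 := Finset.mem_of_mem_erase h
        exact Finset.notMem_erase y _ h1
      have hzmax : ∀ z' ∈ M, z < z' → z' ≠ x → C < wt x + wt y + wt z' := by
        intro z' hz'M hzz' hz'x
        by_contra hcon
        push Not at hcon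
        have hz'A : z' ∈ A := by
          rw [hA, Finset.mem_erase, Finset.mem_erase, Finset.mem_erase]
          exact ⟨by omega, by omega, hz'x, hz'M⟩
        have hrep := packable_replace wt C N hmono A z z' hzA hz'A (le_of_lt hzz') (hN z' hz'M) hpk
        have hset : insert z (A.erase z') = ((M.erase x).erase y).erase z' := by
          ext i
          simp only [hA, Finset.mem_insert, Finset.mem_erase]
          constructor
          · rintro (h | h)
            · rw [h]
              exact ⟨by omega, by omega, hzx, hzM⟩
            · exact ⟨h.1, h.2.2.1, h.2.2.2.1, h.2.2.2.2⟩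
          · rintro ⟨h1, h2, h3, h4⟩
            by_cases hiz : i = z
            · exact Or.inl hiz
            · exact Or.inr ⟨h1, hiz, h2, h3, h4⟩
        rw [hset] at hrep
        have := hmaxQ y z' ⟨hyM, hz'M, lt_trans hyz hzz', hyx, hz'x, hcon, hrep⟩
        omega
      have hymax : ∀ y' ∈ M, y < y' → y' ≠ x → y' ≠ z → C < wt x + wt y' + wt z := by
        intro y' hy'M hyy' hy'x hy'z
        by_contra hcon
        push Not at hcon
        have hy'A : y' ∈ A := by
          rw [hA, Finset.mem_erase, Finset.mem_erase, Finset.mem_erase]
          exact ⟨hy'z, by omega, hy'x, hy'M⟩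
        have hrep := packable_replace wt C N hmono A y y' hyA hy'A (le_of_lt hyy') (hN y' hy'M) hpk
        rcases lt_or_gt_of_ne hy'z with hlt | hgt
        · have hset : insert y (A.erase y') = ((M.erase x).erase y').erase z := by
            ext i
            simp only [hA, Finset.mem_insert, Finset.mem_erase]
            constructor
            · rintro (h | h)
              · rw [h]
                exact ⟨by omega, by omega, hyx, hyM⟩
              · exact ⟨h.2.1, h.1, h.2.2.2.1, h.2.2.2.2⟩
            · rintro ⟨h1, h2, h3, h4⟩
              by_cases hiy : i = y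
              · exact Or.inl hiy
              · exact Or.inr ⟨h2, h1, hiy, h3, h4⟩
          rw [hset] at hrep
          have := hmaxQ y' z ⟨hy'M, hzM, hlt, hy'x, hzx, hcon, hrep⟩
          omega
        · have hset : insert y (A.erase y') = ((M.erase x).erase z).erase y' := by
            ext i
            simp only [hA, Finset.mem_insert, Finset.mem_erase]
            constructor
            · rintro (h | h)
              · rw [h]
                exact ⟨by omega, by omega, hyx, hyM⟩
              · exact ⟨h.1, h.2.1, h.2.2.2.1, h.2.2.2.2⟩
            · rintro ⟨h1, h2, h3, h4⟩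
              by_cases hiy : i = y
              · exact Or.inl hiy
              · exact Or.inr ⟨h1, h2, hiy, h3, h4⟩
          rw [hset] at hrep
          have := hmaxQ z y' ⟨hzM, hy'M, hgt, hzx, hy'x, by omega, hrep⟩
          omega
      have hD' := hstep y hyM z hzM hyz hyx hzx hfeas hzmax hymax
      have hlt : (((M.erase x).erase y).erase z).card < n := by
        rw [← hcard]
        apply Finset.card_lt_card
        refine Finset.ssubset_of_subset_of_ssubset ?_ (Finset.erase_ssubset hxM)
        exact (Finset.erase_subset _ _).trans (Finset.erase_subset _ _)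
      exact ih _ hlt _ rfl hD' hpk
  intro M hDM
  exact key M.card M rfl hDM

end Vale.Agent.Lib.Helper8.P302Dead3
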