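import Vale.Agent.Lib.Helper8.P302Cert5
import Vale.Agent.Lib.Helper8.P302Dead3

/-!
A sixth checker for dead-state certificates: as the fifth one, but every state names its own
pivot (any index of the state, in practice the largest or the smallest one), and all fields
of the hints and of the table of thresholds have sixteen binary digits.
-/

namespace Vale.Agent.Lib.Helper8.P302Cert6

open Finset Vale.Agent.Lib.Helper3.BinPacking Vale.Agent.Lib.Helper8.P302Cert
open Vale.Agent.Lib.Helper8.P302Cert3
open Vale.Agent.Lib.Helper8.P302Cert4 (sel sel_true sel_false sel_spec low_spec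
  log2_of_shiftRight_eq_one shiftRight_log2 wAt packOk entryOk tblOk5)
open Vale.Agent.Lib.Helper8.P302Cert5 (partnersF partnersF_eq stepY stepY2 Stop Checked PTree
  hasP mem_of_hasP tblOkF thr_of_tblOkF RTree rowOf)

/-- The scan over the candidates, from the bottom; `h` holds the hints, two per candidate,
sixteen binary digits each. -/
noncomputable def scanW (lk : ℕ → Bool) (thr : ℕ → ℕ → ℕ) (x m0 : ℕ) (fuel : ℕ) : ℕ → ℕ → Bool :=
  Nat.rec (motive := fun _ => ℕ → ℕ → Bool) (fun r _ => Nat.beq r 0)
    (fun _ ih r h => sel (Nat.beq r 0) true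
      (stepY lk thr x m0 r (Nat.land h 65535) (Nat.land (Nat.shiftRight h 16) 65535)
        (ih (Nat.xor r (Nat.pow 2 (Nat.land h 65535))) (Nat.shiftRight h 32)))) fuel

theorem scanW_zero (lk : ℕ → Bool) (thr : ℕ → ℕ → ℕ) (x m0 r h : ℕ) :
    scanW lk thr x m0 0 r h = Nat.beq r 0 := rfl

theorem scanW_succ (lk : ℕ → Bool) (thr : ℕ → ℕ → ℕ) (x m0 f r h : ℕ) :
    scanW lk thr x m0 (f + 1) r h = sel (Nat.beq r 0) true
      (stepY lk thr x m0 r (Nat.land h 65535) (Nat.land (Nat.shiftRight h 16) 65535)
        (scanW lk thr x m0 f (Nat.xor r (Nat.pow 2 (Nat.land h 65535)))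
          (Nat.shiftRight h 32))) := rfl

theorem scanW_spec (lk : ℕ → Bool) (thr : ℕ → ℕ → ℕ) (x m0 : ℕ) : ∀ (fuel r h : ℕ),
    scanW lk thr x m0 fuel r h = true → ∀ y0 ∈ bits r, Checked lk thr x m0 y0 ∨
      ∃ y' ∈ bits r, y' ≤ y0 ∧ Stop thr x m0 y'
  | 0, r, h, hs, y0, hy0 => by
    rw [scanW_zero] at hs
    have hr : r = 0 := Nat.eq_of_beq_eq_true hs
    rw [hr, mem_bits] at hy0
    simp at hy0
  | f + 1, r, h, hs, y0, hy0 => by
    rw [scanW_succ] at hs
    have hr : r ≠ 0 := by
      intro h0
      rw [h0, mem_bits] at hy0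
      simp at hy0
    rw [beq_zero_false hr, sel_false] at hs
    set y := Nat.land h 65535 with hy
    set z := Nat.land (Nat.shiftRight h 16) 65535 with hz
    unfold stepY at hs
    rcases sel_spec hs with ⟨hlow, hs2⟩ | ⟨_, hs2⟩
    swap
    · exact absurd hs2 (by simp)
    have hlow' : r &&& (2 ^ (y + 1) - 1) = 2 ^ y := Nat.eq_of_beq_eq_true hlow
    obtain ⟨hyr, hymin⟩ := low_spec hlow'
    unfold stepY2 at hs2
    set c := partnersF thr x m0 y with hc
    rcases sel_spec hs2 with ⟨hc0, _⟩ | ⟨hc0, hs3⟩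
    · -- no partner: stop
      have : c = 0 := Nat.eq_of_beq_eq_true hc0
      exact Or.inr ⟨y, hyr, hymin y0 hy0, Or.inl this⟩
    · rcases sel_spec hs3 with ⟨hztop, hs4⟩ | ⟨_, hs4⟩
      swap
      · exact absurd hs4 (by simp)
      have hztop' : c >>> z = 1 := Nat.eq_of_beq_eq_true hztop
      obtain ⟨hcne, hlogc⟩ := log2_of_shiftRight_eq_one hztop'
      rcases sel_spec hs4 with ⟨hyz, hs5⟩ | ⟨hyz, _⟩
      swap
      · -- the largest partner is not above `y`: stop
        have hzy : z ≤ y := by
          by_contra hcon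
          push Not at hcon
          have : Nat.ble (Nat.succ y) z = true := Nat.ble_eq_true_of_le hcon
          rw [this] at hyz
          exact absurd hyz (by simp)
        exact Or.inr ⟨y, hyr, hymin y0 hy0, Or.inr (by rw [hlogc]; exact hzy)⟩
      · -- the candidate is checked, the scan goes on
        have hrest : scanW lk thr x m0 f (Nat.xor r (Nat.pow 2 y)) (Nat.shiftRight h 32) = true ∧
            (Nat.beq (Nat.shiftRight (partnersF thr x m0 z) y) 1 = true →
              lk (Nat.xor (Nat.xor m0 (Nat.pow 2 y)) (Nat.pow 2 z)) = true) := by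
          rcases sel_spec hs5 with ⟨ht, hs6⟩ | ⟨ht, hs6⟩
          · rcases sel_spec hs6 with ⟨hh, hs7⟩ | ⟨_, hs7⟩
            · exact ⟨hs7, fun _ => hh⟩
            · exact absurd hs7 (by simp)
          · refine ⟨hs6, fun ht' => ?_⟩
            rw [ht] at ht'
            exact absurd ht' (by simp)
        obtain ⟨hsc, hpar⟩ := hrest
        by_cases hy0y : y0 = y
        · left
          rw [hy0y]
          intro hshift
          rw [← hc, hlogc] at hshift ⊢
          have hb : Nat.beq (Nat.shiftRight (partnersF thr x m0 z) y) 1 = true := by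
            have e : Nat.shiftRight (partnersF thr x m0 z) y = partnersF thr x m0 z >>> y := rfl
            rw [e, hshift]
            rfl
          exact hpar hb
        · have e : Nat.xor r (Nat.pow 2 y) = r ^^^ 2 ^ y := rfl
          rw [e] at hsc
          have hb : bits (r ^^^ 2 ^ y) = (bits r).erase y := bits_xor_pow (mem_bits.1 hyr)
          have hy0' : y0 ∈ bits (r ^^^ 2 ^ y) := by
            rw [hb, Finset.mem_erase]
            exact ⟨hy0y, hy0⟩
          rcases scanW_spec lk thr x m0 f _ _ hsc y0 hy0' with h1 | ⟨y', hy'1, hy'2, hy'3⟩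
          · exact Or.inl h1
          · rw [hb] at hy'1
            exact Or.inr ⟨y', Finset.mem_of_mem_erase hy'1, hy'2, hy'3⟩

/-- The check of one state `m` with its hint `h`: the state has no index from `N` on, the
lowest sixteen binary digits of `h` give the pivot, an index of the state, and the rest are
the hints for the scan. -/
noncomputable def stateOk6 (N : ℕ) (thr : ℕ → ℕ → ℕ) (lk : ℕ → Bool) (m h : ℕ) : Bool :=
  sel (Nat.beq (Nat.shiftRight m N) 0)
    (sel (Nat.beq (Nat.land (Nat.shiftRight m (Nat.land h 65535)) 1) 1)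
      (scanW lk thr (Nat.land h 65535) (Nat.xor m (Nat.pow 2 (Nat.land h 65535)))
        N (Nat.xor m (Nat.pow 2 (Nat.land h 65535))) (Nat.shiftRight h 16))
      false)
    false

theorem lt_pow_of_shiftRight_eq_zero {m N : ℕ} (h : m >>> N = 0) : m < 2 ^ N := by
  rw [Nat.shiftRight_eq_div_pow] at h
  by_contra hcon
  push Not at hcon
  have : 0 < m / 2 ^ N := Nat.div_pos hcon (Nat.two_pow_pos N)
  omega

theorem testBit_of_shiftRight_and_one {m x : ℕ} (h : (m >>> x) &&& 1 = 1) :
    m.testBit x = true := by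
  rw [Nat.and_one_is_mod, Nat.shiftRight_eq_div_pow] at h
  rw [Nat.testBit_eq_decide_div_mod_eq]
  simp [h]

/-- **Soundness of the checker with an arbitrary pivot and an arbitrary lookup function**,
given the meaning of the thresholds. -/
theorem not_packable_of_lookup6 (ws : List ℕ) (C N : ℕ) (thr : ℕ → ℕ → ℕ) (lk : ℕ → Bool)
    (Mem : ℕ → ℕ → Prop) (hlk : ∀ k, lk k = true → ∃ h, Mem k h)
    (hN : N ≤ ws.length) (hsorted : ws.Pairwise (fun a b => a ≤ b))
    (hthr0 : ∀ x, x < N → ∀ y, y < N → y ≠ x → ∀ i, i < N →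
      (ws.getD x 0 + ws.getD y 0 + ws.getD i 0 ≤ C ↔ i < thr x y))
    (hall : ∀ m h, Mem m h → stateOk6 N thr lk m h = true)
    (hroot : lk (Nat.sub (Nat.pow 2 N) 1) = true) :
    ¬ Packable (fun i => ws.getD i 0) C (Finset.range N) := by
  classical
  set wt : ℕ → ℕ := fun i => ws.getD i 0 with hwt
  have hmono : ∀ i j, i ≤ j → j < N → wt i ≤ wt j := by
    intro i j hij hj
    rcases Nat.eq_or_lt_of_le hij with heq | hlt
    · rw [heq]
    · have hj' : j < ws.length := by omega
      have hi' : i < ws.length := by omega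
      simp only [hwt]
      rw [List.getD_eq_getElem _ _ hi', List.getD_eq_getElem _ _ hj']
      exact List.pairwise_iff_getElem.1 hsorted i j hi' hj' hlt
  have hthr : ∀ x, x < N → ∀ y, y < N → y ≠ x → ∀ i, i < N →
      (wt x + wt y + wt i ≤ C ↔ i < thr x y) := hthr0
  apply Vale.Agent.Lib.Helper8.P302Dead3.not_packable_of_dead_any wt C N hmono
    (fun M => ∃ m h, Mem m h ∧ bits m = M)
  · rintro M ⟨m, h, hmT, rfl⟩
    have hst := hall m h hmT
    unfold stateOk6 at hst
    set x := Nat.land h 65535 with hx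
    rcases sel_spec hst with ⟨hmN', hst2⟩ | ⟨_, hst2⟩
    swap
    · exact absurd hst2 (by simp)
    rcases sel_spec hst2 with ⟨hxbit, hscan⟩ | ⟨_, hst3⟩
    swap
    · exact absurd hst3 (by simp)
    have hmN : m < 2 ^ N := lt_pow_of_shiftRight_eq_zero (Nat.eq_of_beq_eq_true hmN')
    have hxb : m.testBit x = true :=
      testBit_of_shiftRight_and_one (Nat.eq_of_beq_eq_true hxbit)
    have hxmem : x ∈ bits m := mem_bits.2 hxb
    have hxN : x < N := bits_lt hmN hxmem
    have e0 : Nat.xor m (Nat.pow 2 x) = m ^^^ 2 ^ x := rfl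
    rw [e0] at hscan
    set m0 := m ^^^ 2 ^ x with hm0def
    have hb0 : bits m0 = (bits m).erase x := bits_xor_pow hxb
    have hne0 : ∀ i, i ∈ bits m0 → i ≠ x := by
      intro i hi
      rw [hb0, Finset.mem_erase] at hi
      exact hi.1
    have hmemM : ∀ i, i ∈ bits m0 → i ∈ bits m := by
      intro i hi
      rw [hb0] at hi
      exact Finset.mem_of_mem_erase hi
    have hltN : ∀ i, i ∈ bits m0 → i < N := fun i hi => bits_lt hmN (hmemM i hi)
    have hpart : ∀ z, z ∈ bits m0 → ∀ i, (i ∈ bits (partnersF thr x m0 z) ↔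
        i ∈ bits m0 ∧ i ≠ z ∧ wt x + wt z + wt i ≤ C) := by
      intro z hz i
      rw [partnersF_eq, bits_and_mask, Finset.mem_filter, bits_xor_pow (mem_bits.1 hz),
        Finset.mem_erase]
      constructor
      · rintro ⟨⟨h1, h2⟩, h3⟩
        exact ⟨h2, h1, (hthr x hxN z (hltN z hz) (hne0 z hz) i (hltN i h2)).2 h3⟩
      · rintro ⟨h1, h2, h3⟩
        exact ⟨⟨h2, h1⟩, (hthr x hxN z (hltN z hz) (hne0 z hz) i (hltN i h1)).1 h3⟩
    refine ⟨fun i hi => bits_lt hmN hi, x, hxmem, ?_⟩
    intro y hy z hz hyz hyx hzx hfeas hzmax hymax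
    have hy0 : y ∈ bits m0 := by
      rw [hb0, Finset.mem_erase]
      exact ⟨hyx, hy⟩
    have hz0 : z ∈ bits m0 := by
      rw [hb0, Finset.mem_erase]
      exact ⟨hzx, hz⟩
    rcases scanW_spec lk thr x m0 N m0 _ hscan y hy0 with hck | ⟨y', hy'0, hy'y, hstop⟩
    · -- the check at `y`
      set c := partnersF thr x m0 y with hc
      have hzc : z ∈ bits c := (hpart y hy0 z).2 ⟨hz0, ne_of_gt hyz, hfeas⟩
      have hc0 : c ≠ 0 := by
        intro h0
        rw [h0, mem_bits] at hzc
        simp at hzc
      have hlogc : c.log2 = z := by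
        have h1 : c.log2 ∈ bits c := log2_mem_bits hc0
        have h2 : z ≤ c.log2 := le_log2_of_mem_bits hzc
        obtain ⟨h3, h4, h5⟩ := (hpart y hy0 c.log2).1 h1
        by_contra hne
        have hlt : z < c.log2 := lt_of_le_of_ne h2 (fun h => hne h.symm)
        have := hzmax c.log2 (hmemM _ h3) hlt (hne0 _ h3)
        omega
      unfold Checked at hck
      rw [← hc, hlogc] at hck
      set c2 := partnersF thr x m0 z with hc2
      have hyc2 : y ∈ bits c2 := (hpart z hz0 y).2 ⟨hy0, ne_of_lt hyz, by omega⟩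
      have hc20 : c2 ≠ 0 := by
        intro h0
        rw [h0, mem_bits] at hyc2
        simp at hyc2
      have hlogc2 : c2.log2 = y := by
        have h1 : c2.log2 ∈ bits c2 := log2_mem_bits hc20
        have h2 : y ≤ c2.log2 := le_log2_of_mem_bits hyc2
        obtain ⟨h3, h4, h5⟩ := (hpart z hz0 c2.log2).1 h1
        by_contra hne
        have hlt : y < c2.log2 := lt_of_le_of_ne h2 (fun h => hne h.symm)
        have := hymax c2.log2 (hmemM _ h3) hlt (hne0 _ h3) h4
        omega
      have hshift : c2 >>> y = 1 := by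
        have := shiftRight_log2 hc20
        rw [hlogc2] at this
        exact this
      obtain ⟨hh, hmem⟩ := hlk _ (hck hshift)
      refine ⟨(m0 ^^^ 2 ^ y) ^^^ 2 ^ z, hh, hmem, ?_⟩
      have hz1 : (m0 ^^^ 2 ^ y).testBit z = true := by
        rw [← mem_bits, bits_xor_pow (mem_bits.1 hy0), Finset.mem_erase]
        exact ⟨ne_of_gt hyz, hz0⟩
      rw [bits_xor_pow hz1, bits_xor_pow (mem_bits.1 hy0), hb0]
    · -- a stop at `y' ≤ y` contradicts the fact that `z` is a partner above `y`
      exfalso
      have hyN : y < N := bits_lt hmN hy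
      have hwy : wt y' ≤ wt y := hmono y' y hy'y hyN
      have hzc' : z ∈ bits (partnersF thr x m0 y') :=
        (hpart y' hy'0 z).2 ⟨hz0, by omega, by omega⟩
      have hc'0 : partnersF thr x m0 y' ≠ 0 := by
        intro h0
        rw [h0, mem_bits] at hzc'
        simp at hzc'
      have hle : z ≤ (partnersF thr x m0 y').log2 := le_log2_of_mem_bits hzc'
      rcases hstop with h0 | hlt
      · exact hc'0 h0
      · omega
  · have e4 : Nat.sub (Nat.pow 2 N) 1 = 2 ^ N - 1 := rfl
    rw [e4] at hroot
    obtain ⟨hh, hmem⟩ := hlk _ hroot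
    exact ⟨2 ^ N - 1, hh, hmem, bits_full N⟩

/-- The threshold of two indices in any order, from a function that is meaningful only when
its second argument is the smaller one. -/
noncomputable def thrS (thr : ℕ → ℕ → ℕ) (x y : ℕ) : ℕ :=
  Bool.rec (motive := fun _ => ℕ) (thr y x) (thr x y) (Nat.ble (Nat.succ y) x)

theorem thrS_spec (ws : List ℕ) (C N : ℕ) (thr : ℕ → ℕ → ℕ)
    (h : ∀ x, x < N → ∀ y, y < x → ∀ i, i < N →
      (ws.getD x 0 + ws.getD y 0 + ws.getD i 0 ≤ C ↔ i < thr x y)) :
    ∀ x, x < N → ∀ y, y < N → y ≠ x → ∀ i, i < N →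
      (ws.getD x 0 + ws.getD y 0 + ws.getD i 0 ≤ C ↔ i < thrS thr x y) := by
  intro x hx y hy hne i hi
  unfold thrS
  by_cases hyx : y < x
  · have e : Nat.ble (Nat.succ y) x = true := Nat.ble_eq_true_of_le hyx
    rw [e]
    exact h x hx y hyx i hi
  · have hxy : x < y := by omega
    have e : Nat.ble (Nat.succ y) x = false := by
      cases hb : Nat.ble (Nat.succ y) x with
      | false => rfl
      | true =>
        have := Nat.le_of_ble_eq_true hb
        omega
    rw [e]
    have h2 := h y hy x hxy i hi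
    rw [← h2]
    constructor <;> intro h3 <;> omega

/-- The threshold function read from a tree of rows, sixteen binary digits per entry. -/
noncomputable def thrR16 (t : RTree) (d x y : ℕ) : ℕ :=
  Nat.land (Nat.shiftRight (rowOf t d x) (Nat.mul 16 y)) 65535

/-- **Soundness of the sixth checker**: packed search tree, a pivot for every state,
thresholds in a tree of rows validated by neighbouring weights. -/
theorem not_packable_of_cert7 (ws : List ℕ) (C N wp W KM KW d : ℕ) (R : RTree) (T : PTree)
    (hN : N ≤ ws.length) (hsorted : ws.Pairwise (fun a b => a ≤ b))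
    (htbl : tblOkF ws C N (thrR16 R d) wp W = true)
    (hall : ∀ m h, PTree.MemP KM KW m h T →
      stateOk6 N (thrS (thrR16 R d)) (hasP KM T) m h = true)
    (hroot : hasP KM T (Nat.sub (Nat.pow 2 N) 1) = true) :
    ¬ Packable (fun i => ws.getD i 0) C (Finset.range N) :=
  not_packable_of_lookup6 ws C N (thrS (thrR16 R d)) (hasP KM T)
    (fun m h => PTree.MemP KM KW m h T)
    (fun k hk => mem_of_hasP KM KW k T hk) hN hsorted
    (thrS_spec ws C N (thrR16 R d) (thr_of_tblOkF ws C N (thrR16 R d) wp W hN hsorted htbl))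
    hall hroot

end Vale.Agent.Lib.Helper8.P302Cert6
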