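import Vale.Agent.Lib.Helper8.P302Cert6

/-!
A seventh checker for dead-state certificates: as the sixth one (a pivot for every state,
fields of sixteen binary digits), but the scan handles a whole block of candidates in one step:
if `z` is the largest feasible partner of the smallest candidate `y` and `y'` is the largest
feasible partner of `z`, then no candidate from `y` to `y'` other than `y'` has to be followed.
-/

namespace Vale.Agent.Lib.Helper8.P302Cert7

open Finset Vale.Agent.Lib.Helper3.BinPacking Vale.Agent.Lib.Helper8.P302Cert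
open Vale.Agent.Lib.Helper8.P302Cert3
open Vale.Agent.Lib.Helper8.P302Cert4 (sel sel_true sel_false sel_spec low_spec
  log2_of_shiftRight_eq_one shiftRight_log2 wAt packOk entryOk tblOk5)
open Vale.Agent.Lib.Helper8.P302Cert5 (partnersF partnersF_eq Stop PTree
  hasP mem_of_hasP tblOkF thr_of_tblOkF RTree rowOf)
open Vale.Agent.Lib.Helper8.P302Cert6 (lt_pow_of_shiftRight_eq_zero
  testBit_of_shiftRight_and_one thrS thrS_spec thrR16)

/-- The second part of a step of the block scan: `c` codes the feasible partners of `y`, the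
hint `z` is the largest of them, the hint `y'` is the largest feasible partner of `z`. -/
noncomputable def stepZ2 (lk : ℕ → Bool) (thr : ℕ → ℕ → ℕ) (x m0 y z y' c : ℕ) (rest : Bool) :
    Bool :=
  sel (Nat.beq c 0) true
    (sel (Nat.beq (Nat.shiftRight c z) 1)
      (sel (Nat.ble (Nat.succ y) z)
        (sel (Nat.beq (Nat.shiftRight (partnersF thr x m0 z) y') 1)
          (sel (Nat.ble (Nat.succ y') z)
            (sel (lk (Nat.xor (Nat.xor m0 (Nat.pow 2 y')) (Nat.pow 2 z))) rest false)
            false)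
          false)
        true)
      false)

/-- A step of the block scan: the hint `y` is the smallest candidate left in `r`. -/
noncomputable def stepZ (lk : ℕ → Bool) (thr : ℕ → ℕ → ℕ) (x m0 r y z y' : ℕ) (rest : Bool) :
    Bool :=
  sel (Nat.beq (Nat.land r (Nat.sub (Nat.pow 2 (Nat.succ y)) 1)) (Nat.pow 2 y))
    (stepZ2 lk thr x m0 y z y' (partnersF thr x m0 y) rest) false

/-- The block scan over the candidates, from the bottom; `h` holds the hints, three per step,
sixteen binary digits each. After a step all candidates up to `y'` are dropped. -/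
noncomputable def scanZ (lk : ℕ → Bool) (thr : ℕ → ℕ → ℕ) (x m0 : ℕ) (fuel : ℕ) : ℕ → ℕ → Bool :=
  Nat.rec (motive := fun _ => ℕ → ℕ → Bool) (fun r _ => Nat.beq r 0)
    (fun _ ih r h => sel (Nat.beq r 0) true
      (stepZ lk thr x m0 r (Nat.land h 65535) (Nat.land (Nat.shiftRight h 16) 65535)
        (Nat.land (Nat.shiftRight h 32) 65535)
        (ih (Nat.shiftLeft (Nat.shiftRight r (Nat.succ (Nat.land (Nat.shiftRight h 32) 65535)))
            (Nat.succ (Nat.land (Nat.shiftRight h 32) 65535)))
          (Nat.shiftRight h 48)))) fuel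

theorem scanZ_zero (lk : ℕ → Bool) (thr : ℕ → ℕ → ℕ) (x m0 r h : ℕ) :
    scanZ lk thr x m0 0 r h = Nat.beq r 0 := rfl

theorem scanZ_succ (lk : ℕ → Bool) (thr : ℕ → ℕ → ℕ) (x m0 f r h : ℕ) :
    scanZ lk thr x m0 (f + 1) r h = sel (Nat.beq r 0) true
      (stepZ lk thr x m0 r (Nat.land h 65535) (Nat.land (Nat.shiftRight h 16) 65535)
        (Nat.land (Nat.shiftRight h 32) 65535)
        (scanZ lk thr x m0 f
          (Nat.shiftLeft (Nat.shiftRight r (Nat.succ (Nat.land (Nat.shiftRight h 32) 65535)))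
            (Nat.succ (Nat.land (Nat.shiftRight h 32) 65535)))
          (Nat.shiftRight h 48))) := rfl

/-- The block of the candidate `y` has been checked and reaches up to `y0`: with `z` the
largest feasible partner of `y` and `y'` the largest feasible partner of `z`, the state
without `y'` and `z` is in the certificate, and `y0 ≤ y' < z`. -/
def Block (lk : ℕ → Bool) (thr : ℕ → ℕ → ℕ) (x m0 y y0 : ℕ) : Prop :=
  ∃ z y', partnersF thr x m0 y ≠ 0 ∧ Nat.log2 (partnersF thr x m0 y) = z ∧ y < z ∧
    partnersF thr x m0 z ≠ 0 ∧ Nat.log2 (partnersF thr x m0 z) = y' ∧ y' < z ∧ y0 ≤ y' ∧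
    lk ((m0 ^^^ 2 ^ y') ^^^ 2 ^ z) = true

theorem mem_bits_trunc {r s i : ℕ} : i ∈ bits ((r >>> s) <<< s) ↔ i ∈ bits r ∧ s ≤ i := by
  rw [mem_bits, mem_bits, Nat.testBit_shiftLeft, Nat.testBit_shiftRight]
  by_cases h : s ≤ i
  · have e : s + (i - s) = i := by omega
    simp [h, e]
  · simp [h]

theorem scanZ_spec (lk : ℕ → Bool) (thr : ℕ → ℕ → ℕ) (x m0 : ℕ) : ∀ (fuel r h : ℕ),
    scanZ lk thr x m0 fuel r h = true → ∀ y0 ∈ bits r,
      ∃ y ∈ bits r, y ≤ y0 ∧ (Stop thr x m0 y ∨ Block lk thr x m0 y y0)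
  | 0, r, h, hs, y0, hy0 => by
    rw [scanZ_zero] at hs
    have hr : r = 0 := Nat.eq_of_beq_eq_true hs
    rw [hr, mem_bits] at hy0
    simp at hy0
  | f + 1, r, h, hs, y0, hy0 => by
    rw [scanZ_succ] at hs
    have hr : r ≠ 0 := by
      intro h0
      rw [h0, mem_bits] at hy0
      simp at hy0
    rw [beq_zero_false hr, sel_false] at hs
    set y := Nat.land h 65535 with hy
    set z := Nat.land (Nat.shiftRight h 16) 65535 with hz
    set y' := Nat.land (Nat.shiftRight h 32) 65535 with hy'
    unfold stepZ at hs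
    rcases sel_spec hs with ⟨hlow, hs2⟩ | ⟨_, hs2⟩
    swap
    · exact absurd hs2 (by simp)
    have hlow' : r &&& (2 ^ (y + 1) - 1) = 2 ^ y := Nat.eq_of_beq_eq_true hlow
    obtain ⟨hyr, hymin⟩ := low_spec hlow'
    unfold stepZ2 at hs2
    set c := partnersF thr x m0 y with hc
    rcases sel_spec hs2 with ⟨hc0, _⟩ | ⟨hc0, hs3⟩
    · -- no partner: stop
      have : c = 0 := Nat.eq_of_beq_eq_true hc0
      exact ⟨y, hyr, hymin y0 hy0, Or.inl (Or.inl this)⟩
    · rcases sel_spec hs3 with ⟨hztop, hs4⟩ | ⟨_, hs4⟩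
      swap
      · exact absurd hs4 (by simp)
      have hztop' : c >>> z = 1 := Nat.eq_of_beq_eq_true hztop
      obtain ⟨hcne, hlogc⟩ := log2_of_shiftRight_eq_one hztop'
      rcases sel_spec hs4 with ⟨hyz, hs5⟩ | ⟨hyz, _⟩
      swap
      · -- the largest partner is not above `y`: stop
        have hzy : z ≤ y := by
          by_contra hcon
          push Not at hcon
          have : Nat.ble (Nat.succ y) z = true := Nat.ble_eq_true_of_le hcon
          rw [this] at hyz
          exact absurd hyz (by simp)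
        exact ⟨y, hyr, hymin y0 hy0, Or.inl (Or.inr (by rw [hlogc]; exact hzy))⟩
      · have hyz' : y < z := Nat.le_of_ble_eq_true hyz
        rcases sel_spec hs5 with ⟨hy'top, hs6⟩ | ⟨_, hs6⟩
        swap
        · exact absurd hs6 (by simp)
        have hy'top' : partnersF thr x m0 z >>> y' = 1 := Nat.eq_of_beq_eq_true hy'top
        obtain ⟨hc2ne, hlogc2⟩ := log2_of_shiftRight_eq_one hy'top'
        rcases sel_spec hs6 with ⟨hy'z, hs7⟩ | ⟨_, hs7⟩
        swap
        · exact absurd hs7 (by simp)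
        have hy'z' : y' < z := Nat.le_of_ble_eq_true hy'z
        rcases sel_spec hs7 with ⟨hlkt, hrest⟩ | ⟨_, hs8⟩
        swap
        · exact absurd hs8 (by simp)
        by_cases hle : y0 ≤ y'
        · exact ⟨y, hyr, hymin y0 hy0,
            Or.inr ⟨z, y', hcne, hlogc, hyz', hc2ne, hlogc2, hy'z', hle, hlkt⟩⟩
        · have e : Nat.shiftLeft (Nat.shiftRight r (Nat.succ y')) (Nat.succ y')
              = (r >>> (y' + 1)) <<< (y' + 1) := rfl
          rw [e] at hrest
          have hy0' : y0 ∈ bits ((r >>> (y' + 1)) <<< (y' + 1)) :=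
            mem_bits_trunc.2 ⟨hy0, by omega⟩
          obtain ⟨y1, hy1, hy1y, hres⟩ := scanZ_spec lk thr x m0 f _ _ hrest y0 hy0'
          exact ⟨y1, (mem_bits_trunc.1 hy1).1, hy1y, hres⟩

/-- The check of one state `m` with its hint `h`: the state has no index from `N` on, the
lowest sixteen binary digits of `h` give the pivot, an index of the state, and the rest are
the hints for the block scan. -/
noncomputable def stateOk7 (N : ℕ) (thr : ℕ → ℕ → ℕ) (lk : ℕ → Bool) (m h : ℕ) : Bool :=
  sel (Nat.beq (Nat.shiftRight m N) 0)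
    (sel (Nat.beq (Nat.land (Nat.shiftRight m (Nat.land h 65535)) 1) 1)
      (scanZ lk thr (Nat.land h 65535) (Nat.xor m (Nat.pow 2 (Nat.land h 65535)))
        N (Nat.xor m (Nat.pow 2 (Nat.land h 65535))) (Nat.shiftRight h 16))
      false)
    false

/-- **Soundness of the checker with block scan, an arbitrary pivot and an arbitrary lookup
function**, given the meaning of the thresholds. -/
theorem not_packable_of_lookup7 (ws : List ℕ) (C N : ℕ) (thr : ℕ → ℕ → ℕ) (lk : ℕ → Bool)
    (Mem : ℕ → ℕ → Prop) (hlk : ∀ k, lk k = true → ∃ h, Mem k h)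
    (hN : N ≤ ws.length) (hsorted : ws.Pairwise (fun a b => a ≤ b))
    (hthr0 : ∀ x, x < N → ∀ y, y < N → y ≠ x → ∀ i, i < N →
      (ws.getD x 0 + ws.getD y 0 + ws.getD i 0 ≤ C ↔ i < thr x y))
    (hall : ∀ m h, Mem m h → stateOk7 N thr lk m h = true)
    (hroot : lk (Nat.sub (Nat.pow 2 N) 1) = true) :
    ¬ Packable (fun i => ws.getD i 0) C (Finset.range N) := by
  classical
  set wt : ℕ → ℕ := fun i => ws.getD i 0 with hwt
  have hmono : ∀ i j, i ≤ j → j < N → wt i ≤ wt j := by
    intro i j hij hj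
    rcases Nat.eq_or_lt_of_le hij with heq | hlt
    · rw [heq]
    · have hj' : j < ws.length := by omega
      have hi' : i < ws.length := by omega
      simp only [hwt]
      rw [List.getD_eq_getElem _ _ hi', List.getD_eq_getElem _ _ hj']
      exact List.pairwise_iff_getElem.1 hsorted i j hi' hj' hlt
  have hthr : ∀ x, x < N → ∀ y, y < N → y ≠ x → ∀ i, i < N →
      (wt x + wt y + wt i ≤ C ↔ i < thr x y) := hthr0
  apply Vale.Agent.Lib.Helper8.P302Dead3.not_packable_of_dead_any wt C N hmono
    (fun M => ∃ m h, Mem m h ∧ bits m = M)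
  · rintro M ⟨m, h, hmT, rfl⟩
    have hst := hall m h hmT
    unfold stateOk7 at hst
    set x := Nat.land h 65535 with hx
    rcases sel_spec hst with ⟨hmN', hst2⟩ | ⟨_, hst2⟩
    swap
    · exact absurd hst2 (by simp)
    rcases sel_spec hst2 with ⟨hxbit, hscan⟩ | ⟨_, hst3⟩
    swap
    · exact absurd hst3 (by simp)
    have hmN : m < 2 ^ N := lt_pow_of_shiftRight_eq_zero (Nat.eq_of_beq_eq_true hmN')
    have hxb : m.testBit x = true :=
      testBit_of_shiftRight_and_one (Nat.eq_of_beq_eq_true hxbit)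
    have hxmem : x ∈ bits m := mem_bits.2 hxb
    have hxN : x < N := bits_lt hmN hxmem
    have e0 : Nat.xor m (Nat.pow 2 x) = m ^^^ 2 ^ x := rfl
    rw [e0] at hscan
    set m0 := m ^^^ 2 ^ x with hm0def
    have hb0 : bits m0 = (bits m).erase x := bits_xor_pow hxb
    have hne0 : ∀ i, i ∈ bits m0 → i ≠ x := by
      intro i hi
      rw [hb0, Finset.mem_erase] at hi
      exact hi.1
    have hmemM : ∀ i, i ∈ bits m0 → i ∈ bits m := by
      intro i hi
      rw [hb0] at hi
      exact Finset.mem_of_mem_erase hi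
    have hltN : ∀ i, i ∈ bits m0 → i < N := fun i hi => bits_lt hmN (hmemM i hi)
    have hpart : ∀ z, z ∈ bits m0 → ∀ i, (i ∈ bits (partnersF thr x m0 z) ↔
        i ∈ bits m0 ∧ i ≠ z ∧ wt x + wt z + wt i ≤ C) := by
      intro z hz i
      rw [partnersF_eq, bits_and_mask, Finset.mem_filter, bits_xor_pow (mem_bits.1 hz),
        Finset.mem_erase]
      constructor
      · rintro ⟨⟨h1, h2⟩, h3⟩
        exact ⟨h2, h1, (hthr x hxN z (hltN z hz) (hne0 z hz) i (hltN i h2)).2 h3⟩
      · rintro ⟨h1, h2, h3⟩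
        exact ⟨⟨h2, h1⟩, (hthr x hxN z (hltN z hz) (hne0 z hz) i (hltN i h1)).1 h3⟩
    refine ⟨fun i hi => bits_lt hmN hi, x, hxmem, ?_⟩
    intro y hy z hz hyz hyx hzx hfeas hzmax hymax
    have hy0 : y ∈ bits m0 := by
      rw [hb0, Finset.mem_erase]
      exact ⟨hyx, hy⟩
    have hz0 : z ∈ bits m0 := by
      rw [hb0, Finset.mem_erase]
      exact ⟨hzx, hz⟩
    have hyN : y < N := bits_lt hmN hy
    obtain ⟨y1, hy1, hy1y, hstop | hblock⟩ := scanZ_spec lk thr x m0 N m0 _ hscan y hy0
    · -- a stop at `y1 ≤ y` contradicts the fact that `z` is a partner above `y`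
      exfalso
      have hwy : wt y1 ≤ wt y := hmono y1 y hy1y hyN
      have hzc' : z ∈ bits (partnersF thr x m0 y1) :=
        (hpart y1 hy1 z).2 ⟨hz0, by omega, by omega⟩
      have hc'0 : partnersF thr x m0 y1 ≠ 0 := by
        intro h0
        rw [h0, mem_bits] at hzc'
        simp at hzc'
      have hle : z ≤ (partnersF thr x m0 y1).log2 := le_log2_of_mem_bits hzc'
      rcases hstop with h0 | hlt
      · exact hc'0 h0
      · omega
    · -- the block of `y1` contains `y`: the pair is the one that was looked up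
      obtain ⟨z1, y2, hc0, hlog1, hy1z1, hc20, hlog2, hy2z1, hyy2, hlkt⟩ := hblock
      have hz1c : z1 ∈ bits (partnersF thr x m0 y1) := by
        rw [← hlog1]
        exact log2_mem_bits hc0
      obtain ⟨hz1m, hz1ne, hz1f⟩ := (hpart y1 hy1 z1).1 hz1c
      have hy2c : y2 ∈ bits (partnersF thr x m0 z1) := by
        rw [← hlog2]
        exact log2_mem_bits hc20
      obtain ⟨hy2m, hy2ne, hy2f⟩ := (hpart z1 hz1m y2).1 hy2c
      have hy2N : y2 < N := hltN y2 hy2m
      have hwy2 : wt y ≤ wt y2 := hmono y y2 hyy2 hy2N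
      have hwy1 : wt y1 ≤ wt y := hmono y1 y hy1y hyN
      have hzz1 : z = z1 := by
        by_contra hne
        have hzc1 : z ∈ bits (partnersF thr x m0 y1) :=
          (hpart y1 hy1 z).2 ⟨hz0, by omega, by omega⟩
        have hle : z ≤ z1 := by
          rw [← hlog1]
          exact le_log2_of_mem_bits hzc1
        have hlt : z < z1 := lt_of_le_of_ne hle hne
        have := hzmax z1 (hmemM _ hz1m) hlt (hne0 _ hz1m)
        omega
      have hyy : y = y2 := by
        by_contra hne
        have hlt : y < y2 := lt_of_le_of_ne hyy2 hne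
        have hy2z : y2 ≠ z := by
          rw [hzz1]
          exact hy2ne
        have := hymax y2 (hmemM _ hy2m) hlt (hne0 _ hy2m) hy2z
        rw [hzz1] at this
        omega
      obtain ⟨hh, hmem⟩ := hlk _ hlkt
      refine ⟨(m0 ^^^ 2 ^ y) ^^^ 2 ^ z, hh, ?_, ?_⟩
      · rw [hyy, hzz1]
        exact hmem
      · have hz1' : (m0 ^^^ 2 ^ y).testBit z = true := by
          rw [← mem_bits, bits_xor_pow (mem_bits.1 hy0), Finset.mem_erase]
          exact ⟨ne_of_gt hyz, hz0⟩
        rw [bits_xor_pow hz1', bits_xor_pow (mem_bits.1 hy0), hb0]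
  · have e4 : Nat.sub (Nat.pow 2 N) 1 = 2 ^ N - 1 := rfl
    rw [e4] at hroot
    obtain ⟨hh, hmem⟩ := hlk _ hroot
    exact ⟨2 ^ N - 1, hh, hmem, bits_full N⟩

/-- **Soundness of the seventh checker**: packed search tree, a pivot for every state, block
scan, thresholds in a tree of rows validated by neighbouring weights. -/
theorem not_packable_of_cert8 (ws : List ℕ) (C N wp W KM KW d : ℕ) (R : RTree) (T : PTree)
    (hN : N ≤ ws.length) (hsorted : ws.Pairwise (fun a b => a ≤ b))
    (htbl : tblOkF ws C N (thrR16 R d) wp W = true)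
    (hall : ∀ m h, PTree.MemP KM KW m h T →
      stateOk7 N (thrS (thrR16 R d)) (hasP KM T) m h = true)
    (hroot : hasP KM T (Nat.sub (Nat.pow 2 N) 1) = true) :
    ¬ Packable (fun i => ws.getD i 0) C (Finset.range N) :=
  not_packable_of_lookup7 ws C N (thrS (thrR16 R d)) (hasP KM T)
    (fun m h => PTree.MemP KM KW m h T)
    (fun k hk => mem_of_hasP KM KW k T hk) hN hsorted
    (thrS_spec ws C N (thrR16 R d) (thr_of_tblOkF ws C N (thrR16 R d) wp W hN hsorted htbl))
    hall hroot

end Vale.Agent.Lib.Helper8.P302Cert7
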