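import Vale.Agent.Lib.Helper8.P302Cert7

/-!
An eighth checker for dead-state certificates: the seventh one, but no table of thresholds
has to be validated beforehand. Every threshold read from the table is tested by the two
neighbouring weights at the moment it is used; an entry that fails the test is replaced by
the true threshold (a count), so the threshold function is correct whatever the table holds.
-/

namespace Vale.Agent.Lib.Helper8.P302Cert8

open Finset Vale.Agent.Lib.Helper3.BinPacking Vale.Agent.Lib.Helper8.P302Cert
open Vale.Agent.Lib.Helper8.P302Cert3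
open Vale.Agent.Lib.Helper8.P302Cert4 (wAt packOk entryOk)
open Vale.Agent.Lib.Helper8.P302Cert5 (PTree hasP mem_of_hasP RTree rowOf)
open Vale.Agent.Lib.Helper8.P302Cert6 (thrS thrR16)
open Vale.Agent.Lib.Helper8.P302Cert7 (stateOk7 not_packable_of_lookup7)

/-- The true threshold of two positions: the number of weights that fit with both. -/
def thrTrue (ws : List ℕ) (C x y : ℕ) : ℕ :=
  ws.countP (fun w => Nat.ble (ws.getD x 0 + ws.getD y 0 + w) C)

/-- The threshold of two positions: the entry `tbl x y` of a table if it passes the test by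
the two neighbouring weights (`n` is the number of weights), the true threshold otherwise. -/
noncomputable def thrV (ws : List ℕ) (C n wp W : ℕ) (tbl : ℕ → ℕ → ℕ) (x y : ℕ) : ℕ :=
  Bool.rec (motive := fun _ => ℕ) (thrTrue ws C x y) (tbl x y)
    (entryOk C n wp W x y (tbl x y))

theorem thrTrue_spec (ws : List ℕ) (C : ℕ) (hsorted : ws.Pairwise (fun a b => a ≤ b))
    (x y i : ℕ) (hi : i < ws.length) :
    (ws.getD x 0 + ws.getD y 0 + ws.getD i 0 ≤ C ↔ i < thrTrue ws C x y) := by
  unfold thrTrue
  set p : ℕ → Bool := fun w => Nat.ble (ws.getD x 0 + ws.getD y 0 + w) C with hp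
  have hpmono : ∀ a b, a ≤ b → p b = true → p a = true := by
    intro a b hab hb
    simp only [hp, Nat.ble_eq] at hb ⊢
    omega
  have h1 := sorted_countP p hpmono ws hsorted i hi
  rw [← h1]
  simp only [hp, Nat.ble_eq]

/-- The threshold function is correct for every table. -/
theorem thrV_spec (ws : List ℕ) (C n wp W : ℕ) (tbl : ℕ → ℕ → ℕ) (hn : n = ws.length)
    (hsorted : ws.Pairwise (fun a b => a ≤ b)) (hpack : packOk ws wp W = true) :
    ∀ x, x < n → ∀ y, y < n → ∀ i, i < n →
      (ws.getD x 0 + ws.getD y 0 + ws.getD i 0 ≤ C ↔ i < thrV ws C n wp W tbl x y) := by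
  subst hn
  have hw : ∀ i, i < ws.length → wAt wp W i = ws.getD i 0 := by
    intro i hi
    exact Nat.eq_of_beq_eq_true (allBelow_spec _ ws.length hpack i hi)
  have hmonoL : ∀ i j, i ≤ j → j < ws.length → ws.getD i 0 ≤ ws.getD j 0 := by
    intro i j hij hj
    rcases Nat.eq_or_lt_of_le hij with heq | hlt
    · rw [heq]
    · have hi' : i < ws.length := by omega
      rw [List.getD_eq_getElem _ _ hi', List.getD_eq_getElem _ _ hj]
      exact List.pairwise_iff_getElem.1 hsorted i j hi' hj hlt
  intro x hx y hy i hi
  unfold thrV
  cases he : entryOk C ws.length wp W x y (tbl x y) with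
  | false => exact thrTrue_spec ws C hsorted x y i hi
  | true =>
    show ws.getD x 0 + ws.getD y 0 + ws.getD i 0 ≤ C ↔ i < tbl x y
    unfold entryOk at he
    rw [Bool.and_eq_true, Bool.and_eq_true, Bool.or_eq_true, Bool.or_eq_true] at he
    obtain ⟨h1, h2, h3⟩ := he
    have h1' : tbl x y ≤ ws.length := Nat.le_of_ble_eq_true h1
    rw [hw x hx, hw y hy] at h2 h3
    constructor
    · intro hfeas
      by_contra hcon
      push Not at hcon
      rcases h3 with h3 | h3
      · have := Nat.eq_of_beq_eq_true h3
        omega
      · have htl : tbl x y < ws.length := by omega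
        rw [hw _ htl, Nat.blt_eq] at h3
        have := hmonoL _ i hcon hi
        omega
    · intro hlt
      rcases h2 with h2 | h2
      · have := Nat.eq_of_beq_eq_true h2
        omega
      · have htl : tbl x y - 1 < ws.length := by omega
        rw [hw _ htl] at h2
        have h2' := Nat.le_of_ble_eq_true h2
        have := hmonoL i (tbl x y - 1) (by omega) htl
        omega

/-- A test of sortedness by neighbouring entries. -/
def sortedB : List ℕ → Bool
  | [] => true
  | [_] => true
  | a :: b :: t => Nat.ble a b && sortedB (b :: t)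

theorem pairwise_of_sortedB : ∀ ws : List ℕ, sortedB ws = true → ws.Pairwise (fun a b => a ≤ b)
  | [], _ => List.Pairwise.nil
  | [a], _ => List.pairwise_singleton _ a
  | a :: b :: t, h => by
    have h' : Nat.ble a b = true ∧ sortedB (b :: t) = true := by
      have : (Nat.ble a b && sortedB (b :: t)) = true := h
      rw [Bool.and_eq_true] at this
      exact this
    have hab : a ≤ b := Nat.le_of_ble_eq_true h'.1
    have ih := pairwise_of_sortedB (b :: t) h'.2
    rw [List.pairwise_cons]
    refine ⟨?_, ih⟩
    intro c hc
    rw [List.mem_cons] at hc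
    rcases hc with hc | hc
    · rw [hc]
      exact hab
    · rw [List.pairwise_cons] at ih
      exact le_trans hab (ih.1 c hc)

/-- **Soundness of the eighth checker**: packed search tree, a pivot for every state, block
scan, thresholds read from a tree of rows and tested when used. -/
theorem not_packable_of_cert9 (ws : List ℕ) (C N n wp W KM KW d : ℕ) (R : RTree) (T : PTree)
    (hn : n = ws.length) (hN : N ≤ n) (hsorted : ws.Pairwise (fun a b => a ≤ b))
    (hpack : packOk ws wp W = true)
    (hall : ∀ m h, PTree.MemP KM KW m h T →
      stateOk7 N (thrV ws C n wp W (thrS (thrR16 R d))) (hasP KM T) m h = true)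
    (hroot : hasP KM T (Nat.sub (Nat.pow 2 N) 1) = true) :
    ¬ Packable (fun i => ws.getD i 0) C (Finset.range N) := by
  have hspec := thrV_spec ws C n wp W (thrS (thrR16 R d)) hn hsorted hpack
  exact not_packable_of_lookup7 ws C N (thrV ws C n wp W (thrS (thrR16 R d))) (hasP KM T)
    (fun m h => PTree.MemP KM KW m h T)
    (fun k hk => mem_of_hasP KM KW k T hk) (by rw [← hn]; exact hN) hsorted
    (fun x hx y hy _ i hi => hspec x (by omega) y (by omega) i (by omega))
    hall hroot

end Vale.Agent.Lib.Helper8.P302Cert8
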