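import Vale.Agent.Lib.Helper3.P302Inst

/-!
Abstract soundness of a dead-state certificate for packing into triples.  Weights are monotone
in the index; a family `D` of index sets is closed under the canonical step (remove the largest
index `x`, a second index `y` and the largest feasible third index `z > y`); then no member of
`D` can be split into feasible triples.
-/

namespace Vale.Agent.Lib.Helper8.P302Dead

open Finset Vale.Agent.Lib.Helper3.BinPacking

/-- Removing one triple from a packing. -/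
theorem packable_sdiff (wt : ℕ → ℕ) (C : ℕ) (M : Finset ℕ) (P : Finset (Finset ℕ))
    (h1 : ∀ T ∈ P, T.card = 3 ∧ ∑ i ∈ T, wt i ≤ C)
    (h2 : ∀ T ∈ P, ∀ T' ∈ P, T ≠ T' → Disjoint T T') (h3 : P.biUnion id = M)
    (T0 : Finset ℕ) (hT0 : T0 ∈ P) : Packable wt C (M \ T0) := by
  refine ⟨P.erase T0, fun T hT => h1 T (Finset.mem_of_mem_erase hT),
    fun T hT T' hT' hne =>
      h2 T (Finset.mem_of_mem_erase hT) T' (Finset.mem_of_mem_erase hT') hne, ?_⟩
  ext i
  simp only [Finset.mem_biUnion, Finset.mem_erase, id, Finset.mem_sdiff]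
  constructor
  · rintro ⟨T, ⟨hne, hT⟩, hi⟩
    refine ⟨?_, ?_⟩
    · rw [← h3]
      exact Finset.mem_biUnion.2 ⟨T, hT, hi⟩
    · intro hi0
      exact Finset.disjoint_left.1 (h2 T hT T0 hT0 hne) hi hi0
  · rintro ⟨hiM, hi0⟩
    rw [← h3, Finset.mem_biUnion] at hiM
    obtain ⟨T, hT, hi⟩ := hiM
    refine ⟨T, ⟨?_, hT⟩, hi⟩
    intro h
    rw [h] at hi
    exact hi0 hi

/-- Exchanging `z0` (in the triple `T0`) with a larger index `z` of another triple keeps a
packing a packing, provided the new triple through `z` is feasible. -/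
theorem packable_swap (wt : ℕ → ℕ) (C N : ℕ) (hmono : ∀ i j, i ≤ j → j < N → wt i ≤ wt j)
    (M : Finset ℕ) (P : Finset (Finset ℕ))
    (h1 : ∀ T ∈ P, T.card = 3 ∧ ∑ i ∈ T, wt i ≤ C)
    (h2 : ∀ T ∈ P, ∀ T' ∈ P, T ≠ T' → Disjoint T T') (h3 : P.biUnion id = M)
    (T0 : Finset ℕ) (hT0 : T0 ∈ P) (z0 z : ℕ) (hz0 : z0 ∈ T0) (hzM : z ∈ M) (hle : z0 ≤ z)
    (hzN : z < N)
    (hfeas : ∑ i ∈ T0.image (Equiv.swap z0 z), wt i ≤ C) :
    ∃ P' : Finset (Finset ℕ), (∀ T ∈ P', T.card = 3 ∧ ∑ i ∈ T, wt i ≤ C) ∧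
      (∀ T ∈ P', ∀ T' ∈ P', T ≠ T' → Disjoint T T') ∧ P'.biUnion id = M ∧
      T0.image (Equiv.swap z0 z) ∈ P' := by
  classical
  set σ : ℕ ≃ ℕ := Equiv.swap z0 z with hσ
  have hz0M : z0 ∈ M := by
    rw [← h3]
    exact Finset.mem_biUnion.2 ⟨T0, hT0, hz0⟩
  have hσM : ∀ i, σ i ∈ M ↔ i ∈ M := by
    intro i
    by_cases hi0 : i = z0
    · rw [hi0, hσ, Equiv.swap_apply_left]
      exact ⟨fun _ => hz0M, fun _ => hzM⟩
    · by_cases hiz : i = z
      · rw [hiz, hσ, Equiv.swap_apply_right]
        exact ⟨fun _ => hzM, fun _ => hz0M⟩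
      · rw [hσ, Equiv.swap_apply_of_ne_of_ne hi0 hiz]
  refine ⟨P.image (fun T => T.image σ), ?_, ?_, ?_, ?_⟩
  · intro T' hT'
    rw [Finset.mem_image] at hT'
    obtain ⟨T, hT, rfl⟩ := hT'
    constructor
    · rw [Finset.card_image_of_injective _ σ.injective]
      exact (h1 T hT).1
    · by_cases hTT : T = T0
      · rw [hTT]
        exact hfeas
      · have hz0T : z0 ∉ T := fun h => Finset.disjoint_left.1 (h2 T hT T0 hT0 hTT) h hz0
        rw [Finset.sum_image (fun a _ b _ hab => σ.injective hab)]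
        refine le_trans (Finset.sum_le_sum (fun i hi => ?_)) (h1 T hT).2
        have hi0 : i ≠ z0 := fun h => hz0T (h ▸ hi)
        by_cases hiz : i = z
        · rw [hiz, hσ, Equiv.swap_apply_right]
          exact hmono z0 z hle hzN
        · rw [hσ, Equiv.swap_apply_of_ne_of_ne hi0 hiz]
  · intro T1 hT1 T2 hT2 hne
    rw [Finset.mem_image] at hT1 hT2
    obtain ⟨S1, hS1, rfl⟩ := hT1
    obtain ⟨S2, hS2, rfl⟩ := hT2
    have hS : S1 ≠ S2 := fun h => hne (by rw [h])
    exact (Finset.disjoint_image σ.injective).2 (h2 S1 hS1 S2 hS2 hS)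
  · ext i
    rw [← hσM i, ← h3]
    simp only [Finset.mem_biUnion, Finset.mem_image, id]
    constructor
    · rintro ⟨T', ⟨T, hT, rfl⟩, hi⟩
      rw [Finset.mem_image] at hi
      obtain ⟨a, ha, rfl⟩ := hi
      refine ⟨T, hT, ?_⟩
      rw [hσ, Equiv.swap_apply_self]
      exact ha
    · rintro ⟨T, hT, hi⟩
      refine ⟨T.image σ, ⟨T, hT, rfl⟩, ?_⟩
      rw [Finset.mem_image]
      refine ⟨σ i, hi, ?_⟩
      rw [hσ, Equiv.swap_apply_self]
  · exact Finset.mem_image_of_mem _ hT0

/-- **Soundness of dead-state certificates.** -/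
theorem not_packable_of_dead (wt : ℕ → ℕ) (C N : ℕ)
    (hmono : ∀ i j, i ≤ j → j < N → wt i ≤ wt j)
    (D : Finset ℕ → Prop)
    (hD : ∀ M, D M → (∀ i ∈ M, i < N) ∧ ∃ x ∈ M, (∀ i ∈ M, i ≤ x) ∧
        ∀ y ∈ M, ∀ z ∈ M, y < z → z < x → wt x + wt y + wt z ≤ C →
          (∀ z' ∈ M, z < z' → z' < x → C < wt x + wt y + wt z') →
          D (((M.erase x).erase y).erase z)) :
    ∀ M, D M → ¬ Packable wt C M := by
  classical
  have key : ∀ n, ∀ M : Finset ℕ, M.card = n → D M → ¬ Packable wt C M := by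
    intro n
    induction n using Nat.strong_induction_on with
    | _ n ih =>
      intro M hcard hDM hpack
      obtain ⟨hN, x, hxM, hxmax, hstep⟩ := hD M hDM
      obtain ⟨P, h1, h2, h3⟩ := hpack
      have hxM' := hxM
      rw [← h3, Finset.mem_biUnion] at hxM'
      obtain ⟨T0, hT0, hx0⟩ := hxM'
      have hx0 : x ∈ T0 := hx0
      have hT0M : T0 ⊆ M := by
        rw [← h3]
        exact Finset.subset_biUnion_of_mem id hT0
      have hc2 : (T0.erase x).card = 2 := by
        rw [Finset.card_erase_of_mem hx0, (h1 T0 hT0).1]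
      obtain ⟨a, b, hab, hpair⟩ := Finset.card_eq_two.1 hc2
      -- order the two remaining indices
      obtain ⟨y, z0, hyz0, hpair'⟩ : ∃ y z0, y < z0 ∧ T0.erase x = {y, z0} := by
        rcases lt_or_gt_of_ne hab with h | h
        · exact ⟨a, b, h, hpair⟩
        · exact ⟨b, a, h, by rw [hpair, Finset.pair_comm]⟩
      have hy0 : y ∈ T0.erase x := by rw [hpair']; simp
      have hz00 : z0 ∈ T0.erase x := by rw [hpair']; simp
      have hyT : y ∈ T0 := Finset.mem_of_mem_erase hy0
      have hz0T : z0 ∈ T0 := Finset.mem_of_mem_erase hz00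
      have hyx : y ≠ x := Finset.ne_of_mem_erase hy0
      have hz0x : z0 ≠ x := Finset.ne_of_mem_erase hz00
      have hyM : y ∈ M := hT0M hyT
      have hz0M : z0 ∈ M := hT0M hz0T
      have hylt : y < x := lt_of_le_of_ne (hxmax y hyM) hyx
      have hz0lt : z0 < x := lt_of_le_of_ne (hxmax z0 hz0M) hz0x
      have hT0eq : T0 = insert x {y, z0} := by
        rw [← hpair', Finset.insert_erase hx0]
      have hxnot : x ∉ ({y, z0} : Finset ℕ) := by
        intro h
        rw [Finset.mem_insert, Finset.mem_singleton] at h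
        rcases h with h | h
        · exact hyx h.symm
        · exact hz0x h.symm
      have hsum0 : wt x + wt y + wt z0 ≤ C := by
        have h4 := (h1 T0 hT0).2
        rw [hT0eq, Finset.sum_insert hxnot, Finset.sum_pair (ne_of_lt hyz0)] at h4
        omega
      -- the largest feasible third index
      set Z := M.filter (fun z' => y < z' ∧ z' < x ∧ wt x + wt y + wt z' ≤ C) with hZ
      have hz0Z : z0 ∈ Z := by
        rw [hZ, Finset.mem_filter]
        exact ⟨hz0M, hyz0, hz0lt, hsum0⟩
      set z := Z.max' ⟨z0, hz0Z⟩ with hz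
      have hzZ : z ∈ Z := Finset.max'_mem Z ⟨z0, hz0Z⟩
      have hz0z : z0 ≤ z := Finset.le_max' Z z0 hz0Z
      rw [hZ, Finset.mem_filter] at hzZ
      obtain ⟨hzM, hyz, hzx, hzfeas⟩ := hzZ
      have hzmax : ∀ z' ∈ M, z < z' → z' < x → C < wt x + wt y + wt z' := by
        intro z' hz'M hzz' hz'x
        by_contra hcon
        push Not at hcon
        have hz'Z : z' ∈ Z := by
          rw [hZ, Finset.mem_filter]
          exact ⟨hz'M, lt_trans hyz hzz', hz'x, hcon⟩
        have := Finset.le_max' Z z' hz'Z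
        omega
      -- the swapped triple
      have himg : T0.image (Equiv.swap z0 z) = insert x {y, z} := by
        rw [hT0eq, Finset.image_insert, Finset.image_insert, Finset.image_singleton,
          Equiv.swap_apply_left,
          Equiv.swap_apply_of_ne_of_ne hz0x.symm (ne_of_gt hzx),
          Equiv.swap_apply_of_ne_of_ne (ne_of_lt hyz0) (ne_of_lt hyz)]
      have hxnot' : x ∉ ({y, z} : Finset ℕ) := by
        intro h
        rw [Finset.mem_insert, Finset.mem_singleton] at h
        rcases h with h | h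
        · exact hyx h.symm
        · omega
      have hfeas : ∑ i ∈ T0.image (Equiv.swap z0 z), wt i ≤ C := by
        rw [himg, Finset.sum_insert hxnot', Finset.sum_pair (ne_of_lt hyz)]
        omega
      obtain ⟨P', h1', h2', h3', hmem'⟩ := packable_swap wt C N hmono M P h1 h2 h3 T0 hT0 z0 z
        hz0T hzM hz0z (hN z hzM) hfeas
      have hpack' := packable_sdiff wt C M P' h1' h2' h3' _ hmem'
      rw [himg] at hpack'
      have hset : M \ insert x {y, z} = ((M.erase x).erase y).erase z := by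
        ext i
        simp only [Finset.mem_sdiff, Finset.mem_insert, Finset.mem_singleton, Finset.mem_erase]
        tauto
      rw [hset] at hpack'
      have hD' := hstep y hyM z hzM hyz hzx hzfeas hzmax
      have hlt : (((M.erase x).erase y).erase z).card < n := by
        rw [← hcard]
        apply Finset.card_lt_card
        refine Finset.ssubset_of_subset_of_ssubset ?_ (Finset.erase_ssubset hxM)
        exact (Finset.erase_subset _ _).trans (Finset.erase_subset _ _)
      exact ih _ hlt _ rfl hD' hpack'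
  intro M hDM
  exact key M.card M rfl hDM

end Vale.Agent.Lib.Helper8.P302Dead
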