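import Vale.Agent.Lib.Helper8.P302LP
import Vale.Agent.Lib.Helper8.P302Glue

/-!
Generic assembly for bin packing instances given by a sorted list of `3 * k + 2` natural
weights, all larger than a quarter of the capacity: if the `3 * k` smallest items cannot be
split into `k` feasible triples, then the optimum is at least `k + 2`; together with an
explicit fractional cover of total weight `S / D` this bounds the gap from below.
-/

namespace Vale.Agent.Lib.Helper8.P302Generic

open Finset Vale.Agent.Lib.Helper3.BinPacking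

theorem gap_generic (ws : List ℕ) (C k : ℕ) (hC : 0 < C) (hlen : ws.length = 3 * k + 2)
    (hsorted : ws.Pairwise (fun x y => x ≤ y)) (hbig : ∀ w, w ∈ ws → C < 4 * w)
    (hle : ∀ w, w ∈ ws → w ≤ C)
    (cf : List (List ℕ × ℕ)) (D S : ℕ) (hD : 0 < D)
    (hmem : ∀ c ∈ cf, ∀ x ∈ c.1, x ∈ ws) (hsum : ∀ c ∈ cf, c.1.sum ≤ C)
    (hcov : ∀ x ∈ ws, D * ws.count x ≤ (cf.map (fun c => c.1.count x * c.2)).sum)
    (htot : (cf.map (fun c => c.2)).sum = S)
    (hnp : ¬ Packable (fun i => ws.getD i 0) C (Finset.range (3 * k)))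
    (g : ℝ) (hg : g ≤ ((k : ℝ) + 2) - (S : ℝ) / (D : ℝ)) :
    ∃ (n : ℕ) (a : Fin n → ℚ), (∀ i, 0 < a i ∧ a i ≤ 1) ∧ g ≤ (opt a : ℝ) - lp a := by
  set a : Fin (3 * k + 2) → ℚ := fun i => (ws.getD (i : ℕ) 0 : ℚ) / (C : ℚ) with ha
  have hcap : (0 : ℚ) < (C : ℚ) := by exact_mod_cast hC
  have hpl : ∀ i : Fin (3 * k + 2), 0 < a i ∧ a i ≤ 1 := by
    intro i
    have hi : (i : ℕ) < ws.length := by
      rw [hlen]
      exact i.2
    have hmem' : ws.getD (i : ℕ) 0 ∈ ws := by
      rw [List.getD_eq_getElem _ _ hi]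
      exact List.getElem_mem hi
    have h1 := hbig _ hmem'
    have h2 := hle _ hmem'
    have hpos : 0 < ws.getD (i : ℕ) 0 := by omega
    simp only [ha]
    constructor
    · apply div_pos _ hcap
      exact_mod_cast hpos
    · rw [div_le_one hcap]
      exact_mod_cast h2
  have hopt : k + 1 + 1 ≤ opt a := by
    apply succ_le_opt a (fun i => (hpl i).2) (k + 1)
    intro hpack
    apply hnp
    exact Vale.Agent.Lib.Helper8.P302Glue.packable_of_packing (3 * k + 2) k C ws hlen rfl
      hsorted hbig hC a (fun i => rfl) hpack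
  have hlp := Vale.Agent.Lib.Helper8.P302LP.lp_le_of_list_cover (3 * k + 2) ws C hC hlen a
    (fun i => rfl) cf D hD hmem hsum hcov
  rw [htot] at hlp
  refine ⟨3 * k + 2, a, hpl, ?_⟩
  have h1 : ((k : ℝ) + 2) ≤ (opt a : ℝ) := by
    have : ((k + 1 + 1 : ℕ) : ℝ) ≤ (opt a : ℝ) := by exact_mod_cast hopt
    push_cast at this
    linarith
  linarith

end Vale.Agent.Lib.Helper8.P302Generic
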