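import Vale.Agent.Lib.Helper8.P302WCert
import Vale.Agent.Lib.Helper8.P302Generic
import Vale.Agent.Lib.Helper3.P302LP122

/-!
The gap statement for the instance with 122 items, with the light certificate: the optimum is
at least 42, the linear programming value is at most `2935 / 72`.
-/

namespace Vale.Agent.Lib.Helper8.P302Gap122

open Vale.Agent.Lib.Helper3.BinPacking

theorem gap122_light : ∃ (n : ℕ) (a : Fin n → ℚ), (∀ i, 0 < a i ∧ a i ≤ 1) ∧
    (89 / 72 : ℝ) ≤ (opt a : ℝ) - lp a :=
  Vale.Agent.Lib.Helper8.P302Generic.gap_generic wts122 cap122 40 (by decide) (by decide +kernel)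
    Vale.Agent.Lib.Helper8.P302WTree.sorted_ok (by decide +kernel) (by decide +kernel)
    cover122 72 2935 (by decide) cover122_mem cover122_sum cover122_cov cover122_total
    Vale.Agent.Lib.Helper8.P302WTree.not_packable (89 / 72) (by norm_num)

end Vale.Agent.Lib.Helper8.P302Gap122
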