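import Vale.Agent.Lib.Helper8.P302B1Cert
import Vale.Agent.Lib.Helper8.P302Glue
import Vale.Agent.Lib.Helper3.P302LP236

/-!
The gap statement for the instance with 236 items: all sizes lie in `(1/4, 1/2]`, the optimum
is at least 80 and the linear programming value is at most `272173 / 3456`.
-/

namespace Vale.Agent.Lib.Helper8.P302Gap236

open Vale.Agent.Lib.Helper3.BinPacking

theorem wts236_length : wts236.length = 236 := by decide +kernel

theorem wts236_big : ∀ w, w ∈ wts236 → cap236 < 4 * w := by decide +kernel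

theorem wts236_half : ∀ w, w ∈ wts236 → 2 * w ≤ cap236 := by decide +kernel

/-- Every size of the instance lies in `(1/4, 1/2]`. -/
theorem sizes236 : ∀ i, 1 / 4 < inst236 i ∧ inst236 i ≤ 1 / 2 := by
  intro i
  have hi : (i : ℕ) < wts236.length := by
    rw [wts236_length]
    exact i.2
  have hmem : wts236.getD (i : ℕ) 0 ∈ wts236 := by
    rw [List.getD_eq_getElem _ _ hi]
    exact List.getElem_mem hi
  have h1 := wts236_big _ hmem
  have h2 := wts236_half _ hmem
  have hcap : (0 : ℚ) < (cap236 : ℚ) := by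
    have : 0 < cap236 := by decide
    exact_mod_cast this
  have h1q : (cap236 : ℚ) < 4 * (wts236.getD (i : ℕ) 0 : ℚ) := by exact_mod_cast h1
  have h2q : 2 * (wts236.getD (i : ℕ) 0 : ℚ) ≤ (cap236 : ℚ) := by exact_mod_cast h2
  have hdef : inst236 i = (wts236.getD (i : ℕ) 0 : ℚ) / (cap236 : ℚ) := rfl
  rw [hdef]
  constructor
  · rw [lt_div_iff₀ hcap]
    linarith
  · rw [div_le_iff₀ hcap]
    linarith

/-- The 236 items cannot be packed into 79 bins. -/
theorem not_packing236 : ¬ ∃ f : Fin 236 → Fin 79, IsPacking inst236 79 f := by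
  intro hpack
  apply Vale.Agent.Lib.Helper8.P302B1Tree.not_packable
  exact Vale.Agent.Lib.Helper8.P302Glue.packable_of_packing 236 78 cap236 wts236 wts236_length
    rfl Vale.Agent.Lib.Helper8.P302B1Tree.sorted_ok wts236_big (by decide) inst236
    (fun i => rfl) hpack

/-- The optimum of the instance is at least 80. -/
theorem opt236 : 80 ≤ opt inst236 := by
  have h : 79 + 1 ≤ opt inst236 :=
    succ_le_opt inst236 (fun i => le_trans (sizes236 i).2 (by norm_num)) 79 not_packing236
  exact h

/-- The gap of the instance is at least `4307 / 3456`. -/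
theorem gap236_inst : (4307 / 3456 : ℝ) ≤ (opt inst236 : ℝ) - lp inst236 := by
  have h1 : (80 : ℝ) ≤ (opt inst236 : ℝ) := by exact_mod_cast opt236
  have h2 := lp_inst236_le
  linarith

theorem gap236 : ∃ a : Fin 236 → ℚ, (∀ i, 1 / 4 < a i ∧ a i ≤ 1 / 2) ∧
    (4307 / 3456 : ℝ) ≤ (opt a : ℝ) - lp a :=
  ⟨inst236, sizes236, gap236_inst⟩

end Vale.Agent.Lib.Helper8.P302Gap236
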