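import Vale.Agent.Lib.Helper8.P302L236Tbl

/-!
Check of a part of the certificate.
-/

namespace Vale.Agent.Lib.Helper8.P302L236Tree

open Vale.Agent.Lib.Helper3.BinPacking Vale.Agent.Lib.Helper8.P302Cert
open Vale.Agent.Lib.Helper8.P302Cert3 Vale.Agent.Lib.Helper8.P302Cert4
open Vale.Agent.Lib.Helper8.P302Cert5 Vale.Agent.Lib.Helper8.P302Cert6
open Vale.Agent.Lib.Helper8.P302Cert7

theorem ok_tra : ∀ m h, PTree.MemP keyMask keyShift m h tra →
    stateOk7 234 (thrS (thrR16 rowTree rowDepth)) (hasP keyMask deadTree) m h = true :=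
  fun m h hm => everyP_of_mem keyMask keyShift _ m h tra (by decide +kernel) hm

theorem ok_trb : ∀ m h, PTree.MemP keyMask keyShift m h trb →
    stateOk7 234 (thrS (thrR16 rowTree rowDepth)) (hasP keyMask deadTree) m h = true :=
  fun m h hm => everyP_of_mem keyMask keyShift _ m h trb (by decide +kernel) hm

end Vale.Agent.Lib.Helper8.P302L236Tree
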