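import Vale.Agent.Lib.Helper8.P302L236Tbl
import Vale.Agent.Lib.Helper8.P302L236Chk0

/-!
Assembly of the certificate: the 234 smallest items cannot be split into 78 feasible triples.
-/

namespace Vale.Agent.Lib.Helper8.P302L236Tree

open Vale.Agent.Lib.Helper3.BinPacking Vale.Agent.Lib.Helper8.P302Cert
open Vale.Agent.Lib.Helper8.P302Cert3 Vale.Agent.Lib.Helper8.P302Cert4
open Vale.Agent.Lib.Helper8.P302Cert5 Vale.Agent.Lib.Helper8.P302Cert6
open Vale.Agent.Lib.Helper8.P302Cert7

theorem ok_tr : ∀ m h, PTree.MemP keyMask keyShift m h tr →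
    stateOk7 234 (thrS (thrR16 rowTree rowDepth)) (hasP keyMask deadTree) m h = true := by
  intro m h hm
  have hm' : PTree.MemP keyMask keyShift m h tra ∨ (m = (nat_lit 0x7fffffffffffffffffffffffff9fff0000000000) ∧ h = (nat_lit 0x9b009c009b009c009b009a009e00290028)) ∨
      PTree.MemP keyMask keyShift m h trb := hm
  rcases hm' with h1 | ⟨h1, h2⟩ | h1
  · exact ok_tra m h h1
  · rw [h1, h2]
    decide +kernel
  · exact ok_trb m h h1

theorem sorted_ok : wts236.Pairwise (fun x y => x ≤ y) := by decide +kernel

/-- The 234 smallest items cannot be split into 78 triples of total weight at most the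
capacity. -/
theorem not_packable : ¬ Packable (fun i => wts236.getD i 0) cap236 (Finset.range 234) :=
  not_packable_of_cert8 wts236 cap236 234 wPack 64 keyMask keyShift rowDepth rowTree deadTree
    (by decide +kernel) sorted_ok thrTable_ok
    ok_tr (by decide +kernel)

end Vale.Agent.Lib.Helper8.P302L236Tree
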