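import Vale.Agent.Lib.Helper8.P302L299Tbl
import Vale.Agent.Lib.Helper8.P302L299Chk0

/-!
Assembly of the certificate: the 297 smallest items cannot be split into 99 feasible triples.
-/

namespace Vale.Agent.Lib.Helper8.P302L299Tree

open Vale.Agent.Lib.Helper3.BinPacking Vale.Agent.Lib.Helper8.P302Cert
open Vale.Agent.Lib.Helper8.P302Cert3 Vale.Agent.Lib.Helper8.P302Cert4
open Vale.Agent.Lib.Helper8.P302Cert5 Vale.Agent.Lib.Helper8.P302Cert6
open Vale.Agent.Lib.Helper8.P302Cert7

theorem ok_tra : ∀ m h, PTree.MemP keyMask keyShift m h tra →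
    stateOk7 297 (thrS (thrR16 rowTree rowDepth)) (hasP keyMask deadTree) m h = true := by
  intro m h hm
  have hm' : PTree.MemP keyMask keyShift m h traa ∨ (m = (nat_lit 0xe03fffffffffffffffffffe000000000000000000) ∧ h = (nat_lit 0x4b004c004b004c004900a3)) ∨
      PTree.MemP keyMask keyShift m h trab := hm
  rcases hm' with h1 | ⟨h1, h2⟩ | h1
  · exact ok_traa m h h1
  · rw [h1, h2]
    decide +kernel
  · exact ok_trab m h h1

theorem ok_trb : ∀ m h, PTree.MemP keyMask keyShift m h trb →
    stateOk7 297 (thrS (thrR16 rowTree rowDepth)) (hasP keyMask deadTree) m h = true := by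
  intro m h hm
  have hm' : PTree.MemP keyMask keyShift m h trba ∨ (m = (nat_lit 0x3e01ffffffffffffffffffffffffffffffffffffffffffffffffffffc0700000) ∧ h = (nat_lit 0xfc00fd00fc00fd00150014)) ∨
      PTree.MemP keyMask keyShift m h trbb := hm
  rcases hm' with h1 | ⟨h1, h2⟩ | h1
  · exact ok_trba m h h1
  · rw [h1, h2]
    decide +kernel
  · exact ok_trbb m h h1

theorem ok_tr : ∀ m h, PTree.MemP keyMask keyShift m h tr →
    stateOk7 297 (thrS (thrR16 rowTree rowDepth)) (hasP keyMask deadTree) m h = true := by
  intro m h hm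
  have hm' : PTree.MemP keyMask keyShift m h tra ∨ (m = (nat_lit 0x701ffffffffffffffffffffffffffffffffffe0800000000000) ∧ h = (nat_lit 0xc900ca00c900ca0035002f)) ∨
      PTree.MemP keyMask keyShift m h trb := hm
  rcases hm' with h1 | ⟨h1, h2⟩ | h1
  · exact ok_tra m h h1
  · rw [h1, h2]
    decide +kernel
  · exact ok_trb m h h1

theorem sorted_ok : wts299.Pairwise (fun x y => x ≤ y) := by decide +kernel

/-- The 297 smallest items cannot be split into 99 triples of total weight at most the
capacity. -/
theorem not_packable : ¬ Packable (fun i => wts299.getD i 0) cap299 (Finset.range 297) :=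
  not_packable_of_cert8 wts299 cap299 297 wPack 64 keyMask keyShift rowDepth rowTree deadTree
    (by decide +kernel) sorted_ok thrTable_ok
    ok_tr (by decide +kernel)

end Vale.Agent.Lib.Helper8.P302L299Tree
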