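import Vale.Agent.Lib.Helper8.P302L299Tree

/-!
Validation of the table of thresholds.
-/

namespace Vale.Agent.Lib.Helper8.P302L299Tree

open Vale.Agent.Lib.Helper3.BinPacking Vale.Agent.Lib.Helper8.P302Cert
open Vale.Agent.Lib.Helper8.P302Cert3 Vale.Agent.Lib.Helper8.P302Cert4
open Vale.Agent.Lib.Helper8.P302Cert5 Vale.Agent.Lib.Helper8.P302Cert6
open Vale.Agent.Lib.Helper8.P302Cert7

theorem thrTable_ok : tblOkF wts299 cap299 297 (thrR16 rowTree rowDepth) wPack 64 = true := by
  decide +kernel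

end Vale.Agent.Lib.Helper8.P302L299Tree
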