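import Vale.Agent.Lib.Helper3.P302Inst

/-!
The linear programming side of the 65 item instance: an explicit fractional cover by 44
configurations of total weight `523 / 24`.
-/

namespace Vale.Agent.Lib.Helper8.P302LP

open Finset Vale.Agent.Lib.Helper3.BinPacking

theorem count_eq_sum_ite (l : List ℕ) (x : ℕ) :
    (l.map (fun y => if y = x then 1 else 0)).sum = l.count x := by
  induction l with
  | nil => simp
  | cons b t ih =>
    rw [List.map_cons, List.sum_cons, ih, List.count_cons]
    by_cases hb : b = x
    · simp [hb]
      omega
    · simp [hb]

theorem sum_map_div (l : List ℕ) (C : ℕ) :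
    (l.map (fun x : ℕ => (x : ℚ) / (C : ℚ))).sum = ((l.sum : ℕ) : ℚ) / (C : ℚ) := by
  induction l with
  | nil => simp
  | cons b t ih =>
    rw [List.map_cons, List.sum_cons, ih, List.sum_cons]
    push_cast
    ring

/-- A list of configurations (each a list of weights taken from `ws`, of total weight at most
`C`) with natural weights `c.2` over the common denominator `D`, covering every weight at least
as often as it occurs in `ws`, bounds the linear programming value of the instance
`a i = ws[i] / C`. -/
theorem lp_le_of_list_cover (n : ℕ) (ws : List ℕ) (C : ℕ) (hC : 0 < C) (hn : ws.length = n)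
    (a : Fin n → ℚ) (ha : ∀ i : Fin n, a i = (ws.getD (i : ℕ) 0 : ℚ) / (C : ℚ))
    (cf : List (List ℕ × ℕ)) (D : ℕ) (hD : 0 < D)
    (hmem : ∀ c ∈ cf, ∀ x ∈ c.1, x ∈ ws)
    (hsum : ∀ c ∈ cf, c.1.sum ≤ C)
    (hcov : ∀ x ∈ ws, D * ws.count x ≤ (cf.map (fun c => c.1.count x * c.2)).sum) :
    lp a ≤ (((cf.map (fun c => c.2)).sum : ℕ) : ℝ) / (D : ℝ) := by
  classical
  subst hn
  have hCq : (0 : ℚ) < (C : ℚ) := by exact_mod_cast hC
  have hDr : (0 : ℝ) < (D : ℝ) := by exact_mod_cast hD
  set φ : ℕ → ℚ := fun x => (x : ℚ) / (C : ℚ) with hφdef
  have hφ : Function.Injective φ := by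
    intro x y hxy
    simp only [hφdef] at hxy
    have h1 : (x : ℚ) = (y : ℚ) := by
      field_simp at hxy
      exact hxy
    exact_mod_cast h1
  have ha' : ∀ i : Fin ws.length, a i = φ ws[i.1] := by
    intro i
    rw [ha i, List.getD_eq_getElem _ _ i.2]
  have hsz : ∀ x ∈ ws, φ x ∈ sizes a := by
    intro x hx
    obtain ⟨i, hi, rfl⟩ := List.getElem_of_mem hx
    unfold sizes
    rw [Finset.mem_image]
    exact ⟨⟨i, hi⟩, Finset.mem_univ _, ha' ⟨i, hi⟩⟩
  set cfg : Fin cf.length → ℚ → ℕ := fun j σ => ((cf[j.1].1).map φ).count σ with hcfg
  set w : Fin cf.length → ℝ := fun j => ((cf[j.1].2 : ℕ) : ℝ) / (D : ℝ) with hw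
  have hcover : IsFracCover a cf.length cfg w := by
    refine ⟨?_, ?_, ?_⟩
    · intro j
      simp only [hw]
      positivity
    · intro j
      have hj : cf[j.1] ∈ cf := List.getElem_mem j.2
      constructor
      · intro σ hσ
        simp only [hcfg]
        apply List.count_eq_zero_of_not_mem
        intro hmem'
        rw [List.mem_map] at hmem'
        obtain ⟨x, hx, rfl⟩ := hmem'
        exact hσ (hsz x (hmem _ hj x hx))
      · have hsub : ((cf[j.1].1).map φ).toFinset ⊆ sizes a := by
          intro σ hσ
          rw [List.mem_toFinset, List.mem_map] at hσ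
          obtain ⟨x, hx, rfl⟩ := hσ
          exact hsz x (hmem _ hj x hx)
        have h1 := Finset.sum_list_count_of_subset ((cf[j.1].1).map φ) (sizes a) hsub
        have h2 : ∑ σ ∈ sizes a, σ * (cfg j σ : ℚ) = ((cf[j.1].1).map φ).sum := by
          rw [h1]
          apply Finset.sum_congr rfl
          intro σ _
          simp only [hcfg, nsmul_eq_mul]
          ring
        rw [h2, hφdef, sum_map_div, div_le_one hCq]
        exact_mod_cast hsum _ hj
    · intro σ hσ
      unfold sizes at hσ
      rw [Finset.mem_image] at hσ
      obtain ⟨i, _, rfl⟩ := hσ
      have hx : ws[i.1] ∈ ws := List.getElem_mem i.2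
      -- the multiplicity is the number of occurrences in the list
      have hmult : mult a (a i) = ws.count ws[i.1] := by
        unfold mult
        have h1 : (univ.filter (fun i' : Fin ws.length => a i' = a i))
            = univ.filter (fun i' : Fin ws.length => ws[i'.1] = ws[i.1]) := by
          apply Finset.filter_congr
          intro i' _
          rw [ha' i', ha' i]
          exact hφ.eq_iff
        rw [h1, Finset.card_filter, Fin.sum_univ_fun_getElem ws
          (fun y => if y = ws[i.1] then 1 else 0), count_eq_sum_ite]
      rw [hmult]
      have h3 : ∑ j : Fin cf.length, (cfg j (a i) : ℝ) * w j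
          = (((cf.map (fun c => c.1.count ws[i.1] * c.2)).sum : ℕ) : ℝ) / (D : ℝ) := by
        have h4 : ∀ j : Fin cf.length, (cfg j (a i) : ℝ) * w j
            = (((cf[j.1].1.count ws[i.1] * cf[j.1].2 : ℕ) : ℝ)) / (D : ℝ) := by
          intro j
          simp only [hcfg, hw]
          rw [ha' i, List.count_map_of_injective _ _ hφ]
          push_cast
          ring
        rw [Finset.sum_congr rfl (fun j _ => h4 j), ← Finset.sum_div,
          Fin.sum_univ_fun_getElem cf (fun c => ((c.1.count ws[i.1] * c.2 : ℕ) : ℝ)),
          Nat.cast_list_sum, List.map_map]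
        rfl
      rw [h3, le_div_iff₀ hDr]
      have h5 := hcov _ hx
      have h6 : ((D * ws.count ws[i.1] : ℕ) : ℝ)
          ≤ (((cf.map (fun c => c.1.count ws[i.1] * c.2)).sum : ℕ) : ℝ) :=
        (Nat.cast_le (α := ℝ)).2 h5
      rw [Nat.cast_mul] at h6
      linarith
  have h := lp_le_of_cover a cf.length cfg w hcover
  have htot : ∑ j : Fin cf.length, w j = (((cf.map (fun c => c.2)).sum : ℕ) : ℝ) / (D : ℝ) := by
    simp only [hw]
    rw [← Finset.sum_div, Fin.sum_univ_fun_getElem cf (fun c => ((c.2 : ℕ) : ℝ)),
      Nat.cast_list_sum, List.map_map]
    rfl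
  rw [htot] at h
  exact h

/-- The 44 configurations of the fractional cover, as lists of weights, with their weights
in units of `1 / 24`. -/
def cover : List (List ℕ × ℕ) := [
  ([99999975967000, 100000012016500, 100000012016500], 12),
  ([75980800000000, 112001200000000, 112018000000000], 16),
  ([75988300000000, 112005100000000, 112006300000000], 12),
  ([75967000000000, 112016500000000, 112016500000000], 12),
  ([75968200000000, 112015900000000, 112015900000000], 12),
  ([75980800000000, 112008100000000, 112008100000000], 8),
  ([75968200000000, 112015000000000, 112016800000000], 12),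
  ([75989800000000, 100000015000000, 112016800000000], 8),
  ([75967000000000, 112015900000000, 112016800000000], 12),
  ([75986800000000, 112006600000000, 112006600000000], 12),
  ([75968800000000, 112015600000000, 112015600000000], 12),
  ([75968800000000, 112015000000000, 112015900000000], 12),
  ([99999991000000, 100000003000000, 100000003000000], 16),
  ([75984400000000, 112007800000000, 112007800000000], 12),
  ([75988300000000, 112005700000000, 112005700000000], 12),
  ([99999975980800, 100000012008100, 100000012008100], 8),
  ([99999975989800, 100000012001200, 100000012008100], 8),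
  ([99999975989800, 100000003000000, 100000012018000], 16),
  ([99999975988300, 100000012005100, 100000012006300], 12),
  ([100000000000000, 100000000000000, 100000000000000], 12),
  ([99999975980800, 100000012001200, 100000012016800], 16),
  ([99999975968800, 100000012015000, 100000012015900], 12),
  ([75989800000000, 100000012016800, 115000000000000], 8),
  ([99999975986800, 100000012006600, 100000012006600], 12),
  ([99999975968200, 100000012015000, 100000012016800], 12),
  ([99999975986800, 100000012005100, 100000012008100], 12),
  ([99999999999976, 100000000000000, 100000000000015], 12),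
  ([91000000000000, 91000000000000, 112016800000000], 16),
  ([99999975988300, 100000012005700, 100000012005700], 12),
  ([99999975984400, 100000012007800, 100000012007800], 12),
  ([99999975968200, 100000012015900, 100000012015900], 12),
  ([75984400000000, 112006300000000, 112008100000000], 12),
  ([75986800000000, 112005100000000, 112008100000000], 12),
  ([91000000000000, 91000000000000, 115000000000000], 6),
  ([99999975984400, 100000012006300, 100000012008100], 12),
  ([99999999999976, 100000000000012, 100000000000012], 12),
  ([99999991000000, 99999991000000, 100000015000000], 40),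
  ([99999975968800, 100000012015600, 100000012015600], 12),
  ([99999975967000, 100000012015900, 100000012016800], 12),
  ([91000000000000, 100000012018000, 100000012018000], 4),
  ([75989800000000, 112001200000000, 112008100000000], 8),
  ([99999999999991, 99999999999991, 100000000000015], 12),
  ([112018000000000, 112018000000000], 4), ([115000000000000, 115000000000000], 5)]

theorem cover_mem : ∀ c ∈ cover, ∀ x ∈ c.1, x ∈ wts := by decide

theorem cover_sum : ∀ c ∈ cover, c.1.sum ≤ cap := by decide

theorem cover_cov : ∀ x ∈ wts, 24 * wts.count x ≤ (cover.map (fun c => c.1.count x * c.2)).sum := by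
  decide

theorem cover_total : (cover.map (fun c => c.2)).sum = 523 := by decide

/-- The linear programming value of the 65 item instance is at most `523 / 24`. -/
theorem lp_inst_le : lp inst ≤ 523 / 24 := by
  have h := lp_le_of_list_cover 65 wts cap (by decide) (by decide) inst (fun i => rfl) cover 24
    (by decide) cover_mem cover_sum cover_cov
  rw [cover_total] at h
  exact_mod_cast h

end Vale.Agent.Lib.Helper8.P302LP
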