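import Vale.Agent.Lib.Helper8.P302M416Tree

/-!
Check of a part of the certificate.
-/

namespace Vale.Agent.Lib.Helper8.P302M416Tree

open Vale.Agent.Lib.Helper3.BinPacking Vale.Agent.Lib.Helper8.P302Cert
open Vale.Agent.Lib.Helper8.P302Cert3 Vale.Agent.Lib.Helper8.P302Cert4
open Vale.Agent.Lib.Helper8.P302Cert5 Vale.Agent.Lib.Helper8.P302Cert6
open Vale.Agent.Lib.Helper8.P302Cert7 Vale.Agent.Lib.Helper8.P302Cert8

theorem ok_traa : ∀ m h, PTree.MemP keyMask keyShift m h traa →
    stateOk7 414 (thrV wts416 cap416 416 wPack 64 (thrS (thrR16 rowTree rowDepth)))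
      (hasP keyMask deadTree) m h = true :=
  fun m h hm => everyP_of_mem keyMask keyShift _ m h traa (by decide +kernel) hm

theorem ok_trab : ∀ m h, PTree.MemP keyMask keyShift m h trab →
    stateOk7 414 (thrV wts416 cap416 416 wPack 64 (thrS (thrR16 rowTree rowDepth)))
      (hasP keyMask deadTree) m h = true :=
  fun m h hm => everyP_of_mem keyMask keyShift _ m h trab (by decide +kernel) hm

end Vale.Agent.Lib.Helper8.P302M416Tree
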