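import Vale.Agent.Lib.Helper8.P302M416Tree
import Vale.Agent.Lib.Helper8.P302M416Chk0
import Vale.Agent.Lib.Helper8.P302M416Chk1

/-!
Assembly of the certificate: the 414 smallest items cannot be split into 138 feasible triples.
-/

namespace Vale.Agent.Lib.Helper8.P302M416Tree

open Vale.Agent.Lib.Helper3.BinPacking Vale.Agent.Lib.Helper8.P302Cert
open Vale.Agent.Lib.Helper8.P302Cert3 Vale.Agent.Lib.Helper8.P302Cert4
open Vale.Agent.Lib.Helper8.P302Cert5 Vale.Agent.Lib.Helper8.P302Cert6
open Vale.Agent.Lib.Helper8.P302Cert7 Vale.Agent.Lib.Helper8.P302Cert8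

theorem ok_tra : ∀ m h, PTree.MemP keyMask keyShift m h tra →
    stateOk7 414 (thrV wts416 cap416 416 wPack 64 (thrS (thrR16 rowTree rowDepth)))
      (hasP keyMask deadTree) m h = true := by
  intro m h hm
  have hm' : PTree.MemP keyMask keyShift m h traa ∨ (m = (nat_lit 0x21fff0fffffffffffffffffffe63f80000000000000000000000000) ∧ h = (nat_lit 0x710072007100720071006d00c3006700d9)) ∨
      PTree.MemP keyMask keyShift m h trab := hm
  rcases hm' with h1 | ⟨h1, h2⟩ | h1
  · exact ok_traa m h h1
  · rw [h1, h2]
    decide +kernel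
  · exact ok_trab m h h1

theorem ok_trb : ∀ m h, PTree.MemP keyMask keyShift m h trb →
    stateOk7 414 (thrV wts416 cap416 416 wPack 64 (thrS (thrR16 rowTree rowDepth)))
      (hasP keyMask deadTree) m h = true := by
  intro m h hm
  have hm' : PTree.MemP keyMask keyShift m h trba ∨ (m = (nat_lit 0x1ffc03ffffffffffffffffffffffffffffffffffffffffffffffffffffffffffffffffffffffffff007e000000) ∧ h = (nat_lit 0x163016401630164001a0019)) ∨
      PTree.MemP keyMask keyShift m h trbb := hm
  rcases hm' with h1 | ⟨h1, h2⟩ | h1
  · exact ok_trba m h h1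
  · rw [h1, h2]
    decide +kernel
  · exact ok_trbb m h h1

theorem ok_tr : ∀ m h, PTree.MemP keyMask keyShift m h tr →
    stateOk7 414 (thrV wts416 cap416 416 wPack 64 (thrS (thrR16 rowTree rowDepth)))
      (hasP keyMask deadTree) m h = true := by
  intro m h hm
  have hm' : PTree.MemP keyMask keyShift m h tra ∨ (m = (nat_lit 0x381ffffffffffffffffffffffffffffffffffffffffffffffffffffc03000000000000000) ∧ h = (nat_lit 0x3d0046003d0120003c0121)) ∨
      PTree.MemP keyMask keyShift m h trb := hm
  rcases hm' with h1 | ⟨h1, h2⟩ | h1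
  · exact ok_tra m h h1
  · rw [h1, h2]
    decide +kernel
  · exact ok_trb m h h1

theorem sorted_ok : wts416.Pairwise (fun x y => x ≤ y) :=
  pairwise_of_sortedB _ (by decide +kernel)

/-- The 414 smallest items cannot be split into 138 triples of total weight at most the
capacity. -/
theorem pack_ok : packOk wts416 wPack 64 = true := by decide +kernel

theorem not_packable : ¬ Packable (fun i => wts416.getD i 0) cap416 (Finset.range 414) :=
  not_packable_of_cert9 wts416 cap416 414 416 wPack 64 keyMask keyShift rowDepth rowTree deadTree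
    (by decide +kernel) (by decide) sorted_ok pack_ok
    ok_tr (by decide +kernel)

end Vale.Agent.Lib.Helper8.P302M416Tree
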