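import Vale.Agent.Lib.Helper8.P302WTree

/-!
Check of a part of the certificate.
-/

namespace Vale.Agent.Lib.Helper8.P302WTree

open Vale.Agent.Lib.Helper3.BinPacking Vale.Agent.Lib.Helper8.P302Cert
open Vale.Agent.Lib.Helper8.P302Cert3 Vale.Agent.Lib.Helper8.P302Cert4

theorem ok_traaaaa : ∀ m h, HTree.MemH m h traaaaa → stateOk4 120 thrTable deadTree m h = true :=
  fun m h hm => everyH_of_mem _ m h traaaaa (by decide +kernel) hm

theorem ok_traaaab : ∀ m h, HTree.MemH m h traaaab → stateOk4 120 thrTable deadTree m h = true :=
  fun m h hm => everyH_of_mem _ m h traaaab (by decide +kernel) hm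

theorem ok_traaaba : ∀ m h, HTree.MemH m h traaaba → stateOk4 120 thrTable deadTree m h = true :=
  fun m h hm => everyH_of_mem _ m h traaaba (by decide +kernel) hm

theorem ok_traaabb : ∀ m h, HTree.MemH m h traaabb → stateOk4 120 thrTable deadTree m h = true :=
  fun m h hm => everyH_of_mem _ m h traaabb (by decide +kernel) hm

theorem ok_traabaa : ∀ m h, HTree.MemH m h traabaa → stateOk4 120 thrTable deadTree m h = true :=
  fun m h hm => everyH_of_mem _ m h traabaa (by decide +kernel) hm

theorem ok_traabab : ∀ m h, HTree.MemH m h traabab → stateOk4 120 thrTable deadTree m h = true :=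
  fun m h hm => everyH_of_mem _ m h traabab (by decide +kernel) hm

theorem ok_traabba : ∀ m h, HTree.MemH m h traabba → stateOk4 120 thrTable deadTree m h = true :=
  fun m h hm => everyH_of_mem _ m h traabba (by decide +kernel) hm

theorem ok_traabbb : ∀ m h, HTree.MemH m h traabbb → stateOk4 120 thrTable deadTree m h = true :=
  fun m h hm => everyH_of_mem _ m h traabbb (by decide +kernel) hm

end Vale.Agent.Lib.Helper8.P302WTree
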