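import Vale.Agent.Lib.Helper8.P302WTree

/-!
Check of a part of the certificate.
-/

namespace Vale.Agent.Lib.Helper8.P302WTree

open Vale.Agent.Lib.Helper3.BinPacking Vale.Agent.Lib.Helper8.P302Cert
open Vale.Agent.Lib.Helper8.P302Cert3 Vale.Agent.Lib.Helper8.P302Cert4

theorem ok_trabaaa : ∀ m h, HTree.MemH m h trabaaa → stateOk4 120 thrTable deadTree m h = true :=
  fun m h hm => everyH_of_mem _ m h trabaaa (by decide +kernel) hm

theorem ok_trabaab : ∀ m h, HTree.MemH m h trabaab → stateOk4 120 thrTable deadTree m h = true :=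
  fun m h hm => everyH_of_mem _ m h trabaab (by decide +kernel) hm

theorem ok_trababa : ∀ m h, HTree.MemH m h trababa → stateOk4 120 thrTable deadTree m h = true :=
  fun m h hm => everyH_of_mem _ m h trababa (by decide +kernel) hm

theorem ok_trababb : ∀ m h, HTree.MemH m h trababb → stateOk4 120 thrTable deadTree m h = true :=
  fun m h hm => everyH_of_mem _ m h trababb (by decide +kernel) hm

theorem ok_trabbaa : ∀ m h, HTree.MemH m h trabbaa → stateOk4 120 thrTable deadTree m h = true :=
  fun m h hm => everyH_of_mem _ m h trabbaa (by decide +kernel) hm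

theorem ok_trabbab : ∀ m h, HTree.MemH m h trabbab → stateOk4 120 thrTable deadTree m h = true :=
  fun m h hm => everyH_of_mem _ m h trabbab (by decide +kernel) hm

theorem ok_trabbba : ∀ m h, HTree.MemH m h trabbba → stateOk4 120 thrTable deadTree m h = true :=
  fun m h hm => everyH_of_mem _ m h trabbba (by decide +kernel) hm

theorem ok_trabbbb : ∀ m h, HTree.MemH m h trabbbb → stateOk4 120 thrTable deadTree m h = true :=
  fun m h hm => everyH_of_mem _ m h trabbbb (by decide +kernel) hm

end Vale.Agent.Lib.Helper8.P302WTree
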