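import Vale.Agent.Lib.Helper8.P302WTree

/-!
Check of a part of the certificate.
-/

namespace Vale.Agent.Lib.Helper8.P302WTree

open Vale.Agent.Lib.Helper3.BinPacking Vale.Agent.Lib.Helper8.P302Cert
open Vale.Agent.Lib.Helper8.P302Cert3 Vale.Agent.Lib.Helper8.P302Cert4

theorem ok_trbaaaa : ∀ m h, HTree.MemH m h trbaaaa → stateOk4 120 thrTable deadTree m h = true :=
  fun m h hm => everyH_of_mem _ m h trbaaaa (by decide +kernel) hm

theorem ok_trbaaab : ∀ m h, HTree.MemH m h trbaaab → stateOk4 120 thrTable deadTree m h = true :=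
  fun m h hm => everyH_of_mem _ m h trbaaab (by decide +kernel) hm

theorem ok_trbaaba : ∀ m h, HTree.MemH m h trbaaba → stateOk4 120 thrTable deadTree m h = true :=
  fun m h hm => everyH_of_mem _ m h trbaaba (by decide +kernel) hm

theorem ok_trbaabb : ∀ m h, HTree.MemH m h trbaabb → stateOk4 120 thrTable deadTree m h = true :=
  fun m h hm => everyH_of_mem _ m h trbaabb (by decide +kernel) hm

theorem ok_trbabaa : ∀ m h, HTree.MemH m h trbabaa → stateOk4 120 thrTable deadTree m h = true :=
  fun m h hm => everyH_of_mem _ m h trbabaa (by decide +kernel) hm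

theorem ok_trbabab : ∀ m h, HTree.MemH m h trbabab → stateOk4 120 thrTable deadTree m h = true :=
  fun m h hm => everyH_of_mem _ m h trbabab (by decide +kernel) hm

theorem ok_trbabba : ∀ m h, HTree.MemH m h trbabba → stateOk4 120 thrTable deadTree m h = true :=
  fun m h hm => everyH_of_mem _ m h trbabba (by decide +kernel) hm

theorem ok_trbabbb : ∀ m h, HTree.MemH m h trbabbb → stateOk4 120 thrTable deadTree m h = true :=
  fun m h hm => everyH_of_mem _ m h trbabbb (by decide +kernel) hm

end Vale.Agent.Lib.Helper8.P302WTree
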