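import Vale.Agent.Lib.Helper8.P302WTree

/-!
Check of a part of the certificate.
-/

namespace Vale.Agent.Lib.Helper8.P302WTree

open Vale.Agent.Lib.Helper3.BinPacking Vale.Agent.Lib.Helper8.P302Cert
open Vale.Agent.Lib.Helper8.P302Cert3 Vale.Agent.Lib.Helper8.P302Cert4

theorem ok_trbbaaa : ∀ m h, HTree.MemH m h trbbaaa → stateOk4 120 thrTable deadTree m h = true :=
  fun m h hm => everyH_of_mem _ m h trbbaaa (by decide +kernel) hm

theorem ok_trbbaab : ∀ m h, HTree.MemH m h trbbaab → stateOk4 120 thrTable deadTree m h = true :=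
  fun m h hm => everyH_of_mem _ m h trbbaab (by decide +kernel) hm

theorem ok_trbbaba : ∀ m h, HTree.MemH m h trbbaba → stateOk4 120 thrTable deadTree m h = true :=
  fun m h hm => everyH_of_mem _ m h trbbaba (by decide +kernel) hm

theorem ok_trbbabb : ∀ m h, HTree.MemH m h trbbabb → stateOk4 120 thrTable deadTree m h = true :=
  fun m h hm => everyH_of_mem _ m h trbbabb (by decide +kernel) hm

theorem ok_trbbbaa : ∀ m h, HTree.MemH m h trbbbaa → stateOk4 120 thrTable deadTree m h = true :=
  fun m h hm => everyH_of_mem _ m h trbbbaa (by decide +kernel) hm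

theorem ok_trbbbab : ∀ m h, HTree.MemH m h trbbbab → stateOk4 120 thrTable deadTree m h = true :=
  fun m h hm => everyH_of_mem _ m h trbbbab (by decide +kernel) hm

theorem ok_trbbbba : ∀ m h, HTree.MemH m h trbbbba → stateOk4 120 thrTable deadTree m h = true :=
  fun m h hm => everyH_of_mem _ m h trbbbba (by decide +kernel) hm

theorem ok_trbbbbb : ∀ m h, HTree.MemH m h trbbbbb → stateOk4 120 thrTable deadTree m h = true :=
  fun m h hm => everyH_of_mem _ m h trbbbbb (by decide +kernel) hm

end Vale.Agent.Lib.Helper8.P302WTree
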