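import Vale.Agent.Lib.Helper8.P302WTbl
import Vale.Agent.Lib.Helper8.P302WChk0
import Vale.Agent.Lib.Helper8.P302WChk1
import Vale.Agent.Lib.Helper8.P302WChk2
import Vale.Agent.Lib.Helper8.P302WChk3

/-!
Assembly of the certificate: the 120 smallest items cannot be split into 40 feasible triples.
-/

namespace Vale.Agent.Lib.Helper8.P302WTree

open Vale.Agent.Lib.Helper3.BinPacking Vale.Agent.Lib.Helper8.P302Cert
open Vale.Agent.Lib.Helper8.P302Cert3 Vale.Agent.Lib.Helper8.P302Cert4

theorem ok_traaaa : ∀ m h, HTree.MemH m h traaaa → stateOk4 120 thrTable deadTree m h = true := by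
  intro m h hm
  have hm' : HTree.MemH m h traaaaa ∨ (m = (nat_lit 0x5f87c04c0000000) ∧ h = (nat_lit 0x222a2e22381f381e3a)) ∨
      HTree.MemH m h traaaab := hm
  rcases hm' with h1 | ⟨h1, h2⟩ | h1
  · exact ok_traaaaa m h h1
  · rw [h1, h2]
    decide +kernel
  · exact ok_traaaab m h h1

theorem ok_traaab : ∀ m h, HTree.MemH m h traaab → stateOk4 120 thrTable deadTree m h = true := by
  intro m h hm
  have hm' : HTree.MemH m h traaaba ∨ (m = (nat_lit 0x327ffffffffc0900000) ∧ h = (nat_lit 0x171e4817481449)) ∨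
      HTree.MemH m h traaabb := hm
  rcases hm' with h1 | ⟨h1, h2⟩ | h1
  · exact ok_traaaba m h h1
  · rw [h1, h2]
    decide +kernel
  · exact ok_traaabb m h h1

theorem ok_traaa : ∀ m h, HTree.MemH m h traaa → stateOk4 120 thrTable deadTree m h = true := by
  intro m h hm
  have hm' : HTree.MemH m h traaaa ∨ (m = (nat_lit 0x79fffcfe40000000) ∧ h = (nat_lit 0x26272726312531243123312232213d1e3e)) ∨
      HTree.MemH m h traaab := hm
  rcases hm' with h1 | ⟨h1, h2⟩ | h1
  · exact ok_traaaa m h h1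
  · rw [h1, h2]
    decide +kernel
  · exact ok_traaab m h h1

theorem ok_traaba : ∀ m h, HTree.MemH m h traaba → stateOk4 120 thrTable deadTree m h = true := by
  intro m h hm
  have hm' : HTree.MemH m h traabaa ∨ (m = (nat_lit 0xfc1fffffffff00c0000) ∧ h = (nat_lit 0x1c1d1d1c4a134a124b)) ∨
      HTree.MemH m h traabab := hm
  rcases hm' with h1 | ⟨h1, h2⟩ | h1
  · exact ok_traabaa m h h1
  · rw [h1, h2]
    decide +kernel
  · exact ok_traabab m h h1

theorem ok_traabb : ∀ m h, HTree.MemH m h traabb → stateOk4 120 thrTable deadTree m h = true := by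
  intro m h hm
  have hm' : HTree.MemH m h traabba ∨ (m = (nat_lit 0x3fa3ffffffffc1920000) ∧ h = (nat_lit 0x181e47184a174c144c114d)) ∨
      HTree.MemH m h traabbb := hm
  rcases hm' with h1 | ⟨h1, h2⟩ | h1
  · exact ok_traabba m h h1
  · rw [h1, h2]
    decide +kernel
  · exact ok_traabbb m h h1

theorem ok_traab : ∀ m h, HTree.MemH m h traab → stateOk4 120 thrTable deadTree m h = true := by
  intro m h hm
  have hm' : HTree.MemH m h traaba ∨ (m = (nat_lit 0x1f81fffffffff00c0000) ∧ h = (nat_lit 0x1c1d1d1c4b134b124c)) ∨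
      HTree.MemH m h traabb := hm
  rcases hm' with h1 | ⟨h1, h2⟩ | h1
  · exact ok_traaba m h h1
  · rw [h1, h2]
    decide +kernel
  · exact ok_traabb m h h1

theorem ok_traa : ∀ m h, HTree.MemH m h traa → stateOk4 120 thrTable deadTree m h = true := by
  intro m h hm
  have hm' : HTree.MemH m h traaa ∨ (m = (nat_lit 0x7e0ffffffffc0030000) ∧ h = (nat_lit 0x111e491149104a)) ∨
      HTree.MemH m h traab := hm
  rcases hm' with h1 | ⟨h1, h2⟩ | h1
  · exact ok_traaa m h h1
  · rw [h1, h2]
    decide +kernel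
  · exact ok_traab m h h1

theorem ok_trabaa : ∀ m h, HTree.MemH m h trabaa → stateOk4 120 thrTable deadTree m h = true := by
  intro m h hm
  have hm' : HTree.MemH m h trabaaa ∨ (m = (nat_lit 0xbf80ffffffffc02a0000) ∧ h = (nat_lit 0x151e4d154d134d114f)) ∨
      HTree.MemH m h trabaab := hm
  rcases hm' with h1 | ⟨h1, h2⟩ | h1
  · exact ok_trabaaa m h h1
  · rw [h1, h2]
    decide +kernel
  · exact ok_trabaab m h h1

theorem ok_trabab : ∀ m h, HTree.MemH m h trabab → stateOk4 120 thrTable deadTree m h = true := by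
  intro m h hm
  have hm' : HTree.MemH m h trababa ∨ (m = (nat_lit 0x19fe3ffffffffc1cc0000) ∧ h = (nat_lit 0x181e4518451746164f134f1250)) ∨
      HTree.MemH m h trababb := hm
  rcases hm' with h1 | ⟨h1, h2⟩ | h1
  · exact ok_trababa m h h1
  · rw [h1, h2]
    decide +kernel
  · exact ok_trababb m h h1

theorem ok_traba : ∀ m h, HTree.MemH m h traba → stateOk4 120 thrTable deadTree m h = true := by
  intro m h hm
  have hm' : HTree.MemH m h trabaa ∨ (m = (nat_lit 0xdfc1ffffffffc0d10000) ∧ h = (nat_lit 0x171e401746164e144e104f)) ∨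
      HTree.MemH m h trabab := hm
  rcases hm' with h1 | ⟨h1, h2⟩ | h1
  · exact ok_trabaa m h h1
  · rw [h1, h2]
    decide +kernel
  · exact ok_trabab m h h1

theorem ok_trabba : ∀ m h, HTree.MemH m h trabba → stateOk4 120 thrTable deadTree m h = true := by
  intro m h hm
  have hm' : HTree.MemH m h trabbaa ∨ (m = (nat_lit 0x2dfc1fffffffff0ca0000) ∧ h = (nat_lit 0x1c1d1d1c401746164f134f1151)) ∨
      HTree.MemH m h trabbab := hm
  rcases hm' with h1 | ⟨h1, h2⟩ | h1
  · exact ok_trabbaa m h h1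
  · rw [h1, h2]
    decide +kernel
  · exact ok_trabbab m h h1

theorem ok_trabbb : ∀ m h, HTree.MemH m h trabbb → stateOk4 120 thrTable deadTree m h = true := by
  intro m h hm
  have hm' : HTree.MemH m h trabbba ∨ (m = (nat_lit 0x79fc7ffffffffc3c88000) ∧ h = (nat_lit 0x191e42194218421746165113510f52)) ∨
      HTree.MemH m h trabbbb := hm
  rcases hm' with h1 | ⟨h1, h2⟩ | h1
  · exact ok_trabbba m h h1
  · rw [h1, h2]
    decide +kernel
  · exact ok_trabbbb m h h1

theorem ok_trabb : ∀ m h, HTree.MemH m h trabb → stateOk4 120 thrTable deadTree m h = true := by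
  intro m h hm
  have hm' : HTree.MemH m h trabba ∨ (m = (nat_lit 0x3bfc1ffffffffc0ea0000) ∧ h = (nat_lit 0x171e401746164d155013501151)) ∨
      HTree.MemH m h trabbb := hm
  rcases hm' with h1 | ⟨h1, h2⟩ | h1
  · exact ok_trabba m h h1
  · rw [h1, h2]
    decide +kernel
  · exact ok_trabbb m h h1

theorem ok_trab : ∀ m h, HTree.MemH m h trab → stateOk4 120 thrTable deadTree m h = true := by
  intro m h hm
  have hm' : HTree.MemH m h traba ∨ (m = (nat_lit 0x1ffc1ffffffffc0f08000) ∧ h = (nat_lit 0x171e401746164e154f144f0f50)) ∨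
      HTree.MemH m h trabb := hm
  rcases hm' with h1 | ⟨h1, h2⟩ | h1
  · exact ok_traba m h h1
  · rw [h1, h2]
    decide +kernel
  · exact ok_trabb m h h1

theorem ok_tra : ∀ m h, HTree.MemH m h tra → stateOk4 120 thrTable deadTree m h = true := by
  intro m h hm
  have hm' : HTree.MemH m h traa ∨ (m = (nat_lit 0x5fe07fffffffc00b0000) ∧ h = (nat_lit 0x131e4c134c114c104e)) ∨
      HTree.MemH m h trab := hm
  rcases hm' with h1 | ⟨h1, h2⟩ | h1
  · exact ok_traa m h h1
  · rw [h1, h2]
    decide +kernel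
  · exact ok_trab m h h1

theorem ok_trbaaa : ∀ m h, HTree.MemH m h trbaaa → stateOk4 120 thrTable deadTree m h = true := by
  intro m h hm
  have hm' : HTree.MemH m h trbaaaa ∨ (m = (nat_lit 0x3cfffffffffffffcffc8000) ∧ h = (nat_lit 0x1b1e441b441a44194418441744164415441444134512580f59)) ∨
      HTree.MemH m h trbaaab := hm
  rcases hm' with h1 | ⟨h1, h2⟩ | h1
  · exact ok_trbaaaa m h h1
  · rw [h1, h2]
    decide +kernel
  · exact ok_trbaaab m h h1

theorem ok_trbaab : ∀ m h, HTree.MemH m h trbaab → stateOk4 120 thrTable deadTree m h = true := by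
  intro m h hm
  have hm' : HTree.MemH m h trbaaba ∨ (m = (nat_lit 0x581fffffffffffffffffffe040) ∧ h = (nat_lit 0xd0e0e0d640666)) ∨
      HTree.MemH m h trbaabb := hm
  rcases hm' with h1 | ⟨h1, h2⟩ | h1
  · exact ok_trbaaba m h h1
  · rw [h1, h2]
    decide +kernel
  · exact ok_trbaabb m h h1

theorem ok_trbaa : ∀ m h, HTree.MemH m h trbaa → stateOk4 120 thrTable deadTree m h = true := by
  intro m h hm
  have hm' : HTree.MemH m h trbaaa ∨ (m = (nat_lit 0x1c0fffffffffffffffffff8001) ∧ h = (nat_lit 0xf630064)) ∨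
      HTree.MemH m h trbaab := hm
  rcases hm' with h1 | ⟨h1, h2⟩ | h1
  · exact ok_trbaaa m h h1
  · rw [h1, h2]
    decide +kernel
  · exact ok_trbaab m h h1

theorem ok_trbaba : ∀ m h, HTree.MemH m h trbaba → stateOk4 120 thrTable deadTree m h = true := by
  intro m h hm
  have hm' : HTree.MemH m h trbabaa ∨ (m = (nat_lit 0xfc1fffffffffffffffffff8160) ∧ h = (nat_lit 0x80f65086606660567)) ∨
      HTree.MemH m h trbabab := hm
  rcases hm' with h1 | ⟨h1, h2⟩ | h1
  · exact ok_trbabaa m h h1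
  · rw [h1, h2]
    decide +kernel
  · exact ok_trbabab m h h1

theorem ok_trbabb : ∀ m h, HTree.MemH m h trbabb → stateOk4 120 thrTable deadTree m h = true := by
  intro m h hm
  have hm' : HTree.MemH m h trbabba ∨ (m = (nat_lit 0x3fc07ffffffffffffffffff8051) ∧ h = (nat_lit 0x60f68066804680069)) ∨
      HTree.MemH m h trbabbb := hm
  rcases hm' with h1 | ⟨h1, h2⟩ | h1
  · exact ok_trbabba m h h1
  · rw [h1, h2]
    decide +kernel
  · exact ok_trbabbb m h h1

theorem ok_trbab : ∀ m h, HTree.MemH m h trbab → stateOk4 120 thrTable deadTree m h = true := by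
  intro m h hm
  have hm' : HTree.MemH m h trbaba ∨ (m = (nat_lit 0x1fe0fffffffffffffffffffe091) ∧ h = (nat_lit 0xd0e0e0d67076704670068)) ∨
      HTree.MemH m h trbabb := hm
  rcases hm' with h1 | ⟨h1, h2⟩ | h1
  · exact ok_trbaba m h h1
  · rw [h1, h2]
    decide +kernel
  · exact ok_trbabb m h h1

theorem ok_trba : ∀ m h, HTree.MemH m h trba → stateOk4 120 thrTable deadTree m h = true := by
  intro m h hm
  have hm' : HTree.MemH m h trbaa ∨ (m = (nat_lit 0x7e1fffffffffffffffffff8121) ∧ h = (nat_lit 0x80f65086505650066)) ∨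
      HTree.MemH m h trbab := hm
  rcases hm' with h1 | ⟨h1, h2⟩ | h1
  · exact ok_trbaa m h h1
  · rw [h1, h2]
    decide +kernel
  · exact ok_trbab m h h1

theorem ok_trbbaa : ∀ m h, HTree.MemH m h trbbaa → stateOk4 120 thrTable deadTree m h = true := by
  intro m h hm
  have hm' : HTree.MemH m h trbbaaa ∨ (m = (nat_lit 0x6ff07ffffffffffffffffff809a) ∧ h = (nat_lit 0x70f61076904690369016a)) ∨
      HTree.MemH m h trbbaab := hm
  rcases hm' with h1 | ⟨h1, h2⟩ | h1
  · exact ok_trbbaaa m h h1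
  · rw [h1, h2]
    decide +kernel
  · exact ok_trbbaab m h h1

theorem ok_trbbab : ∀ m h, HTree.MemH m h trbbab → stateOk4 120 thrTable deadTree m h = true := by
  intro m h hm
  have hm' : HTree.MemH m h trbbaba ∨ (m = (nat_lit 0xfff0fffffffffffffffffffe1e1) ∧ h = (nat_lit 0xd0e0e0d6008610769066a056a006b)) ∨
      HTree.MemH m h trbbabb := hm
  rcases hm' with h1 | ⟨h1, h2⟩ | h1
  · exact ok_trbbaba m h h1
  · rw [h1, h2]
    decide +kernel
  · exact ok_trbbabb m h h1

theorem ok_trbba : ∀ m h, HTree.MemH m h trbba → stateOk4 120 thrTable deadTree m h = true := by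
  intro m h hm
  have hm' : HTree.MemH m h trbbaa ∨ (m = (nat_lit 0xdfc3fffffffffffffffffff8750) ∧ h = (nat_lit 0xa0f5d0a5d095d0868066a046b)) ∨
      HTree.MemH m h trbbab := hm
  rcases hm' with h1 | ⟨h1, h2⟩ | h1
  · exact ok_trbbaa m h h1
  · rw [h1, h2]
    decide +kernel
  · exact ok_trbbab m h h1

theorem ok_trbbba : ∀ m h, HTree.MemH m h trbbba → stateOk4 120 thrTable deadTree m h = true := by
  intro m h hm
  have hm' : HTree.MemH m h trbbbaa ∨ (m = (nat_lit 0x1efc3fffffffffffffffffffe730) ∧ h = (nat_lit 0xd0e0e0d5d0a5d095d086b056b046c)) ∨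
      HTree.MemH m h trbbbab := hm
  rcases hm' with h1 | ⟨h1, h2⟩ | h1
  · exact ok_trbbbaa m h h1
  · rw [h1, h2]
    decide +kernel
  · exact ok_trbbbab m h h1

theorem ok_trbbbb : ∀ m h, HTree.MemH m h trbbbb → stateOk4 120 thrTable deadTree m h = true := by
  intro m h hm
  have hm' : HTree.MemH m h trbbbba ∨ (m = (nat_lit 0x7ffe0fffffffffffffffffffe1f4) ∧ h = (nat_lit 0xd0e0e0d5b086107680669056b046d026e)) ∨
      HTree.MemH m h trbbbbb := hm
  rcases hm' with h1 | ⟨h1, h2⟩ | h1
  · exact ok_trbbbba m h h1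
  · rw [h1, h2]
    decide +kernel
  · exact ok_trbbbbb m h h1

theorem ok_trbbb : ∀ m h, HTree.MemH m h trbbb → stateOk4 120 thrTable deadTree m h = true := by
  intro m h hm
  have hm' : HTree.MemH m h trbbba ∨ (m = (nat_lit 0x3dfc3fffffffffffffffffff8751) ∧ h = (nat_lit 0xa0f5d0a5d095d0868066c046c006d)) ∨
      HTree.MemH m h trbbbb := hm
  rcases hm' with h1 | ⟨h1, h2⟩ | h1
  · exact ok_trbbba m h h1
  · rw [h1, h2]
    decide +kernel
  · exact ok_trbbbb m h h1

theorem ok_trbb : ∀ m h, HTree.MemH m h trbb → stateOk4 120 thrTable deadTree m h = true := by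
  intro m h hm
  have hm' : HTree.MemH m h trbba ∨ (m = (nat_lit 0x16ff03ffffffffffffffffff802d) ∧ h = (nat_lit 0x50f6a056a036a026a006c)) ∨
      HTree.MemH m h trbbb := hm
  rcases hm' with h1 | ⟨h1, h2⟩ | h1
  · exact ok_trbba m h h1
  · rw [h1, h2]
    decide +kernel
  · exact ok_trbbb m h h1

theorem ok_trb : ∀ m h, HTree.MemH m h trb → stateOk4 120 thrTable deadTree m h = true := by
  intro m h hm
  have hm' : HTree.MemH m h trba ∨ (m = (nat_lit 0x5fc1fffffffffffffffffff8134) ∧ h = (nat_lit 0x80f5c086805680468026a)) ∨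
      HTree.MemH m h trbb := hm
  rcases hm' with h1 | ⟨h1, h2⟩ | h1
  · exact ok_trba m h h1
  · rw [h1, h2]
    decide +kernel
  · exact ok_trbb m h h1

theorem ok_tr : ∀ m h, HTree.MemH m h tr → stateOk4 120 thrTable deadTree m h = true := by
  intro m h hm
  have hm' : HTree.MemH m h tra ∨ (m = (nat_lit 0xfff83fffffffff1b88000) ∧ h = (nat_lit 0x1c1d1d1c411841174d154e145013520f53)) ∨
      HTree.MemH m h trb := hm
  rcases hm' with h1 | ⟨h1, h2⟩ | h1
  · exact ok_tra m h h1
  · rw [h1, h2]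
    decide +kernel
  · exact ok_trb m h h1

theorem sorted_ok : wts122.Pairwise (fun x y => x ≤ y) := by decide +kernel

/-- The 120 smallest items cannot be split into 40 triples of total weight at most the
capacity. -/
theorem not_packable : ¬ Packable (fun i => wts122.getD i 0) cap122 (Finset.range 120) :=
  not_packable_of_cert5 wts122 cap122 120 thrTable wPack 64 deadTree (by decide) sorted_ok thrTable_ok
    ok_tr (by decide +kernel)

end Vale.Agent.Lib.Helper8.P302WTree
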