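import Vale.Agent.Lib.Helper8.P302WTree

/-!
Validation of the table of thresholds.
-/

namespace Vale.Agent.Lib.Helper8.P302WTree

open Vale.Agent.Lib.Helper3.BinPacking Vale.Agent.Lib.Helper8.P302Cert
open Vale.Agent.Lib.Helper8.P302Cert3 Vale.Agent.Lib.Helper8.P302Cert4

theorem thrTable_ok : tblOk5 wts122 cap122 120 thrTable wPack 64 = true := by decide +kernel

end Vale.Agent.Lib.Helper8.P302WTree
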