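import Mathlib

/-!
A compactness lemma for probability vectors on a finite type: if every finite family of
linear test inequalities is satisfied by some probability vector, then one probability vector
satisfies all of them.
-/

namespace Vale.Agent.Lib.Helper8.SimplexCompact

open Finset

theorem exists_distribution_of_finite_tests {X : Type} [Fintype X] {ι : Type*}
    (f : ι → X → ℝ) (c : ι → ℝ)
    (h : ∀ s : Finset ι, ∃ p : X → ℝ, (∀ x, 0 ≤ p x) ∧ ∑ x, p x = 1 ∧
      ∀ i ∈ s, ∑ x, p x * f i x ≤ c i) :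
    ∃ p : X → ℝ, (∀ x, 0 ≤ p x) ∧ ∑ x, p x = 1 ∧ ∀ i, ∑ x, p x * f i x ≤ c i := by
  classical
  have hK : IsCompact (stdSimplex ℝ X) := isCompact_stdSimplex ℝ X
  let t : ι → Set (X → ℝ) := fun i => {p | ∑ x, p x * f i x ≤ c i}
  have htc : ∀ i, IsClosed (t i) := by
    intro i
    have hcont : Continuous (fun p : X → ℝ => ∑ x, p x * f i x) := by
      apply continuous_finsetSum
      intro x _
      exact (continuous_apply x).mul continuous_const
    exact isClosed_le hcont continuous_const
  have hst : ∀ u : Finset ι, (stdSimplex ℝ X ∩ ⋂ i ∈ u, t i).Nonempty := by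
    intro u
    obtain ⟨p, hp0, hp1, hpu⟩ := h u
    refine ⟨p, ⟨hp0, hp1⟩, ?_⟩
    simp only [Set.mem_iInter]
    intro i hi
    exact hpu i hi
  obtain ⟨p, hpK, hpt⟩ := hK.inter_iInter_nonempty t htc hst
  refine ⟨p, hpK.1, hpK.2, ?_⟩
  intro i
  have := Set.mem_iInter.1 hpt i
  exact this

end Vale.Agent.Lib.Helper8.SimplexCompact
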